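import Vale.Agent.P283R.Sq.All2
import Vale.Agent.P283R.Sl.Sq2

/-!
# P283R, block SQ: the two words for spherical varieties
-/

namespace Vale.Agent.P283R.Sl

open Var

theorem sphericalFix_empty {X : Var} {N : ℕ} {U : X.X.Opens} :
    SphericalFix N U ∅ ↔ IsSpherical N U :=
  ⟨SphericalFix.old, fun ⟨L, _, _, x, G, H, l, r, i, a, b, c, d, e⟩ =>
    ⟨L, _, _, x, G, H, l, r, i, a, b, c, d, e, fun _ _ _ _ _ _ _ _ h => h.elim⟩⟩

theorem on_sqf : On fun _ _ _ f ω B z => FanoType f ω ∧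
    NefOver f (-logCan ω B) ∧ ∃ W N, z.In W ∧ SphericalFix N (pre f W) ∅ :=
  on_sqb.mono fun _ _ _ _ _ _ _ ⟨a, b, W, N, p, q⟩ => ⟨a, b, W, N, p, q.old⟩

end Vale.Agent.P283R.Sl
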