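import Vale.Agent.P283R.Sq.Onf32
import Vale.Agent.P283R.Sq.Onw32
import Vale.Agent.P283R.Tq.Jn48
import Vale.Agent.P283R.Sf.Ack33
import Vale.Agent.P283R.Sf.Afg27
import Vale.Agent.P283R.Sf.Apx99
import Vale.Agent.P283R.Sf.Asf
import Vale.Agent.P283R.Sf.Cox12
import Vale.Agent.P283R.Sf.Hwk15
import Vale.Agent.P283R.Sf.Inv4
import Vale.Agent.P283R.Sf.Kru3
import Vale.Agent.P283R.Sf.Mins55
import Vale.Agent.P283R.Sf.Mul45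
import Vale.Agent.P283R.Sf.Nakg56
import Vale.Agent.P283R.Sf.Pt14
import Vale.Agent.P283R.Sf.Sep84
import Vale.Agent.P283R.Sf.Spa27
import Vale.Agent.P283R.Sf.Spf20
import Vale.Agent.P283R.Sf.Spk4
import Vale.Agent.P283R.Sf.Sys78
import Vale.Agent.P283R.Sf.Uni15

/-!
# P283R, block SQ: quotients of spherical varieties by finite groups
-/

namespace Vale.Agent.P283R

theorem Sq.gen0 : Sg.GEN := Sg.genr19 Sg.eig Sg.lie Sg.fct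

theorem Sq.ack0 : Sf.ACK := Sf.ackr33 Sg.res Sg.lie Sq.gen0

theorem Sq.inv0 : Sf.INV := Sf.invr4 Sf.mul45

theorem Sq.spf0 : Sf.SPF := Sf.spfr20 Sg.res Sq.ack0 Sf.pt14 (Sf.asf Sg.fct
  (Sf.coxr12 Sg.gg27 Sg.fct Sf.spa27) Sf.afg27 Sf.sys78 Sq.ack0
  (Sf.hwkr15 Sg.eig Sg.fct (Sg.cntr40 Sg.res) Sq.gen0
    (Sg.modr88 Sg.res Sg.fct Sg.dvd19 Sg.nil Sg.nlp Sg.pbw Sg.bnd
      (Sg.wedr Sg.res Sg.loc Sg.fct Sg.jac84 Sg.dvd19 Sg.nlp)) Sf.spa27)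
  Sq.inv0 (Sf.unir15 Sf.pt14 Sf.mul45 Sq.inv0) (Sf.minsr55 Sf.mul45 Sq.inv0)
  (Sf.spkr4 Sf.mul45 Sq.inv0) Sf.apx99 (Sf.nakgr56 Sf.mul45 Sq.inv0 (Sf.krur3 Sf.spa27))
  (Sf.sepr84 Sg.fct))

open Sl.Var in
theorem Sl.on_sphq : Sl.On fun _ _ _ f ω B z => FanoType f ω ∧ NefOver f (-logCan ω B) ∧
    Sl.SphQuot f z :=
  Sq.on_sphq_of Tq.fcr55 Tq.stg Tq.quo10 Sq.spf0

end Vale.Agent.P283R
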