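import Vale.Agent.P283R.Sg.All2

/-!
# P283R, block SQ: more divisors
-/

open Set

noncomputable section

namespace Vale.Agent.P283R.Sq

open Vale.Agent.P287D Vale.Agent.P283R.Sl Vale.Agent.P297Z Sg Sg.F9

namespace C32

variable {K : Type} [Field K] [Algebra ℂ K] {d k k' N : ℕ}

/-- extension by zero -/
def ex (ι : Fin k → Fin k') : (Fin k → ℤ) →+ Fin k' → ℤ where
  toFun m := ∑ i, Pi.single (ι i) (m i)
  map_zero' := by simp
  map_add' m m' := by simp [Pi.single_add, Finset.sum_add_distrib]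

theorem ex_dot (ι : Fin k → Fin k') (m : Fin k → ℤ) (v : Fin k' → ℤ) :
    ex ι m ⬝ᵥ v = m ⬝ᵥ fun i => v (ι i) := by
  show (∑ i, Pi.single (ι i) (m i)) ⬝ᵥ v = _
  rw [sum_dotProduct]
  simp only [single_dotProduct]
  rfl

theorem ex_in {ι : Fin k → Fin k'} (h : Function.Injective ι) (m : Fin k → ℤ) (i : Fin k) :
    ex ι m (ι i) = m i := by
  show (∑ i, Pi.single (ι i) (m i) : Fin k' → ℤ) (ι i) = _
  simp [Finset.sum_apply, Pi.single_apply, h.eq_iff]

theorem ex_out {ι : Fin k → Fin k'} (m : Fin k → ℤ) {j : Fin k'} (h : j ∉ range ι) :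
    ex ι m j = 0 := by
  show (∑ i, Pi.single (ι i) (m i) : Fin k' → ℤ) j = _
  rw [Finset.sum_apply]
  exact Finset.sum_eq_zero fun i _ => Pi.single_eq_of_ne (fun e => h ⟨i, e.symm⟩) _

theorem sg_pr {I : Type} (S : Finset I) (w : I → Fin k → ℤ) (ψ : I → K) :
    ∏ i ∈ S, sg (w i) (ψ i) = sg (∑ i ∈ S, w i) (∏ i ∈ S, ψ i) := by
  classical
  induction S using Finset.induction_on with
  | empty => rfl
  | insert j S hj ih => rw [Finset.prod_insert hj, Finset.prod_insert hj, Finset.sum_insert hj, ih,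
      sg_mul]

theorem zp {B : Subalgebra ℂ (Laurent K k)} {w : Fin k → ℤ} {ψ : K} (h : sg w ψ ∈ B)
    (h' : sg (-w) ψ⁻¹ ∈ B) (z : ℤ) : sg (z • w) (ψ ^ z) ∈ B := by
  obtain ⟨n, rfl | rfl⟩ := z.eq_nat_or_neg
  · have := pow_mem h n
    rw [AddMonoidAlgebra.single_pow] at this
    rwa [natCast_zsmul, zpow_natCast]
  · have := pow_mem h' n
    rw [AddMonoidAlgebra.single_pow] at this
    rwa [neg_smul, natCast_zsmul, zpow_neg, zpow_natCast, ← inv_pow, ← smul_neg]

end C32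

open C32 in
/-- **more divisors**: every new divisor costs one generator -/
theorem chg {K : Type} [Field K] [Algebra ℂ K] {d k k' N : ℕ} {T : Set (Pl K)}
    {D : Pl K → Fin k → ℤ} {x : Pl K → K} {e : Pl K → Fin k → ℤ} (h : Fac d T D x e)
    {D' : Pl K → Fin k' → ℤ} {ι : Fin k → Fin k'} (inj : Function.Injective ι)
    (hι : ∀ P ∈ T, ∀ i, D' P (ι i) = D P i) (fin : ∀ i, {P | P ∈ T ∧ D' P i ≠ 0}.Finite)
    (gen : GradedGen N (Sg.Sec T D)) :
    GradedGen (N + (k' - k + 1)) (Sg.Sec T D') ∧ Fac d T D' x fun P => ex ι (e P) := by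
  classical
  have dt : ∀ m, ∀ P ∈ T, ex ι m ⬝ᵥ D' P = m ⬝ᵥ D P := fun m P p => by
    rw [ex_dot, funext (hι P p)]
  refine ⟨?_, h.pos, h.ff, fun φ m => ((h.fin φ 0).union (finite_iUnion fin)).subset
    fun P p => by_contra fun c => p.2 ?_, h.can, h.ne, fun P p => by rw [dt _ P p, h.one P p],
    fun P p Q q c => by rw [dt _ Q q, h.zero P p Q q c]⟩
  swap
  · have a : P.ord φ = 0 := by
      by_contra w
      exact c (.inl ⟨p.1, by simpa using w⟩)
    have b : D' P = 0 := funext fun i => by_contra fun w => c (.inr (mem_iUnion.2 ⟨i, p.1, w⟩))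
    rw [a, b, dotProduct_zero, add_zero]
  obtain ⟨R, r1, r2, r3, -⟩ := gg27 K k T D
  obtain ⟨R', q1, q2, -, q4⟩ := gg27 K k' T D'
  obtain ⟨s, a, hs⟩ := r3 N gen
  choose m₁ ψ ψ0 hψ using fun i : {i // i ∉ range ι} =>
    (fct K d k T D x e h).2 (fun P => D' P i) (fin i)
  let w : {i // i ∉ range ι} → Fin k' → ℤ := fun i => ex ι (m₁ i) - Pi.single i.1 1
  have hw : ∀ i, ∀ P ∈ T, P.ord (ψ i) + w i ⬝ᵥ D' P = 0 := fun i P p => by
    have := hψ i P p
    simp only [w, sub_dotProduct, single_dotProduct, one_mul, dt _ P p]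
    omega
  have wo : ∀ i j : {i // i ∉ range ι}, w i j = if j = i then -1 else 0 := fun i j => by
    simp only [w, Pi.sub_apply, ex_out _ j.2, Pi.single_apply, Subtype.ext_iff]
    split_ifs <;> rfl
  have := q4 (Fin N ⊕ Option {i // i ∉ range ι})
    (Sum.elim s fun o => o.elim (∏ i, ψ i)⁻¹ ψ)
    (Sum.elim (fun j => ex ι (a j)) fun o => o.elim (-∑ i, w i) w) (le_antisymm
    (Algebra.adjoin_le (forall_mem_range.2 fun o => (q2 _ _).2 ?_)) fun F hF => ?_)
  · rw [Fintype.card_sum, Fintype.card_option, Fintype.card_fin, Fintype.card_subtype_compl,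
      Fintype.card_fin] at this
    rwa [show Fintype.card {i // i ∈ range ι} = k from
      (Fintype.card_congr (Equiv.ofInjective ι inj).symm).trans (Fintype.card_fin k)] at this
  · rcases o with j | _ | i
    · intro z P p
      have := (r2 _ _).1 (hs ▸ Algebra.subset_adjoin (mem_range_self j)) z P p
      rwa [← dt _ P p] at this
    · intro _ P p
      have : ∑ i, (P.ord (ψ i) + w i ⬝ᵥ D' P) = 0 := Finset.sum_eq_zero fun i _ => hw i P p
      simp only [Sum.elim_inr, Option.elim, Pl.ord_inv, neg_dotProduct, sum_dotProduct]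
      rw [P.ord_prod _ fun i _ => ψ0 i]
      rw [Finset.sum_add_distrib] at this
      omega
    · exact fun _ P p => (hw i P p).ge
  generalize hB : (Algebra.adjoin ℂ _ : Subalgebra ℂ (Laurent K k')) = B
  have b1 : ∀ i, sg (w i) (ψ i) ∈ B := fun i =>
    hB ▸ Algebra.subset_adjoin ⟨.inr (some i), rfl⟩
  have b0 : sg (-∑ i, w i) (∏ i, ψ i)⁻¹ ∈ B := hB ▸ Algebra.subset_adjoin ⟨.inr none, rfl⟩
  have b2 : ∀ i, sg (-w i) (ψ i)⁻¹ ∈ B := fun i => by
    have := mul_mem b0 (prod_mem fun j (_ : j ∈ Finset.univ.erase i) => b1 j)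
    rw [sg_pr, sg_mul, ← Finset.add_sum_erase _ w (Finset.mem_univ i),
      ← Finset.mul_prod_erase _ ψ (Finset.mem_univ i), neg_add, neg_add_cancel_right, mul_inv,
      inv_mul_cancel_right₀ (Finset.prod_ne_zero_iff.2 fun j _ => ψ0 j)] at this
    exact this
  let π : Laurent K k →ₐ[ℂ] Laurent K k' := AddMonoidAlgebra.mapDomainAlgHom ℂ K (ex ι)
  have hπ : ∀ m φ, π (sg m φ) = sg (ex ι m) φ := fun m φ => by simp [π]
  have b3 : ∀ F ∈ R, π F ∈ B := fun F hF => by
    have : R.map π ≤ B := by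
      rw [← hs, AlgHom.map_adjoin]
      refine Algebra.adjoin_le ?_
      rintro _ ⟨_, ⟨j, rfl⟩, rfl⟩
      rw [hπ]
      exact hB ▸ Algebra.subset_adjoin ⟨.inl j, rfl⟩
    exact this ⟨F, hF, rfl⟩
  rw [← AddMonoidAlgebra.sum_coeff_single F]
  refine sum_mem fun m _ => ?_
  have hφ := (q1 F).1 hF m
  generalize F.coeff m = φ at hφ
  let v : Fin k' → ℤ := m + ∑ i : {i // i ∉ range ι}, m i • w i
  have hv : ex ι (fun i => v (ι i)) = v := funext fun j => by
    by_cases c : j ∈ range ι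
    · obtain ⟨i, rfl⟩ := c
      exact ex_in inj _ i
    · rw [ex_out _ c]
      simp only [v, Pi.add_apply, Finset.sum_apply, Pi.smul_apply, smul_eq_mul]
      simp only [show ∀ i, w i j = _ from fun i => wo i ⟨j, c⟩]
      simp
  have p0 : ∏ i, ψ i ^ m i ≠ 0 := Finset.prod_ne_zero_iff.2 fun i _ => zpow_ne_zero _ (ψ0 i)
  have c : sg (fun i => v (ι i)) (φ * ∏ i, ψ i ^ m i) ∈ R := (r2 _ _).2 fun z P p => by
    have : ∑ i : {i // i ∉ range ι}, m i * (P.ord (ψ i) + w i ⬝ᵥ D' P) = 0 :=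
      Finset.sum_eq_zero fun i _ => by rw [hw i P p, mul_zero]
    have t := hφ (left_ne_zero_of_mul z) P p
    rw [← dt _ P p, hv, Pl.ord_mul _ (left_ne_zero_of_mul z) p0,
      P.ord_prod _ fun i _ => zpow_ne_zero _ (ψ0 i)]
    simp only [v, add_dotProduct, sum_dotProduct, smul_dotProduct, smul_eq_mul, Pl.ord_zpow]
    simp only [mul_add, Finset.sum_add_distrib] at this
    omega
  have := mul_mem (b3 _ c) (prod_mem fun i (_ : i ∈ Finset.univ) => zp (b1 i) (b2 i) (-m i))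
  rw [hπ, hv, sg_pr, sg_mul] at this
  simp only [v, neg_smul, Finset.sum_neg_distrib, add_neg_cancel_right, zpow_neg,
    Finset.prod_inv_distrib, mul_inv_cancel_right₀ p0] at this
  exact this

end Vale.Agent.P283R.Sq
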