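import Vale.Agent.P283R.Sq.All3

/-!
# P283R, block SQ: the full ring of sections of an open subset of a spherical variety
-/

open Set CategoryTheory AlgebraicGeometry

noncomputable section

namespace Vale.Agent.P283R.Sq

open Vale.Agent.P287D Sl Sl.Var Sg Sg.T20

theorem fac_mono {K : Type} [Field K] [Algebra ℂ K] {d k : ℕ} {T T' : Set (Pl K)}
    {D : Pl K → Fin k → ℤ} {x : Pl K → K} {e : Pl K → Fin k → ℤ} (h : Fac d T D x e)
    (le : T' ⊆ T) : Fac d T' D x e :=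
  ⟨h.pos, h.ff, fun φ m => (h.fin φ m).subset fun _ a => ⟨le a.1, a.2⟩,
    fun y hy => (h.can y hy).subset fun _ a => ⟨le a.1, a.2⟩, fun P a => h.ne P (le a),
    fun P a => h.one P (le a), fun P a Q b => h.zero P (le a) Q (le b)⟩

/-- every nonempty open subset of a spherical variety, the action of a Lie algebra -/
theorem full_of {d : ℕ} {X : Var} {W U : X.X.Opens} (hd : 1 ≤ d) (hK : FF X.K d) (le : U ≤ W)
    (hU : ∃ y : Pt X.X, y.In U) (h : SphericalOpen W d) :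
    ∃ (k N : ℕ) (D : Fin k → X.Div), N ≤ k + (ell d + 1) ∧
      GradedGen N (fun m => sections U (comb D m)) ∧
      (∀ E, InSpan U D (QDiv.coeff (.single E 1))) ∧
      GradedGen N (Sg.Sec (pls (X := X.o) U) (dvs (X := X.o) D)) ∧
      ∃ x e, Fac d (pls (X := X.o) U) (dvs (X := X.o) D) x e := by
  obtain ⟨k, N, D, L, _, _, s, bo, ρ, h1, h2, h3⟩ := h
  obtain ⟨n, rfl⟩ : ∃ n, d = n + 1 := ⟨d - 1, by omega⟩
  obtain ⟨x₀, hx₀⟩ := hU
  obtain ⟨ω, j, fr⟩ := Sf.S20.form (X := X.o) hK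
  choose e x x0 hx using h1
  have fc := fac (X := X.o) (W := W) hK fr x0 hx
  have es : ∀ W : X.X.Opens, (fun m => sections W (comb D m)) =
      Sg.Sec (pls (X := X.o) W) (dvs (X := X.o) D) := fun W =>
    funext fun m => Set.ext fun φ => (sec (X := X.o) D m φ).symm
  obtain ⟨N', hN, g⟩ := Sg.tier _ L _ _ _ _ _ _ s bo ρ fc (es _ ▸ h3) N (es _ ▸ h2)
  have g' := Sg.shrr Sg.gg27 Sg.fct _ _ _ _ _ (pls (X := X.o) U) _ _ _ fc
    (image_mono fun E h => le h) (((Sg.out X _ x₀ hx₀).image (Gl.pq (X := X.o))).subset (by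
      rintro _ ⟨⟨E, -, rfl⟩, c⟩
      exact ⟨E, fun w => c ⟨E, w, rfl⟩, rfl⟩)) g
  exact ⟨k, N' + 1, D, by omega, es _ ▸ g', fun E => ⟨e E, x E, x0 E, fun E' w => hx E E' (le w)⟩,
    g', _, _, fac_mono fc (image_mono fun E h => le h)⟩

/-- every nonempty open subset of a spherical variety -/
theorem full {N d : ℕ} {X : Var} {W U : X.X.Opens} (hd : 1 ≤ d) (hK : FF X.K d) (le : U ≤ W)
    (hU : ∃ y : Pt X.X, y.In U) (h : IsSpherical N W) :
    ∃ (k N' : ℕ) (D : Fin k → X.Div), N' ≤ k + (ell d + 1) ∧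
      GradedGen N' (fun m => sections U (comb D m)) ∧
      (∀ E, InSpan U D (QDiv.coeff (.single E 1))) ∧
      GradedGen N' (Sg.Sec (pls (X := X.o) U) (dvs (X := X.o) D)) ∧
      ∃ x e, Fac d (pls (X := X.o) U) (dvs (X := X.o) D) x e :=
  full_of hd hK le hU (brg N d X W hd hK.trdeg (hU.imp fun _ a => le a) h)

end Vale.Agent.P283R.Sq
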