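import Vale.Agent.P283R.Sq.St

/-!
# P283R, block SQ: the row COM
-/

open Set
open scoped Kronecker Matrix

noncomputable section

namespace Vale.Agent.P283R.Sq

open Vale.Agent.P287D Sl

namespace C77

variable {s L : Type} [Fintype s] [Field L] [Algebra ℂ L]

/-- the conjugate of a derivation -/
def cj (σ : L ≃ₐ[ℂ] L) (δ : Derivation ℂ L L) : Derivation ℂ L L :=
  Derivation.mk' (σ.symm.toLinearMap ∘ₗ δ.toLinearMap ∘ₗ σ.toLinearMap) (by
    intro a b
    simp [map_mul, Derivation.leibniz])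

theorem cj_ap (σ : L ≃ₐ[ℂ] L) (δ : Derivation ℂ L L) (a : L) :
    cj σ δ a = σ.symm (δ (σ a)) := rfl

theorem lin_comp {z : s → L} {M M' : Matrix s s ℂ} (f g : L →ₗ[ℂ] L) (hf : Lin z M f)
    (hg : Lin z M' g) (u : s) : f (g (z u)) = ∑ w, (M' * M) u w • z w := by
  rw [hg u, map_sum]
  simp only [map_smul, hf _, Finset.smul_sum, smul_smul, Matrix.mul_apply, Finset.sum_smul]
  exact Finset.sum_comm

theorem lin_com {z : s → L} {M M' : Matrix s s ℂ} (f g : L →ₗ[ℂ] L) (hf : Lin z M f)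
    (hg : Lin z M' g) (h : M * M' = M' * M) (u : s) : f (g (z u)) = g (f (z u)) := by
  rw [lin_comp f g hf hg, lin_comp g f hg hf, h]

omit [Fintype s] in
theorem z_mem (z : s → L) (u : s) : z u ∈ Rg z := ⟨MvPolynomial.X u, by simp⟩

theorem der_mem {z : s → L} {M : Matrix s s ℂ} (δ : Derivation ℂ L L) (h : Lin z M δ) :
    ∀ a ∈ Rg z, δ a ∈ Rg z := by
  rintro _ ⟨p, rfl⟩
  change δ (MvPolynomial.aeval z p) ∈ Rg z
  induction p using MvPolynomial.induction_on with
  | C c => simp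
  | add p q hp hq => rw [map_add, map_add]; exact add_mem hp hq
  | mul_X p u hp =>
    rw [map_mul, MvPolynomial.aeval_X, Derivation.leibniz, smul_eq_mul, smul_eq_mul, h u]
    refine add_mem (mul_mem ⟨p, rfl⟩ ?_) (mul_mem (z_mem z u) hp)
    exact sum_mem fun v _ => Subalgebra.smul_mem _ (z_mem z v) _

theorem lr {N : ℕ} (g h : Mat N) : Lm g * Rm h = Rm h * Lm g := by
  simp only [Lm, Rm, ← Matrix.mul_kronecker_mul, Matrix.one_mul, Matrix.mul_one]

theorem lin_add {z : s → L} {M M' M'' : Matrix s s ℂ} (c : ℂ) {δ δ' δ'' : Derivation ℂ L L}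
    (h : Lin z M δ) (h' : Lin z M' δ') (h'' : Lin z M'' δ'') (e : M'' = c • M + M') (u : s) :
    δ'' (z u) = (c • δ + δ') (z u) := by
  rw [Derivation.add_apply, Derivation.smul_apply, h u, h' u, h'' u, e, Finset.smul_sum,
    ← Finset.sum_add_distrib]
  refine Finset.sum_congr rfl fun v _ => ?_
  rw [Matrix.add_apply, Matrix.smul_apply, add_smul, smul_smul, smul_eq_mul]

theorem cj_com {z : s → L} {M M' : Matrix s s ℂ} (σ : L ≃ₐ[ℂ] L) (δ : Derivation ℂ L L)
    (ex : ∀ δ δ' : Derivation ℂ L L, (∀ e, δ (z e) = δ' (z e)) → δ = δ')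
    (hδ : Lin z M δ) (hσ : Lin z M' σ) (h : M * M' = M' * M) (a : L) : δ (σ a) = σ (δ a) := by
  have e : cj σ δ = δ := ex _ _ fun u => by
    rw [cj_ap, AlgEquiv.symm_apply_eq]
    exact lin_com δ.toLinearMap σ.toLinearMap hδ hσ h u
  have := congrArg (fun d : Derivation ℂ L L => σ (d a)) e
  simpa only [cj_ap, AlgEquiv.apply_symm_apply] using this

end C77

open C77 in
theorem com77 : COM := by
  intro N L _ _ x G l r D D' gd bas
  refine ⟨fun c ξ η ζ h => ⟨bas.exd _ _ fun u => ?_, bas.exd _ _ fun u => ?_⟩,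
    fun ξ a ha => ⟨der_mem _ (gd.hL ξ) a ha, der_mem _ (gd.hR ξ) a ha⟩,
    fun ξ g hg a => ⟨cj_com _ _ bas.exd (gd.hL ξ) (bas.rl g hg) (lr _ _) a,
      cj_com _ _ bas.exd (gd.hR ξ) (bas.ll g hg) (lr _ _).symm a⟩, fun ξ η a => ?_⟩
  · refine lin_add c (gd.hL ξ) (gd.hL η) (gd.hL ζ) ?_ u
    rw [h, Lm, Matrix.add_kronecker, Matrix.smul_kronecker]; rfl
  · refine lin_add c (gd.hR ξ) (gd.hR η) (gd.hR ζ) ?_ u
    rw [h, Rm, Matrix.transpose_add, Matrix.transpose_smul, Matrix.kronecker_add,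
      Matrix.kronecker_smul]; rfl
  · have e : ⁅D ξ, D' η⁆ = (0 : Derivation ℂ L L) := bas.exd _ _ fun u => by
      rw [Derivation.commutator_apply, Derivation.zero_apply, sub_eq_zero]
      exact lin_com (D ξ).toLinearMap (D' η).toLinearMap (gd.hL ξ) (gd.hR η) (lr _ _) u
    have := congrArg (fun d : Derivation ℂ L L => d a) e
    simpa only [Derivation.commutator_apply, Derivation.zero_apply, sub_eq_zero] using this

end Vale.Agent.P283R.Sq
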