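import Vale.Agent.P283R.Sl.Sq
import Vale.Agent.P283R.Sl.Ga
import Vale.Agent.P283R.Tp.St
import Vale.Agent.P283R.To.GlMse
import Vale.Agent.P283R.Sl.Br

/-!
# P283R, block SQ: spherical varieties have rings of sections with few generators (statements)
-/

open Set
open scoped Kronecker Matrix

noncomputable section

namespace Vale.Agent.P283R.Sq

open Vale.Agent.P287D Sl

section lin

variable {s L : Type} [Fintype s] [Field L] [Algebra ℂ L]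

/-- the polynomials in `z` -/
def Rg (z : s → L) : Subalgebra ℂ L := (MvPolynomial.aeval z : MvPolynomial s ℂ →ₐ[ℂ] L).range

/-- the polynomials of degree at most `n` in `z` -/
def Le (z : s → L) (n : ℕ) : Submodule ℂ L :=
  (MvPolynomial.restrictTotalDegree s ℂ n).map
    (MvPolynomial.aeval z : MvPolynomial s ℂ →ₐ[ℂ] L).toLinearMap

/-- `D` acts on the coordinates by the matrix `M` -/
def Lin (z : s → L) (M : Matrix s s ℂ) (D : L → L) : Prop := ∀ u, D (z u) = ∑ v, M u v • z v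

/-- diagonal -/
def Dia (M : Matrix s s ℂ) : Prop := ∀ u v, M u v ≠ 0 → u = v

/-- raises the weight -/
def Rai (ν : s → ℕ) (M : Matrix s s ℂ) : Prop := ∀ u v, M u v ≠ 0 → ν u < ν v

/-- a common eigenvector -/
def Hw {J : Type} (D : J → Derivation ℂ L L) (B : Set J) (φ : L) : Prop :=
  ∀ a ∈ B, ∃ c : ℂ, D a φ = c • φ

/-- a stable subspace -/
def Stb {J : Type} (D : J → Derivation ℂ L L) (B : Set J) (W : Submodule ℂ L) : Prop :=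
  ∀ a ∈ B, ∀ φ ∈ W, D a φ ∈ W

end lin

/-- statements on linear vector fields -/
def ForL (p : ∀ (s L : Type) [Fintype s] [Field L] [Algebra ℂ L], (s → L) → ∀ J : Type,
    (J → Matrix s s ℂ) → (J → Derivation ℂ L L) → Set J → (s → ℕ) → Prop) : Prop :=
  ∀ (s L : Type) [Fintype s] [Field L] [Algebra ℂ L] (z : s → L) (J : Type) (M : J → Matrix s s ℂ)
    (D : J → Derivation ℂ L L) (B : Set J) (ν : s → ℕ), (∀ a, Lin z (M a) (D a)) →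
    (∀ a ∈ B, Dia (M a) ∨ Rai ν (M a)) → p s L z J M D B ν

/-- **GHW**: highest weight vectors -/
def GHW : Prop := ForL fun _ L _ _ _ z _ _ D B _ => (∀ n, Stb D univ (Le z n)) ∧
  ∀ (n : ℕ) (W : Submodule ℂ L), W ≤ Le z n → W ≠ ⊥ → Stb D B W → ∃ φ ∈ W, φ ≠ 0 ∧ Hw D B φ

/-- **GCR**: complete reducibility -/
def GCR : Prop := ForL fun _ L _ _ _ z _ M D B _ => (∀ a, ∃ a', M a' = (M a)ᴴ) →
  ∀ W W' : Submodule ℂ L, (∀ φ ∈ W, φ ∈ Rg z) → Stb D univ W → Stb D univ W' →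
    (∀ φ ∈ W, φ ≠ 0 → Hw D B φ → φ ∈ W') → W ≤ W'

/-- **GEG**: a function which divides its derivative is an eigenvector -/
def GEG : Prop := ForL fun _ _ _ _ _ z _ M D B ν => ∀ a ∈ B, ∀ φ ∈ Rg z, ∀ q ∈ Rg z,
  D a φ = q * φ → (∃ c : ℂ, D a φ = c • φ) ∧ (Rai ν (M a) → D a φ = 0)

/-- **GWT**: the weights of rational eigenvectors -/
def GWT : Prop := ForL fun s _ _ _ _ z _ M D B _ => ∀ a₀ ∈ Rg z, ∀ b₀ ∈ Rg z, a₀ ≠ 0 → b₀ ≠ 0 →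
  Hw D B (a₀ / b₀) → ∃ m : s → ℤ, ∀ a ∈ B, D a (a₀ / b₀) = (∑ u, (m u : ℂ) * M a u u) • (a₀ / b₀)

section grp

variable {N : ℕ} {L : Type} [Field L] [Algebra ℂ L]

/-- the entries -/
def zx (x : Matrix (Fin N) (Fin N) L) : Fin N × Fin N → L := fun e => x e.1 e.2

/-- multiplication from the left -/
def Lm (g : Mat N) : Matrix (Fin N × Fin N) (Fin N × Fin N) ℂ := g ⊗ₖ (1 : Mat N)

/-- multiplication from the right -/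
def Rm (g : Mat N) : Matrix (Fin N × Fin N) (Fin N × Fin N) ℂ := (1 : Mat N) ⊗ₖ gᵀ

/-- the Lie algebra -/
abbrev Lie (G : Set (Mat N)) : Type := {ξ : Mat N // Tangent G ξ}

/-- diagonal or strictly upper triangular -/
def Bu (G : Set (Mat N)) : Set (Lie G) :=
  {ξ | (∀ i j, ξ.1 i j ≠ 0 → i = j) ∨ ∀ i j, ξ.1 i j ≠ 0 → i < j}

/-- diagonal or strictly lower triangular -/
def Bl (G : Set (Mat N)) : Set (Lie G) :=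
  {ξ | (∀ i j, ξ.1 i j ≠ 0 → i = j) ∨ ∀ i j, ξ.1 i j ≠ 0 → j < i}

/-- the group with its vector fields -/
structure Gd (x : Matrix (Fin N) (Fin N) L) (G : Set (Mat N)) (l r : Mat N → L ≃ₐ[ℂ] L)
    (D D' : Lie G → Derivation ℂ L L) : Prop where
  red : Reductive x G l r
  hL : ∀ ξ, Lin (zx x) (Lm ξ.1) (D ξ)
  hR : ∀ ξ, Lin (zx x) (Rm ξ.1) (D' ξ)

/-- elementary facts -/
structure Bas (x : Matrix (Fin N) (Fin N) L) (G : Set (Mat N)) (l r : Mat N → L ≃ₐ[ℂ] L) :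
    Prop where
  nul : ∀ p, (∀ g ∈ G, atMat g p = 0) → atMat x p = 0
  mul : ∀ g ∈ G, ∀ h ∈ G, g * h ∈ G
  inv : ∀ g ∈ G, g.det = 1 ∧ g.adjugate ∈ G
  ll : ∀ g ∈ G, Lin (zx x) (Lm g) (l g)
  rl : ∀ g ∈ G, Lin (zx x) (Rm g) (r g)
  ext : ∀ σ τ : L →ₐ[ℂ] L, (∀ e, σ (zx x e) = τ (zx x e)) → σ = τ
  exd : ∀ δ δ' : Derivation ℂ L L, (∀ e, δ (zx x e) = δ' (zx x e)) → δ = δ'
  lmul : ∀ g ∈ G, ∀ h ∈ G, l (g * h) = l h * l g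
  rmul : ∀ g ∈ G, ∀ h ∈ G, r (g * h) = r g * r h
  com : ∀ g ∈ G, ∀ h ∈ G, ∀ a, l g (r h a) = r h (l g a)
  lA : ∀ g ∈ G, ∀ a ∈ Rg (zx x), l g a ∈ Rg (zx x)
  rA : ∀ g ∈ G, ∀ a ∈ Rg (zx x), r g a ∈ Rg (zx x)
  lv : ∀ g ∈ G, ∀ h ∈ G, ∀ p q, l g (atMat x p) = atMat x q → atMat h q = atMat (g * h) p
  rv : ∀ g ∈ G, ∀ h ∈ G, ∀ p q, r g (atMat x p) = atMat x q → atMat h q = atMat (h * g) p
  pt : ∀ I : Ideal (Rg (zx x)), I ≠ ⊤ → ∃ g ∈ G, ∀ p (a : Rg (zx x)), a ∈ I → (a : L) = atMat x p →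
    atMat g p = 0

/-- the left translations -/
def Ga (G : Set (Mat N)) (l : Mat N → L ≃ₐ[ℂ] L) : Subgroup (L ≃ₐ[ℂ] L) := Subgroup.closure (l '' G)

end grp

/-- statements on the group -/
def ForG (p : ∀ (N : ℕ) (L : Type) [Field L] [Algebra ℂ L], Matrix (Fin N) (Fin N) L →
    Set (Mat N) → (Mat N → L ≃ₐ[ℂ] L) → (Mat N → L ≃ₐ[ℂ] L) → Prop) : Prop :=
  ∀ (N : ℕ) (L : Type) [Field L] [Algebra ℂ L] (x : Matrix (Fin N) (Fin N) L) (G : Set (Mat N))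
    (l r : Mat N → L ≃ₐ[ℂ] L), Reductive x G l r → p N L x G l r

/-- statements on the group and its vector fields -/
def ForD (p : ∀ (N : ℕ) (L : Type) [Field L] [Algebra ℂ L], Matrix (Fin N) (Fin N) L →
    ∀ G : Set (Mat N), (Mat N → L ≃ₐ[ℂ] L) → (Mat N → L ≃ₐ[ℂ] L) →
    (Lie G → Derivation ℂ L L) → (Lie G → Derivation ℂ L L) → Prop) : Prop :=
  ∀ (N : ℕ) (L : Type) [Field L] [Algebra ℂ L] (x : Matrix (Fin N) (Fin N) L) (G : Set (Mat N))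
    (l r : Mat N → L ≃ₐ[ℂ] L) (D D' : Lie G → Derivation ℂ L L), Gd x G l r D D' → Bas x G l r →
    p N L x G l r D D'

/-- **BAS** -/
def BAS : Prop := ForG fun _ _ _ _ x G l r => Bas x G l r ∧ ∀ σ, σ ∈ Ga G l ↔ ∃ g ∈ G, l g = σ

/-- **DER**: the vector fields exist -/
def DER : Prop := ForG fun _ _ _ _ x G l r => Bas x G l r → ∃ D D', Gd x G l r D D'

/-- **TAN**: the Lie algebra -/
def TAN : Prop := ForG fun N _ _ _ _ G _ _ =>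
  (∀ S : Set (Mat N), S ⊆ G → ∀ ξ, Tangent S ξ → Tangent G ξ) ∧
  (∀ (S : Set (Mat N)) (c : ℂ) ξ η, Tangent S ξ → Tangent S η → Tangent S (c • ξ + η)) ∧
  (∀ ξ : Lie G, ∃ η : Lie G, η.1 = ξ.1ᴴ) ∧
  ∀ ξ : Lie G, ∃ τ ν μ : Lie G, ξ.1 = τ.1 + ν.1 + μ.1 ∧ (∀ i j, τ.1 i j ≠ 0 → i = j) ∧
    (∀ i j, ν.1 i j ≠ 0 → i < j) ∧ ∀ i j, μ.1 i j ≠ 0 → j < i

/-- **COM**: linearity and commutation -/
def COM : Prop := ForD fun _ _ _ _ x G l r D D' =>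
  (∀ (c : ℂ) (ξ η ζ : Lie G), ζ.1 = c • ξ.1 + η.1 → D ζ = c • D ξ + D η ∧ D' ζ = c • D' ξ + D' η) ∧
  (∀ ξ, ∀ a ∈ Rg (zx x), D ξ a ∈ Rg (zx x) ∧ D' ξ a ∈ Rg (zx x)) ∧
  (∀ ξ, ∀ g ∈ G, ∀ a, D ξ (r g a) = r g (D ξ a) ∧ D' ξ (l g a) = l g (D' ξ a)) ∧
  ∀ ξ η a, D ξ (D' η a) = D' η (D ξ a)

/-- **LFR**: from the group to the Lie algebra -/
def LFR : Prop := ForD fun _ L _ _ x G l r D D' => ∀ (S : Set (Mat _)) (W : Submodule ℂ L),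
  S ⊆ G → ∀ a ∈ Rg (zx x), ∀ ξ : Lie G, Tangent S ξ.1 →
    ((∀ g ∈ S, l g a ∈ W) → D ξ a ∈ W) ∧ ((∀ g ∈ S, r g a ∈ W) → D' ξ a ∈ W)

/-- **KIL**: invariant rational functions -/
def KIL : Prop := ForD fun _ L _ _ _ G _ r _ D' => ∀ S ⊆ G, ∀ (a : L) (η : Lie G),
  (∀ h ∈ S, r h a = a) → Tangent S η.1 → D' η a = 0

/-- **DNS**: subgroups of finite index are dense -/
def DNS : Prop := ForG fun _ L _ _ x G l r => Bas x G l r → ∀ Γ : Subgroup (L ≃ₐ[ℂ] L),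
  (Γ.subgroupOf (Ga G l)).FiniteIndex → ∀ ξ, Tangent G ξ → Tangent {g ∈ G | l g ∈ Γ} ξ

/-- **SPN**: the vector fields span the derivations -/
def SPN : Prop := ForG fun _ L _ _ x G l r => Bas x G l r → ∀ (δ : Derivation ℂ L L)
  (Λ : L →ₗ[ℂ] ℂ), Tangent G ((x.adjugate * x.map δ).map Λ) ∧
    Tangent G ((x.map δ * x.adjugate).map Λ)

/-- **CON**: a function which is killed by all vector fields is constant -/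
def CON : Prop := ForD fun _ L _ _ _ _ _ _ D D' => ∀ a : L,
  ((∀ ξ, D' ξ a = 0) ∨ ∀ ξ, D ξ a = 0) → ∃ c : ℂ, a = algebraMap ℂ L c

/-- **DIS**: the discriminant -/
def DIS : Prop := ForD fun N L _ _ x G _ _ D D' => ∀ C : Set (Lie G),
  (∀ ξ : Lie G, ξ.1 ∈ Submodule.span ℂ (Subtype.val '' (Bu G ∪ C))) →
    ∃ Δ ∈ Le (zx x) (N ^ 3), Δ ≠ 0 ∧ ∀ (ζ : Lie G) (W : Submodule (Rg (zx x)) L) (a : L),
      (∀ ξ ∈ Bu G, D ξ a ∈ W) → (∀ η ∈ C, D' η a ∈ W) → Δ * D' ζ a ∈ W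

section ab

variable {L J : Type} [Field L] [Algebra ℂ L]

/-- `p` is an equation of the prime divisor `R` -/
def Gn (A : Subalgebra ℂ L) (R : Pl L) (p : L) : Prop :=
  p ∈ A ∧ p ≠ 0 ∧ R.ord p = 1 ∧ ∀ R', PD A R' → R' ≠ R → R'.ord p = 0

/-- semi-invariant -/
def Sm (H : Set (L ≃ₐ[ℂ] L)) (f : L) : Prop := ∀ h ∈ H, ∃ c : ℂ, h f = c • f

/-- the span of an orbit -/
def Orb (Γ : Subgroup (L ≃ₐ[ℂ] L)) (f : L) : Submodule ℂ L :=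
  Submodule.span ℂ ((fun σ : L ≃ₐ[ℂ] L => σ f) '' Γ)

/-- what the geometric part uses -/
structure Ab (n b w : ℕ) (A : Subalgebra ℂ L) (Γ : Subgroup (L ≃ₐ[ℂ] L)) (H : Set (L ≃ₐ[ℂ] L))
    (D : J → Derivation ℂ L L) (B : Set J) : Prop where
  aff : Aff n A
  nor : IsIntegrallyClosed A
  fac : ∀ R, PD A R → ∃ p, Gn A R p
  stΓ : ∀ σ ∈ Γ, ∀ a ∈ A, σ a ∈ A
  stH : ∀ h ∈ H, ∀ a, a ∈ A ↔ h a ∈ A
  stD : ∀ j, ∀ a ∈ A, D j a ∈ A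
  cΓ : ∀ σ ∈ Γ, ∀ h ∈ H, ∀ a, σ (h a) = h (σ a)
  cD : ∀ j, ∀ h ∈ H, ∀ a, D j (h a) = h (D j a)
  lf : ∀ Γ' : Subgroup (L ≃ₐ[ℂ] L), (Γ'.subgroupOf Γ).FiniteIndex → ∀ W : Submodule ℂ L,
    ∀ a ∈ A, (∀ σ ∈ Γ, σ ∈ Γ' → σ a ∈ W) → ∀ j, D j a ∈ W
  fd : ∀ a ∈ A, FiniteDimensional ℂ (Orb Γ a)
  cr : ∀ W W' : Submodule ℂ L, (∀ φ ∈ W, φ ∈ A) → Stb D univ W → Stb D univ W' →
    (∀ φ ∈ W, φ ≠ 0 → Hw D B φ → φ ∈ W') → W ≤ W'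
  eig : ∀ j ∈ B, ∀ φ ∈ A, ∀ q ∈ A, D j φ = q * φ → ∃ c : ℂ, D j φ = c • φ
  uni : ∀ u ∈ A, u⁻¹ ∈ A → Hw D univ u
  mov : ∀ p ∈ A, p⁻¹ ∉ A → ∃ j, D j p / p ∉ A
  tra : ∀ c ∈ A, c ≠ 0 → ∀ R, PD A R → ∃ σ ∈ Γ, R.ord (σ c) = 0
  sem : ∀ f ∈ A, f ≠ 0 → (∀ h ∈ H, h f / f ∈ A ∧ f / h f ∈ A) → Sm H f
  bnd : ∀ (ι : Type) [Fintype ι] (f : ι → L), (∀ i, f i ∈ A ∧ (f i)⁻¹ ∉ A ∧ Hw D B (f i) ∧
    Sm H (f i)) → (∀ R, PD A R → R.ord (∏ i, f i) ≤ 1) →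
    Fintype.card ι ≤ b ∧ ∀ i, Module.finrank ℂ (Orb Γ (f i)) ≤ b
  lat : ∃ u : Fin w → L, (∀ i, u i ≠ 0 ∧ Hw D B (u i) ∧ ∀ h ∈ H, h (u i) = u i) ∧
    ∀ φ, φ ≠ 0 → Hw D B φ → (∀ h ∈ H, h φ = φ) →
      ∃ (c : ℂ) (m : Fin w → ℤ), φ = c • ∏ i, u i ^ m i

end ab

/-- the bound for the dimensions -/
def bd (N : ℕ) : ℕ := Module.finrank ℂ (MvPolynomial.restrictTotalDegree (Fin N × Fin N) ℂ (N ^ 3))

/-- statements on spherical subgroups -/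
def ForH (p : ∀ (N : ℕ) (L : Type) [Field L] [Algebra ℂ L], Matrix (Fin N) (Fin N) L →
    ∀ G : Set (Mat N), Set (Mat N) → (Mat N → L ≃ₐ[ℂ] L) → (Mat N → L ≃ₐ[ℂ] L) →
    (Lie G → Derivation ℂ L L) → (Lie G → Derivation ℂ L L) → Prop) : Prop :=
  ForD fun N L _ _ x G l r D D' => ∀ H : Set (Mat N), H ⊆ G →
    (∀ ξ : Lie G, ξ.1 ∈ Submodule.span ℂ (Subtype.val '' (Bu G ∪ {η | Tangent H η.1}))) →
    p N L x G H l r D D'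

/-- **FAC**: the coordinate ring -/
def FAC : Prop := ForG fun _ _ _ _ x _ _ _ => (∃ n, Aff n (Rg (zx x))) ∧
  IsIntegrallyClosed (Rg (zx x)) ∧ ∀ R, PD (Rg (zx x)) R → ∃ p, Gn (Rg (zx x)) R p

/-- **UNI**: units, both sides -/
def UNI : Prop := ForD fun _ _ _ _ x _ _ _ D D' => ∀ p ∈ Rg (zx x),
  ((∀ ξ, D ξ p / p ∈ Rg (zx x)) → Hw D univ p) ∧ ((∀ ξ, D' ξ p / p ∈ Rg (zx x)) → Hw D' univ p)

/-- **MOV**: only the units are eigenvectors -/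
def MOV : Prop := ForD fun _ _ _ _ x _ _ _ D D' => ∀ p ∈ Rg (zx x),
  (Hw D univ p ∨ Hw D' univ p) → p⁻¹ ∈ Rg (zx x)

/-- **TRA**: orbits -/
def TRA : Prop := ForG fun _ _ _ _ x G l r => Bas x G l r →
  (∀ a ∈ Rg (zx x), FiniteDimensional ℂ (Orb (Ga G l) a) ∧
    FiniteDimensional ℂ (Submodule.span ℂ ((fun g => r g a) '' G))) ∧
  (∀ c ∈ Rg (zx x), c ≠ 0 → ∀ R, PD (Rg (zx x)) R → ∃ g ∈ G, R.ord (l g c) = 0) ∧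
  ∀ a ∈ Rg (zx x), ∀ W : Submodule ℂ _, FiniteDimensional ℂ W → (∀ g ∈ G, r g a ∈ W) →
    Module.finrank ℂ (Orb (Ga G l) a) ≤ Module.finrank ℂ W

/-- **SEM**: semi-invariants -/
def SEM : Prop := ForD fun _ _ _ _ x G _ r _ _ => ∀ f ∈ Rg (zx x), f ≠ 0 → ∀ h ∈ G,
  r h f / f ∈ Rg (zx x) → f / r h f ∈ Rg (zx x) → ∃ c : ℂ, r h f = c • f

/-- **IRR**: the left eigenfunctions of one weight form an irreducible module -/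
def IRR : Prop := ForD fun _ _ _ _ x G _ _ D _ => ∀ (n : ℕ), ∀ φ ∈ Le (zx x) n, φ ≠ 0 →
  ∀ c : Lie G → ℂ, (∀ ξ ∈ Bu G, D ξ φ = c ξ • φ) →
    ∀ ψ ∈ Rg (zx x), (∀ ξ ∈ Bu G, D ξ ψ = c ξ • ψ) → ψ ∈ Le (zx x) n

/-- **DVD**: a multiple of the product of the colours has bounded degree -/
def DVD : Prop := ForH fun N _ _ _ x G H _ r D _ => ∀ F ∈ Rg (zx x), F ≠ 0 → Hw D (Bu G) F →
  Sm (r '' H) F → (∀ R, PD (Rg (zx x)) R → R.ord F ≤ 1) →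
    ∃ F' ∈ Rg (zx x), F' ≠ 0 ∧ Hw D (Bu G) F' ∧ F * F' ∈ Le (zx x) (N ^ 3)

/-- **BND** -/
def BND : Prop := ForH fun N L _ _ x G H l r D _ => ∀ (ι : Type) [Fintype ι] (f : ι → L),
  (∀ i, f i ∈ Rg (zx x) ∧ (f i)⁻¹ ∉ Rg (zx x) ∧ Hw D (Bu G) (f i) ∧ Sm (r '' H) (f i)) →
    (∀ R, PD (Rg (zx x)) R → R.ord (∏ i, f i) ≤ 1) →
    Fintype.card ι ≤ bd N ∧ ∀ i, Module.finrank ℂ (Orb (Ga G l) (f i)) ≤ bd N

/-- **LAT** -/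
def LAT : Prop := ForH fun N L _ _ _ G H _ r D _ => ∃ u : Fin (N * N) → L,
  (∀ i, u i ≠ 0 ∧ Hw D (Bu G) (u i) ∧ ∀ h ∈ r '' H, h (u i) = u i) ∧
    ∀ φ, φ ≠ 0 → Hw D (Bu G) φ → (∀ h ∈ r '' H, h φ = φ) →
      ∃ (c : ℂ) (m : Fin (N * N) → ℤ), φ = c • ∏ i, u i ^ m i

/-- **ABG**: the end of the first part -/
def ABG : Prop := ForG fun N L _ _ x G l r => ∀ H : Set (Mat N), H ⊆ G →
  (∀ ξ, Tangent G ξ → ∃ β, Borel G β ∧ Tangent H (ξ - β)) →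
    ∃ (n : ℕ) (D : Lie G → Derivation ℂ L L),
      Ab n (bd N) (N * N) (Rg (zx x)) (Ga G l) (r '' H) D (Bu G)

section geo

variable {K L J : Type} [Field K] [Algebra ℂ K] [Field L] [Algebra ℂ L] {k : ℕ}

/-- the prime divisors `T` of the spherical variety -/
structure Ge (d : ℕ) (i : K →ₐ[ℂ] L) (Γ : Subgroup (L ≃ₐ[ℂ] L)) (H : Set (L ≃ₐ[ℂ] L))
    (T : Set (Pl K)) : Prop where
  ff : FF K (d + 1)
  inv : ∀ a, (∃ b, i b = a) ↔ ∀ h ∈ H, h a = a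
  fin : ∀ φ : K, {Q | Q ∈ T ∧ Q.ord φ ≠ 0}.Finite
  act : ∀ σ ∈ Γ, ∀ Q ∈ T, ∃ Q' ∈ T, ∀ a a', σ (i a) = i a' → (a ∈ Q.ring ↔ a' ∈ Q'.ring)
  cha : ∃ A₀ : Subalgebra ℂ K, Aff (d + 1) A₀ ∧ IsIntegrallyClosed A₀ ∧ (∀ Q, PD A₀ Q → Q ∈ T) ∧
    {Q | Q ∈ T ∧ ¬ PD A₀ Q}.Finite

/-- `R` lies over `Q` -/
abbrev Ov (i : K →ₐ[ℂ] L) (R : Pl L) (Q : Pl K) : Prop := Lies i.toRingHom R Q

/-- the boundary -/
def Bd (i : K →ₐ[ℂ] L) (A : Subalgebra ℂ L) (T : Set (Pl K)) : Set (Pl K) :=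
  {Q | Q ∈ T ∧ ¬ ∃ R, PD A R ∧ Ov i R Q}

/-- the prime divisors upstairs and downstairs -/
structure Va (i : K →ₐ[ℂ] L) (A : Subalgebra ℂ L) (T : Set (Pl K)) : Prop where
  dn : ∀ R, PD A R → (∀ a, i a ∈ R.ring) ∨ ∃ Q ∈ T, Ov i R Q ∧ ∀ a, R.ord (i a) = Q.ord a
  up : (Bd i A T).Finite

/-- `f` is an equation of the inverse image of `Q` -/
def Eq' (i : K →ₐ[ℂ] L) (A : Subalgebra ℂ L) (H : Set (L ≃ₐ[ℂ] L)) (Q : Pl K) (f : L) : Prop :=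
  f ∈ A ∧ f ≠ 0 ∧ Sm H f ∧ ∀ R, PD A R → (Ov i R Q → R.ord f = 1) ∧ (¬ Ov i R Q → R.ord f = 0)

open Classical in
/-- the coefficients of `∑ m j r j` -/
def cf (r : Fin k → Pl K) (m : Fin k → ℤ) (Q : Pl K) : ℤ := ∑ j, if r j = Q then m j else 0

/-- the sections -/
def Sec (T : Set (Pl K)) (r : Fin k → Pl K) (m : Fin k → ℤ) : Set K :=
  {φ | φ ≠ 0 → ∀ Q ∈ T, 0 ≤ Q.ord φ + cf r m Q}

/-- the subgroup which fixes the boundary -/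
structure Fx (i : K →ₐ[ℂ] L) (A : Subalgebra ℂ L) (Γ Γ' : Subgroup (L ≃ₐ[ℂ] L))
    (H : Set (L ≃ₐ[ℂ] L)) (T : Set (Pl K)) : Prop where
  idx : (Γ'.subgroupOf Γ).FiniteIndex
  le : Γ' ≤ Γ
  fun' : ∀ σ ∈ Γ', ∀ a, ∃ a', σ (i a) = i a' ∧ ∀ Q ∈ Bd i A T, Q.ord a' = Q.ord a
  sec : ∀ σ ∈ Γ', ∀ f ∈ A, f ≠ 0 → Sm H f → ∃ a, σ f = i a * f ∧ ∀ Q ∈ Bd i A T, Q.ord a = 0

/-- the colours and the boundary -/
structure Fm (b : ℕ) (i : K →ₐ[ℂ] L) (A : Subalgebra ℂ L) (Γ : Subgroup (L ≃ₐ[ℂ] L))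
    (H : Set (L ≃ₐ[ℂ] L)) (D : J → Derivation ℂ L L) (B : Set J) (T : Set (Pl K))
    (r : Fin k → Pl K) (f : Fin k → L) : Prop where
  inj : Function.Injective r
  mem : ∀ j, r j ∈ T
  eq : ∀ j, Eq' i A H (r j) (f j)
  hw : ∀ j, Hw D B (f j)
  bd : ∀ Q ∈ Bd i A T, ∃ j, r j = Q
  col : ∀ Q ∈ T, ∀ R, PD A R → Ov i R Q → ∀ φ, φ ≠ 0 → Hw D B φ → R.ord φ ≠ 0 →
    ∃ j, r j = Q
  dim : ∑ j, Module.finrank ℂ (Orb Γ (f j)) ≤ k + b * b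

end geo

/-- statements on the geometric part -/
def ForA (p : ∀ (b w : ℕ) (K L J : Type) [Field K] [Algebra ℂ K] [Field L] [Algebra ℂ L],
    (K →ₐ[ℂ] L) → Subalgebra ℂ L → Subgroup (L ≃ₐ[ℂ] L) → Set (L ≃ₐ[ℂ] L) →
    (J → Derivation ℂ L L) → Set J → Set (Pl K) → Prop) : Prop :=
  ∀ (n b w d : ℕ) (K L J : Type) [Field K] [Algebra ℂ K] [Field L] [Algebra ℂ L]
    (i : K →ₐ[ℂ] L) (A : Subalgebra ℂ L) (Γ : Subgroup (L ≃ₐ[ℂ] L)) (H : Set (L ≃ₐ[ℂ] L))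
    (D : J → Derivation ℂ L L) (B : Set J) (T : Set (Pl K)), Ab n b w A Γ H D B → Ge d i Γ H T →
    p b w K L J i A Γ H D B T

/-- **VAL** -/
def VAL : Prop := ForA fun _ _ _ _ _ _ _ _ _ i A _ _ _ _ T => Va i A T

/-- **EQN** -/
def EQN : Prop := ForA fun _ _ _ _ _ _ _ _ _ i A _ H _ _ T => Va i A T →
  ∀ Q ∈ T, ∃ f, Eq' i A H Q f

/-- **FIX** -/
def FIX : Prop := ForA fun _ _ _ _ _ _ _ _ _ i A Γ H _ _ T => Va i A T →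
  ∃ Γ', Fx i A Γ Γ' H T

/-- **FAM** -/
def FAM : Prop := ForA fun b _ K L _ _ _ _ _ i A Γ H D B T => Va i A T →
  (∀ Q ∈ T, ∃ f, Eq' i A H Q f) → ∃ (k : ℕ) (r : Fin k → Pl K) (f : Fin k → L),
    Fm b i A Γ H D B T r f

/-- **STA**: the sections form a stable space of regular functions -/
def STA : Prop := ForA fun b _ K L _ _ _ _ _ i A Γ H D B T => Va i A T → ∀ Γ', Fx i A Γ Γ' H T →
  ∀ (k : ℕ) (r : Fin k → Pl K) (f : Fin k → L), Fm b i A Γ H D B T r f → ∀ m,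
    (∀ φ ∈ Sec T r m, i φ * ∏ j, f j ^ m j ∈ A) ∧
    (∀ φ, i φ * ∏ j, f j ^ m j ∈ A → (φ ≠ 0 → ∀ Q ∈ Bd i A T, 0 ≤ Q.ord φ + cf r m Q) →
      φ ∈ Sec T r m) ∧
    ∀ φ ∈ Sec T r m, ∀ a, ∃ ψ ∈ Sec T r m, D a (i φ * ∏ j, f j ^ m j) = i ψ * ∏ j, f j ^ m j

/-- **GEN** -/
def GEN : Prop := ForA fun b w K L _ _ _ _ _ i A Γ H D B T => Va i A T → ∀ Γ', Fx i A Γ Γ' H T →
  ∀ (k : ℕ) (r : Fin k → Pl K) (f : Fin k → L), Fm b i A Γ H D B T r f →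
    GradedGen (k + (b * b + 2 * w)) (Sec T r)

/-- **CLS** -/
def CLS : Prop := ForA fun b _ K L _ _ _ _ _ i A Γ H D B T => Va i A T → ∀ Γ', Fx i A Γ Γ' H T →
  (∀ Q ∈ T, ∃ f, Eq' i A H Q f) →
  ∀ (k : ℕ) (r : Fin k → Pl K) (f : Fin k → L), Fm b i A Γ H D B T r f →
    ∀ G : Pl K → ℤ, {Q | Q ∈ T ∧ G Q ≠ 0}.Finite →
      ∃ (m : Fin k → ℤ) (φ : K), φ ≠ 0 ∧ ∀ Q ∈ T, G Q = Q.ord φ + cf r m Q

/-- **LOC**: a smaller open set -/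
def LOC : Prop := ∀ (K : Type) [Field K] [Algebra ℂ K] (k n : ℕ) (r : Fin k → Pl K)
  (T T' : Set (Pl K)) (m : Fin k → ℤ) (φ : K), T' ⊆ T → (T \ T').Finite → φ ≠ 0 →
    (∀ Q ∈ T', Q.ord φ + cf r m Q = 0) → (∀ Q ∈ T \ T', 0 < Q.ord φ + cf r m Q) →
    GradedGen n (Sec T r) → GradedGen (n + 1) (Sec T' r)

/-- **MEM**: the end of the second part -/
def MEM : Prop := ForA fun b w K _ _ _ _ _ _ _ _ _ _ _ _ T => ∀ T' ⊆ T, (T \ T').Finite →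
  ∃ (k : ℕ) (r : Fin k → Pl K), Function.Injective r ∧ (∀ j, r j ∈ T) ∧
    GradedGen (k + (b * b + 2 * w + 1)) (Sec T' r) ∧
    ∀ G : Pl K → ℤ, {Q | Q ∈ T ∧ G Q ≠ 0}.Finite →
      ∃ (m : Fin k → ℤ) (φ : K), φ ≠ 0 ∧ ∀ Q ∈ T, G Q = Q.ord φ + cf r m Q

/-- the prime divisors of an open set -/
def Tu {X : Var} (U : X.X.Opens) : Set (Pl X.K) :=
  {Q | ∃ E : X.PrimeDiv, E.1.In U ∧ Gl.pq (X := X.o) E = Q}

/-- **GER**: the scheme side -/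
def GER : Prop := ∀ (X : Var) (d : ℕ) (U : X.X.Opens) (L : Type) [Field L] [Algebra ℂ L]
  (i : X.K →ₐ[ℂ] L) (Γ : Subgroup (L ≃ₐ[ℂ] L)) (H : Set (L ≃ₐ[ℂ] L)),
    dimension X.str = (d + 1 : ℕ) → (∃ y : Pt X.X, y.In U) →
    (∀ a, (∃ b, i b = a) ↔ ∀ h ∈ H, h a = a) → (∀ σ ∈ Γ, ∀ a, ∃ a', σ (i a) = i a') →
    (∀ σ ∈ Γ, ∀ y : Pt X.X, y.In U → ∃ y' : Pt X.X, y'.In U ∧
      ∀ a a', σ (i a) = i a' → (Var.RegAt a y ↔ Var.RegAt a' y')) → Ge d i Γ H (Tu U)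

/-- **SPH**: the end product -/
def SPH : Prop := ∀ (N d : ℕ) (X Z : Var) (f : X.X ⟶ Z.X) (ω : X.Form d) (B : X.QDiv)
  (z : Pt Z.X) (W : Z.X.Opens), 1 ≤ d → dimension X.str = d → ω.Nonzero → Contraction f →
    z.In W → IsSpherical N (pre f W) → Generated (bd N * bd N + 2 * (N * N) + 1) f ω B z

/-- **TOP** -/
def TOP : Prop := BAS → ABG → GER → MEM → SPH

end Vale.Agent.P283R.Sq
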