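import Mathlib.RingTheory.Etale.Kaehler
import Vale.Agent.P283R.Sq.St

/-!
# P283R, block SQ: the vector fields exist
-/

open Set MvPolynomial
open scoped Kronecker Matrix TensorProduct

noncomputable section

namespace Vale.Agent.P283R.Sq

open Vale.Agent.P287D Sl

namespace D4

theorem der_frac {P F : Type} [CommRing P] [Algebra ℂ P] [Field F] [Algebra ℂ F] [Algebra P F]
    [IsScalarTower ℂ P F] [IsFractionRing P F] (D₀ : Derivation ℂ P P) :
    ∃ D : Derivation ℂ F F, ∀ x : P, D (algebraMap P F x) = algebraMap P F (D₀ x) := by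
  have : Algebra.FormallyEtale P F := Algebra.FormallyEtale.of_isLocalization (nonZeroDivisors P)
  let L : Ω[P⁄ℂ] →ₗ[P] F := ((Algebra.linearMap P F).compDer D₀).liftKaehlerDifferential
  let L' : F ⊗[P] Ω[P⁄ℂ] →ₗ[F] F := L.liftBaseChange F
  let L'' : Ω[F⁄ℂ] →ₗ[F] F :=
    L' ∘ₗ (KaehlerDifferential.tensorKaehlerEquivOfFormallyEtale ℂ P F).symm.toLinearMap
  refine ⟨L''.compDer (KaehlerDifferential.D ℂ F), fun x => ?_⟩
  show L' ((KaehlerDifferential.tensorKaehlerEquivOfFormallyEtale ℂ P F).symm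
    (KaehlerDifferential.D ℂ F (algebraMap P F x))) = _
  rw [KaehlerDifferential.tensorKaehlerEquivOfFormallyEtale_symm_D_algebraMap]
  simp [L', L]

variable {s L : Type} [Fintype s] [Field L] [Algebra ℂ L]

/-- the linear vector field on the polynomials -/
def op (M : Matrix s s ℂ) : Derivation ℂ (MvPolynomial s ℂ) (MvPolynomial s ℂ) :=
  mkDerivation ℂ fun u => ∑ v, M u v • X v

theorem op_X (M : Matrix s s ℂ) (u : s) : op M (X u) = ∑ v, M u v • X v := mkDerivation_X _ _ _

/-- a vector field which is tangent to the variety -/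
theorem ex (z : s → L) (fr : ∀ a : L, ∃ p q : MvPolynomial s ℂ, a = aeval z p / aeval z q)
    (M : Matrix s s ℂ) (h : ∀ p, aeval z p = 0 → aeval z (op M p) = 0) :
    ∃ D : Derivation ℂ L L, Lin z M D := by
  let f := (aeval z : MvPolynomial s ℂ →ₐ[ℂ] L).rangeRestrict
  have hf : Function.Surjective f := AlgHom.rangeRestrict_surjective _
  have hd : ∀ p, f p = 0 → f (op M p) = 0 := fun p e => Subtype.ext (h p (congrArg Subtype.val e))
  have : IsFractionRing (aeval z : MvPolynomial s ℂ →ₐ[ℂ] L).range L :=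
    IsFractionRing.of_field _ L fun a => let ⟨p, q, e⟩ := fr a; ⟨f p, f q, e⟩
  obtain ⟨D, hD⟩ := der_frac (F := L) (Derivation.liftOfSurjective hf hd)
  refine ⟨D, fun u => ?_⟩
  have := hD (f (X u))
  rw [Derivation.liftOfSurjective_apply] at this
  change D (aeval z (X u : MvPolynomial s ℂ)) = aeval z (op M (X u)) at this
  simpa [op_X] using this

/-- the chain rule -/
theorem chain [DecidableEq s] (M : Matrix s s ℂ) (g e ξ : s → ℂ) (τ : s → MvPolynomial s ℂ)
    (h0 : ∀ u, aeval e (τ u) = g u)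
    (h1 : ∀ u, ∑ w, ξ w * aeval e (pderiv w (τ u)) = ∑ v, M u v * g v) (p : MvPolynomial s ℂ) :
    aeval g (op M p) = ∑ w, ξ w * aeval e (pderiv w (aeval τ p)) := by
  have k : ∀ p : MvPolynomial s ℂ, aeval e (aeval τ p) = aeval g p := fun p => by
    rw [← AlgHom.comp_apply, comp_aeval, funext h0]
  induction p using MvPolynomial.induction_on with
  | C a => simp [← algebraMap_eq]
  | add p q hp hq => simp only [map_add, hp, hq, mul_add, Finset.sum_add_distrib]
  | mul_X p u hp =>
    simp only [map_mul, Derivation.leibniz, smul_eq_mul, map_add, aeval_X, hp, op_X, map_sum,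
      map_smul, k, h0, mul_add, Finset.sum_add_distrib]
    rw [← h1, Finset.mul_sum, Finset.mul_sum]
    congr 1 <;> exact Finset.sum_congr rfl fun _ _ => by ring

variable {N : ℕ}

theorem at_sub (τ : Fin N × Fin N → MvPolynomial (Fin N × Fin N) ℂ) (h k : Mat N)
    (e : ∀ u, atMat h (τ u) = k u.1 u.2) (p : MvPolynomial (Fin N × Fin N) ℂ) :
    atMat h (aeval τ p) = atMat k p := by
  rw [atMat, ← AlgHom.comp_apply, comp_aeval]
  exact congrArg (fun t => aeval t p) (funext e)

end D4

/-- **DER** -/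
theorem der : DER := by
  intro N L _ _ x G l r red bs
  have a : ∀ ξ : Lie G, ∃ D : Derivation ℂ L L, Lin (zx x) (Lm ξ.1) D := fun ξ =>
    D4.ex _ red.frac _ fun p hp => bs.nul _ fun g hg => by
      refine (D4.chain _ _ (fun e => (1 : Mat N) e.1 e.2) (fun e => ξ.1 e.1 e.2)
        (fun u => ∑ k, g k u.2 • X (u.1, k)) (fun u => ?_) (fun u => ?_) p).trans
        (ξ.2 _ fun h hh => (D4.at_sub _ h (h * g) (fun u => ?_) p).trans
          ((red.points _).1 (bs.mul h hh g hg) p hp))
      · simp [Matrix.one_apply]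
      · simp [Lm, Fintype.sum_prod_type, pderiv_X, Pi.single_apply, Matrix.one_apply,
          apply_ite, Prod.ext_iff, ite_and]
      · simp [atMat, Matrix.mul_apply, mul_comm]
  have b : ∀ ξ : Lie G, ∃ D : Derivation ℂ L L, Lin (zx x) (Rm ξ.1) D := fun ξ =>
    D4.ex _ red.frac _ fun p hp => bs.nul _ fun g hg => by
      refine (D4.chain _ _ (fun e => (1 : Mat N) e.1 e.2) (fun e => ξ.1 e.1 e.2)
        (fun u => ∑ k, g u.1 k • X (k, u.2)) (fun u => ?_) (fun u => ?_) p).trans
        (ξ.2 _ fun h hh => (D4.at_sub _ h (g * h) (fun u => ?_) p).trans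
          ((red.points _).1 (bs.mul g hg h hh) p hp))
      · simp [Matrix.one_apply]
      · simp [Rm, Fintype.sum_prod_type, pderiv_X, Pi.single_apply, Matrix.one_apply,
          apply_ite, Prod.ext_iff, ite_and, mul_comm]
      · simp [atMat, Matrix.mul_apply]
  choose D hD using a
  choose D' hD' using b
  exact ⟨D, D', red, hD, hD'⟩

end Vale.Agent.P283R.Sq
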