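import Vale.Agent.P297.H927.Der

/-!
# P283R, block SQ: the invariant vector fields of a matrix group span
-/

set_option linter.all false

open Set MvPolynomial

noncomputable section

namespace Vale.Agent.P283R.Sq.C6

section

variable {σ L : Type} [CommRing L] [Algebra ℂ L]

/-- a polynomial over `L` which vanishes at the complex points vanishes at the `L`-points -/
theorem bc {G : Set (σ → ℂ)} (Φ : MvPolynomial σ L)
    (h : ∀ y ∈ G, eval (fun e => algebraMap ℂ L (y e)) Φ = 0) {w : σ → L}
    (hw : ∀ q : MvPolynomial σ ℂ, (∀ y ∈ G, eval y q = 0) → aeval w q = 0) : eval w Φ = 0 := by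
  classical
  let b := Module.Free.chooseBasis ℂ L
  let q := fun i => ∑ m ∈ Φ.support, monomial m (b.repr (coeff m Φ) i)
  have z : ∀ i, aeval w (q i) = 0 := fun i => hw _ fun y hy => by
    have := congrArg (fun a => b.repr a i) (h y hy)
    simp only [eval_eq, map_sum, map_zero, Finsupp.coe_zero, Pi.zero_apply, ← map_pow, ← map_prod,
      Finsupp.finset_sum_apply] at this
    simp only [q, map_sum, eval_monomial, Finsupp.prod, ← this]
    refine Finset.sum_congr rfl fun m _ => ?_
    rw [mul_comm (coeff m Φ), ← Algebra.smul_def, map_smul, Finsupp.smul_apply, smul_eq_mul,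
      mul_comm]
  let T := Φ.support.biUnion fun m => (b.repr (coeff m Φ)).support
  have e : ∀ m ∈ Φ.support, coeff m Φ = ∑ i ∈ T, b.repr (coeff m Φ) i • b i := fun m hm => by
    conv_lhs => rw [← b.linearCombination_repr (coeff m Φ), Finsupp.linearCombination_apply]
    exact Finsupp.sum_of_support_subset _ (Finset.subset_biUnion_of_mem
      (fun m => (b.repr (coeff m Φ)).support) hm) _ (by simp)
  rw [eval_eq, Finset.sum_congr rfl fun m hm => by rw [e m hm, Finset.sum_mul], Finset.sum_comm]
  refine Finset.sum_eq_zero fun i _ => ?_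
  have := congrArg (b i * ·) (z i)
  simp only [q, map_sum, aeval_monomial, Finsupp.prod, Finset.mul_sum, mul_zero] at this
  rw [← this]
  refine Finset.sum_congr rfl fun m _ => ?_
  rw [Algebra.smul_def]
  ring

/-- a vector over `L` all of whose complex shadows lie in `W` is a combination of generators -/
theorem tens {J : Type} [Fintype σ] [Fintype J] (z : J → σ → ℂ) (ξ : σ → L)
    (h : ∀ Λ : L →ₗ[ℂ] ℂ, (fun e => Λ (ξ e)) ∈ Submodule.span ℂ (range z)) :
    ∃ c : J → L, (∀ j, c j ∈ Submodule.span ℂ (range ξ)) ∧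
      ∀ e, ξ e = ∑ j, c j * algebraMap ℂ L (z j e) := by
  classical
  let f := Fintype.linearCombination ℂ z
  obtain ⟨g, hg⟩ := f.rangeRestrict.exists_rightInverse_of_surjective f.range_rangeRestrict
  obtain ⟨r, hr⟩ := f.range.subtype.exists_leftInverse_of_injective f.range.ker_subtype
  have k : ∀ v ∈ Submodule.span ℂ (range z), f (g (r v)) = v := fun v hv => by
    rw [← Fintype.range_linearCombination] at hv
    have a : r v = ⟨v, hv⟩ := LinearMap.congr_fun hr ⟨v, hv⟩
    rw [a]
    exact congrArg Subtype.val (LinearMap.congr_fun hg ⟨v, hv⟩)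
  refine ⟨fun j => ∑ e, g (r (Pi.single e 1)) j • ξ e, fun j => Submodule.sum_mem _ fun e _ =>
    Submodule.smul_mem _ _ (Submodule.subset_span ⟨e, rfl⟩), fun e => ?_⟩
  refine sub_eq_zero.1 ((Module.forall_dual_apply_eq_zero_iff ℂ _).1 fun Λ => ?_)
  have := congrFun (k _ (h Λ)) e
  rw [map_sub, ← this, sub_eq_zero]
  have u : (fun e => Λ (ξ e)) = ∑ e, Λ (ξ e) • Pi.single e (1 : ℂ) := by
    ext a
    simp [Pi.single_apply]
  rw [u]
  simp only [f, Fintype.linearCombination_apply, map_sum, map_smul, Finset.sum_apply,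
    Pi.smul_apply, smul_eq_mul, mul_comm _ (algebraMap ℂ L _), ← Algebra.smul_def,
    Finset.mul_sum]
  rw [Finset.sum_comm]
  exact Finset.sum_congr rfl fun _ _ => Finset.sum_congr rfl fun _ _ => by ring

/-- the chain rule -/
theorem chain [Fintype σ] (δ : Derivation ℂ L L) (w : σ → L) (p : MvPolynomial σ ℂ) :
    δ (aeval w p) = ∑ e, aeval w (pderiv e p) * δ (w e) := by
  classical
  induction p using MvPolynomial.induction_on with
  | C a => simp
  | add p q hp hq => simp only [map_add, hp, hq, add_mul, Finset.sum_add_distrib]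
  | mul_X p v hp =>
    simp only [map_mul, aeval_X, Derivation.leibniz, smul_eq_mul, hp, map_add, add_mul,
      Finset.sum_add_distrib, Finset.mul_sum, pderiv_X, Pi.single_apply, apply_ite, map_one,
      map_zero, mul_ite, ite_mul, mul_one, mul_zero, zero_mul, mul_assoc]
    rw [Finset.sum_ite_eq]
    simp

end

variable {n L : Type} [Fintype n] [DecidableEq n] [Field L] [Algebra ℂ L]
  {x : Matrix n n L} {G : Set (Matrix n n ℂ)} {J : Type} [Fintype J] {z : J → Matrix n n ℂ}

/-- **the invariant fields span** -/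
theorem spr (gen : ∀ a : L, ∃ p q : MvPolynomial (n × n) ℂ, aeval (fun e => x e.1 e.2) q ≠ 0 ∧
      a * aeval (fun e => x e.1 e.2) q = aeval (fun e => x e.1 e.2) p)
    (dt : x.det = 1)
    (hl : ∀ p : MvPolynomial (n × n) ℂ, (∀ g ∈ G, eval (fun e => g e.1 e.2) p = 0) → ∀ g ∈ G,
      aeval (fun e : n × n => (g.map (algebraMap ℂ L) * x) e.1 e.2) p = 0)
    (hi : ∀ p : MvPolynomial (n × n) ℂ, (∀ g ∈ G, eval (fun e => g e.1 e.2) p = 0) →
      aeval (fun e : n × n => x.adjugate e.1 e.2) p = 0)
    (hz : ∀ ξ : Matrix n n ℂ, (∀ p : MvPolynomial (n × n) ℂ,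
      (∀ g ∈ G, eval (fun e => g e.1 e.2) p = 0) →
        ∑ e, eval (fun e => (1 : Matrix n n ℂ) e.1 e.2) (pderiv e p) * ξ e.1 e.2 = 0) →
      ξ ∈ Submodule.span ℂ (range z))
    (D : J → Derivation ℂ L L)
    (hD : ∀ j a b, D j (x a b) = (x * (z j).map (algebraMap ℂ L)) a b) (δ : Derivation ℂ L L) :
    ∃ c : J → L, (∀ j, c j ∈ Submodule.span ℂ
        (range fun e : n × n => (x.adjugate * x.map δ) e.1 e.2)) ∧
      (∀ a b, (x.adjugate * x.map δ) a b = ∑ j, c j * algebraMap ℂ L (z j a b)) ∧
      ∀ a, δ a = ∑ j, c j * D j a := by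
  have ax : x.adjugate * x = 1 := by rw [Matrix.adjugate_mul, dt, one_smul]
  have xa : x * x.adjugate = 1 := by rw [Matrix.mul_adjugate, dt, one_smul]
  have key : ∀ p : MvPolynomial (n × n) ℂ, (∀ g ∈ G, eval (fun e => g e.1 e.2) p = 0) →
      ∑ e : n × n, eval (fun e => (1 : Matrix n n ℂ) e.1 e.2) (pderiv e p) •
        (x.adjugate * x.map δ) e.1 e.2 = 0 := fun p hp => by
    let Y : Matrix n n (MvPolynomial (n × n) L) := fun a b => X (a, b)
    let Z : Matrix n n L → Matrix n n (MvPolynomial (n × n) L) := fun u => Y * u.map C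
    have ev : ∀ y : Matrix n n L, eval (fun e : n × n => y e.1 e.2) (∑ e : n × n,
        aeval (fun e : n × n => Z x e.1 e.2) (pderiv e p) * Z (x.map δ) e.1 e.2) =
        ∑ e : n × n, aeval (fun e : n × n => (y * x) e.1 e.2) (pderiv e p) *
          (y * x.map δ) e.1 e.2 := fun y => by
      have m : ∀ (u : Matrix n n L) a b, eval (fun e : n × n => y e.1 e.2) (Z u a b) =
          (y * u) a b := fun u a b => by
        change eval _ (∑ j, X (a, j) * C (u j b)) = ∑ j, y a j * u j b
        simp
      rw [map_sum]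
      refine Finset.sum_congr rfl fun e _ => ?_
      rw [map_mul, m]
      congr 1
      have := map_aeval (fun e : n × n => Z x e.1 e.2) (eval fun e : n × n => y e.1 e.2)
        (pderiv e p)
      rw [this, aeval_def, coe_eval₂Hom]
      simp only [m]
      congr 1
      exact RingHom.ext fun a => (congrArg _ (MvPolynomial.algebraMap_apply a)).trans (eval_C _)
    have := bc (G := (fun (g : Matrix n n ℂ) (e : n × n) => g e.1 e.2) '' G) (∑ e : n × n,
        aeval (fun e : n × n => Z x e.1 e.2) (pderiv e p) * Z (x.map δ) e.1 e.2) ?_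
      (w := fun e => x.adjugate e.1 e.2) fun q hq => hi q fun g hg => hq _ ⟨g, hg, rfl⟩
    · rw [ev, ax] at this
      rw [← this]
      refine Finset.sum_congr rfl fun e _ => ?_
      rw [Algebra.smul_def]
      congr 1
      refine (aeval_algebraMap_apply L (fun e : n × n => (1 : Matrix n n ℂ) e.1 e.2) _).symm.trans ?_
      simp only [Function.comp_def, Matrix.one_apply, apply_ite (algebraMap ℂ L), map_one, map_zero]
    · rintro _ ⟨g, hg, rfl⟩
      refine (ev (g.map (algebraMap ℂ L))).trans ?_
      have := congrArg δ (hl p hp g hg)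
      rw [map_zero, chain] at this
      rw [← this]
      refine Finset.sum_congr rfl fun e _ => ?_
      congr 1
      simp [Matrix.mul_apply, ← Algebra.smul_def]
  obtain ⟨c, c1, hc⟩ := tens (fun j (e : n × n) => z j e.1 e.2)
    (fun e => (x.adjugate * x.map δ) e.1 e.2) fun Λ => by
      have := hz (fun a b => Λ ((x.adjugate * x.map δ) a b)) fun p hp => by
        simpa only [map_sum, map_smul, smul_eq_mul, map_zero] using congrArg Λ (key p hp)
      obtain ⟨u, hu⟩ := (Submodule.mem_span_range_iff_exists_fun _).1 this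
      refine (Submodule.mem_span_range_iff_exists_fun _).2 ⟨u, funext fun e => ?_⟩
      have := congrFun₂ hu e.1 e.2
      simpa only [Matrix.sum_apply, Finset.sum_apply, Matrix.smul_apply, Pi.smul_apply] using this
  have hx : ∀ a b, δ (x a b) = ∑ j, c j * D j (x a b) := fun a b => by
    have : x.map δ = x * (x.adjugate * x.map δ) := by rw [← mul_assoc, xa, one_mul]
    refine (congrFun₂ this a b).trans ?_
    rw [Matrix.mul_apply]
    simp only [fun u => hc (u, b), hD, Matrix.mul_apply, Finset.mul_sum, Matrix.map_apply]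
    rw [Finset.sum_comm]
    exact Finset.sum_congr rfl fun _ _ => Finset.sum_congr rfl fun _ _ => by ring
  have hp : ∀ p : MvPolynomial (n × n) ℂ, δ (aeval (fun e => x e.1 e.2) p) =
      ∑ j, c j * D j (aeval (fun e => x e.1 e.2) p) := fun p => by
    simp only [chain, hx, Finset.mul_sum]
    rw [Finset.sum_comm]
    exact Finset.sum_congr rfl fun _ _ => Finset.sum_congr rfl fun _ _ => by ring
  refine ⟨c, c1, fun a b => hc (a, b), fun a => ?_⟩
  obtain ⟨p, q, q0, e⟩ := gen a
  have := hp p
  rw [← e] at this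
  simp only [Derivation.leibniz, smul_eq_mul, hp q, mul_add, Finset.sum_add_distrib,
    Finset.mul_sum] at this
  refine mul_left_cancel₀ q0 ?_
  rw [Finset.mul_sum]
  have k : ∑ j, a * (c j * D j (aeval (fun e => x e.1 e.2) q)) =
      ∑ j, c j * (a * D j (aeval (fun e => x e.1 e.2) q)) :=
    Finset.sum_congr rfl fun _ _ => by ring
  rw [k, add_right_inj] at this
  rw [this]
  exact Finset.sum_congr rfl fun _ _ => by ring

/-- an element which is killed by all derivations is constant -/
theorem cst {a : L} (h : ∀ δ : Derivation ℂ L L, δ a = 0) : ∃ c, a = algebraMap ℂ L c := by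
  by_cases t : IsAlgebraic ℂ a
  · exact ((minpoly.mem_range_of_degree_eq_one ℂ a (IsAlgClosed.degree_eq_one_of_irreducible ℂ
      (minpoly.irreducible t.isIntegral))).imp fun _ => Eq.symm)
  · obtain ⟨δ, e⟩ := P297.H927.exists_derivation (F := ℂ) t
    exact (one_ne_zero (e.symm.trans (h δ))).elim

end Vale.Agent.P283R.Sq.C6
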