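import Mathlib

/-!
# P283R, block SQ: the discriminant of a basis made of left and of right vector fields
-/

open MvPolynomial

noncomputable section

namespace Vale.Agent.P283R.Sq.B37

theorem td_det {s r : Type*} [Fintype r] [DecidableEq r] (M : Matrix r r (MvPolynomial s ℂ))
    (n : ℕ) (h : ∀ i j, (M i j).totalDegree ≤ n) : M.det.totalDegree ≤ n * Fintype.card r := by
  rw [Matrix.det_apply']
  refine (totalDegree_finsetSum _ _).trans (Finset.sup_le fun σ _ => ?_)
  refine (totalDegree_mul _ _).trans ?_
  have e : ((Equiv.Perm.sign σ : ℤ) : MvPolynomial s ℂ) = C ((Equiv.Perm.sign σ : ℤ) : ℂ) := by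
    simp
  rw [e, totalDegree_C, zero_add]
  refine (totalDegree_finsetProd _ _).trans ((Finset.sum_le_sum fun i _ => h _ i).trans ?_)
  simp [mul_comm]

variable {N : ℕ}

/-- the generic matrix -/
def gm (N : ℕ) : Matrix (Fin N) (Fin N) (MvPolynomial (Fin N × Fin N) ℂ) :=
  Matrix.of fun a b => X (a, b)

theorem td_ad (z : Matrix (Fin N) (Fin N) ℂ) (a b : Fin N) :
    (((gm N).adjugate * z.map C * gm N : Matrix _ _ _) a b).totalDegree ≤ N + 1 := by
  have h1 : ∀ a b, ((gm N).adjugate a b).totalDegree ≤ N := fun a b => by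
    rw [Matrix.adjugate_apply]
    refine (td_det _ 1 fun i j => ?_).trans (by simp)
    rw [Matrix.updateRow_apply]
    split_ifs
    · rw [Pi.single_apply]
      split_ifs <;> simp
    · exact (totalDegree_X _).le
  rw [Matrix.mul_apply]
  refine (totalDegree_finsetSum _ _).trans (Finset.sup_le fun k _ => ?_)
  refine (totalDegree_mul _ _).trans (add_le_add ?_ (totalDegree_X _).le)
  rw [Matrix.mul_apply]
  refine (totalDegree_finsetSum _ _).trans (Finset.sup_le fun l _ => ?_)
  refine (totalDegree_mul _ _).trans ?_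
  rw [Matrix.map_apply, totalDegree_C, add_zero]
  exact h1 _ _

theorem mp {R : Type*} [CommRing R] (φ : MvPolynomial (Fin N × Fin N) ℂ →+* R)
    (z : Matrix (Fin N) (Fin N) ℂ) (a b : Fin N) :
    φ (((gm N).adjugate * z.map C * gm N : Matrix _ _ _) a b) =
      (((gm N).map φ).adjugate * z.map (φ.comp C) * (gm N).map φ : Matrix _ _ R) a b := by
  rw [← Matrix.map_apply (f := φ), Matrix.map_mul, Matrix.map_mul, Matrix.map_map]
  have := φ.map_adjugate (gm N)
  rw [RingHom.mapMatrix_apply, RingHom.mapMatrix_apply] at this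
  rw [this]
  rfl

/-- dual functionals of independent matrices, as matrices of coefficients -/
theorem dual {r : Type*} [DecidableEq r] (z : r → Matrix (Fin N) (Fin N) ℂ)
    (li : LinearIndependent ℂ z) (j : r) : ∃ la : Fin N → Fin N → ℂ,
      ∀ i, ∑ a, ∑ b, la a b * z i a b = if i = j then 1 else 0 := by
  obtain ⟨f, hf⟩ := LinearMap.exists_extend ((Finsupp.lapply j) ∘ₗ li.repr)
  refine ⟨fun a b => f (Matrix.single a b 1), fun i => ?_⟩
  have h1 : f (z i) = if i = j then 1 else 0 := by
    have := LinearMap.congr_fun hf ⟨z i, Submodule.subset_span ⟨i, rfl⟩⟩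
    simp only [LinearMap.comp_apply, Submodule.subtype_apply, Finsupp.lapply_apply] at this
    rw [this, li.repr_eq_single i _ rfl, Finsupp.single_apply]
  rw [← h1]
  conv_rhs => rw [Matrix.matrix_eq_sum_single (z i)]
  simp only [map_sum]
  refine Finset.sum_congr rfl fun a _ => Finset.sum_congr rfl fun b _ => ?_
  rw [mul_comm, ← smul_eq_mul, ← map_smul, Matrix.smul_single, smul_eq_mul, mul_one]

variable {L : Type*} [Field L] [Algebra ℂ L]

/-- a derivation that kills generators of the field is zero -/
theorem der_zero {s : Type*} (π : MvPolynomial s ℂ →ₐ[ℂ] L)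
    (fr : ∀ a : L, ∃ p q, π q ≠ 0 ∧ a * π q = π p) (δ : Derivation ℂ L L)
    (h : ∀ v, δ (π (X v)) = 0) (a : L) : δ a = 0 := by
  have h1 : ∀ p, δ (π p) = 0 := fun p => by
    induction p using MvPolynomial.induction_on with
    | C c => rw [← algebraMap_eq, π.commutes, δ.map_algebraMap]
    | add p q hp hq => rw [map_add, map_add, hp, hq, add_zero]
    | mul_X p v hp => rw [map_mul, Derivation.leibniz, hp, h, smul_zero, smul_zero, add_zero]
  obtain ⟨p, q, q0, e⟩ := fr a
  have := congrArg δ e
  rw [Derivation.leibniz, h1, h1, smul_zero, zero_add, smul_eq_mul] at this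
  exact (mul_eq_zero.1 this).resolve_left q0

/-- a left field in terms of the right fields -/
theorem left_eq (π : MvPolynomial (Fin N × Fin N) ℂ →ₐ[ℂ] L)
    (fr : ∀ a : L, ∃ p q, π q ≠ 0 ∧ a * π q = π p) (hd : ((gm N).map π).det = 1)
    {r : Type*} [Fintype r] (z : r → Matrix (Fin N) (Fin N) ℂ) (Dr : r → Derivation ℂ L L)
    (hr : ∀ j a b, Dr j (π (X (a, b))) =
      ((gm N).map π * (z j).map (algebraMap ℂ L) : Matrix _ _ L) a b)
    (w : Matrix (Fin N) (Fin N) ℂ) (E : Derivation ℂ L L)
    (hl : ∀ a b, E (π (X (a, b))) = (w.map (algebraMap ℂ L) * (gm N).map π : Matrix _ _ L) a b)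
    (c : r → L) (hc : ((gm N).map π).adjugate * w.map (algebraMap ℂ L) * (gm N).map π =
      ∑ j, c j • (z j).map (algebraMap ℂ L)) (a : L) : E a = ∑ j, c j * Dr j a := by
  have h1 : w.map (algebraMap ℂ L) * (gm N).map π =
      ∑ j, c j • ((gm N).map π * (z j).map (algebraMap ℂ L)) := by
    have := congrArg ((gm N).map π * ·) hc
    simp only [← mul_assoc, Matrix.mul_adjugate, hd, one_smul, one_mul, Finset.mul_sum,
      Matrix.mul_smul] at this
    exact this
  have ap : ∀ a, (E - ∑ j, c j • Dr j) a = E a - ∑ j, c j * Dr j a := fun a => by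
    rw [Derivation.sub_apply]
    congr 1
    have := map_sum (Derivation.coeFnAddMonoidHom (R := ℂ) (A := L) (M := L))
      (fun j => c j • Dr j) Finset.univ
    have h2 := congrFun this a
    rw [Finset.sum_apply] at h2
    exact h2
  rw [← sub_eq_zero, ← ap]
  refine der_zero π fr _ (fun v => ?_) a
  rw [ap, hl v.1 v.2, h1, Matrix.sum_apply, sub_eq_zero]
  exact Finset.sum_congr rfl fun j _ => by rw [hr j v.1 v.2, Matrix.smul_apply, smul_eq_mul]

/-- **the discriminant** -/
theorem disc (π : MvPolynomial (Fin N × Fin N) ℂ →ₐ[ℂ] L)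
    (fr : ∀ a : L, ∃ p q, π q ≠ 0 ∧ a * π q = π p) (hd : ((gm N).map π).det = 1)
    {r : Type*} [Fintype r] (z : r → Matrix (Fin N) (Fin N) ℂ) (li : LinearIndependent ℂ z)
    (E Dr : r → Derivation ℂ L L) (lf : r → Prop)
    (hr : ∀ j a b, Dr j (π (X (a, b))) =
      ((gm N).map π * (z j).map (algebraMap ℂ L) : Matrix _ _ L) a b)
    (hl : ∀ i, lf i → ∀ a b, E i (π (X (a, b))) =
      ((z i).map (algebraMap ℂ L) * (gm N).map π : Matrix _ _ L) a b)
    (he : ∀ i, ¬ lf i → E i = Dr i)
    (ad : ∀ i, lf i → ∃ c : r → L, ((gm N).map π).adjugate * (z i).map (algebraMap ℂ L) *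
      (gm N).map π = ∑ j, c j • (z j).map (algebraMap ℂ L)) :
    ∃ (del : MvPolynomial (Fin N × Fin N) ℂ) (e : r → r → MvPolynomial (Fin N × Fin N) ℂ),
      del.totalDegree ≤ (N + 1) * Fintype.card r ∧
      eval (fun v => (1 : Matrix (Fin N) (Fin N) ℂ) v.1 v.2) del = 1 ∧
      ∀ j a, π del * Dr j a = ∑ i, π (e j i) * E i a := by
  classical
  choose la hla using dual z li
  let M : Matrix r r (MvPolynomial (Fin N × Fin N) ℂ) := Matrix.of fun i j =>
    if lf i then ∑ a, ∑ b, C (la j a b) *
      ((gm N).adjugate * (z i).map C * gm N : Matrix _ _ _) a b else if i = j then 1 else 0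
  have key : ∀ i a, E i a = ∑ j, π (M i j) * Dr j a := by
    intro i a
    by_cases hi : lf i
    · obtain ⟨c, hc⟩ := ad i hi
      rw [left_eq π fr hd z Dr hr (z i) (E i) (hl i hi) c hc a]
      refine Finset.sum_congr rfl fun j _ => ?_
      congr 1
      have e1 : (π : MvPolynomial (Fin N × Fin N) ℂ →+* L).comp C = algebraMap ℂ L :=
        RingHom.ext fun t => π.commutes t
      have e2 : ∀ a b, π (((gm N).adjugate * (z i).map C * gm N : Matrix _ _ _) a b) =
          ∑ k, c k * algebraMap ℂ L (z k a b) := fun a b => by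
        have := mp (π : MvPolynomial (Fin N × Fin N) ℂ →+* L) (z i) a b
        rw [e1] at this
        refine this.trans ((congrFun (congrFun hc a) b).trans ?_)
        rw [Matrix.sum_apply]
        rfl
      have e3 : ∀ t : ℂ, π (C t) = algebraMap ℂ L t := fun t => π.commutes t
      simp only [M, Matrix.of_apply, if_pos hi, map_sum, map_mul, e2, e3, Finset.mul_sum]
      have e4 : ∀ k, ∑ a, ∑ b, algebraMap ℂ L (la j a b) * (c k * algebraMap ℂ L (z k a b)) =
          if k = j then c k else 0 := fun k => by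
        have := congrArg (fun t => c k * algebraMap ℂ L t) (hla j k)
        simp only [map_sum, map_mul, Finset.mul_sum, apply_ite (algebraMap ℂ L), map_one, map_zero,
          mul_ite, mul_one, mul_zero] at this
        rw [← this]
        exact Finset.sum_congr rfl fun a _ => Finset.sum_congr rfl fun b _ => by ring
      calc c j = ∑ k, if k = j then c k else 0 := by simp
        _ = _ := by
          simp only [← e4]
          rw [Finset.sum_comm]
          exact Finset.sum_congr rfl fun a _ => Finset.sum_comm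
    · simp [M, hi, he i hi, apply_ite π]
  refine ⟨M.det, fun j i => M.adjugate j i, td_det M _ fun i j => ?_, ?_, fun j a => ?_⟩
  · simp only [M, Matrix.of_apply]
    split_ifs
    · refine (totalDegree_finsetSum _ _).trans (Finset.sup_le fun a _ => ?_)
      refine (totalDegree_finsetSum _ _).trans (Finset.sup_le fun b _ => ?_)
      refine (totalDegree_mul _ _).trans ?_
      rw [totalDegree_C, zero_add]
      exact td_ad _ _ _
    · simp
    · simp
  · set φ := eval (fun v : Fin N × Fin N => (1 : Matrix (Fin N) (Fin N) ℂ) v.1 v.2) with hφ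
    have g1 : (gm N).map φ = 1 := by
      ext a b
      simp [gm, hφ]
    have g2 : φ.comp C = RingHom.id ℂ := RingHom.ext fun t => by simp [hφ]
    have g3 : φ.mapMatrix M = 1 := by
      ext i j
      rw [RingHom.mapMatrix_apply, Matrix.map_apply, Matrix.one_apply]
      simp only [M, Matrix.of_apply]
      by_cases hi : lf i
      · rw [if_pos hi, ← hla j i]
        simp only [map_sum, map_mul, mp φ, g1, g2, Matrix.adjugate_one, one_mul, mul_one]
        refine Finset.sum_congr rfl fun a _ => Finset.sum_congr rfl fun b _ => ?_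
        simp [hφ]
      · rw [if_neg hi]
        split_ifs <;> simp
    rw [RingHom.map_det, g3, Matrix.det_one]
  · simp only [key, Finset.mul_sum, ← mul_assoc, ← map_mul]
    rw [Finset.sum_comm]
    simp only [← Finset.sum_mul, ← map_sum, ← Matrix.mul_apply, Matrix.adjugate_mul,
      Matrix.smul_apply, Matrix.one_apply, smul_eq_mul, mul_ite, mul_one, mul_zero, apply_ite π,
      map_zero, ite_mul, zero_mul, Finset.sum_ite_eq, Finset.mem_univ, if_true]

end Vale.Agent.P283R.Sq.B37
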