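import Vale.Agent.P283R.Sq.St
import Vale.Agent.P283R.Sq.Dsc37
import Vale.Agent.P283R.Sq.Cst6

/-!
# P283R, block SQ: the row DIS
-/

open MvPolynomial Set
open scoped Kronecker Matrix

noncomputable section

namespace Vale.Agent.P283R.Sq

open Vale.Agent.P287D Sl

namespace B37

variable {N : ℕ}

theorem td_ad' (z : Matrix (Fin N) (Fin N) ℂ) (a b : Fin N) :
    (((gm N).adjugate * z.map C * gm N : Matrix _ _ _) a b).totalDegree ≤ N := by
  obtain ⟨n, rfl⟩ : ∃ n, N = n + 1 := ⟨N - 1, by have := a.2; omega⟩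
  have h1 : ∀ a b, ((gm (n + 1)).adjugate a b).totalDegree ≤ n := fun a b => by
    rw [Matrix.adjugate_fin_succ_eq_det_submatrix]
    refine (totalDegree_mul _ _).trans ?_
    have e : ((-1 : MvPolynomial (Fin (n + 1) × Fin (n + 1)) ℂ) ^ (b + a : ℕ)) =
        C ((-1) ^ (b + a : ℕ)) := by simp
    rw [e, totalDegree_C, zero_add]
    exact (td_det _ 1 fun i j => (totalDegree_X _).le).trans (by simp)
  rw [Matrix.mul_apply]
  refine (totalDegree_finsetSum _ _).trans (Finset.sup_le fun k _ => ?_)
  refine (totalDegree_mul _ _).trans (add_le_add ?_ (totalDegree_X _).le)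
  rw [Matrix.mul_apply]
  refine (totalDegree_finsetSum _ _).trans (Finset.sup_le fun l _ => ?_)
  refine (totalDegree_mul _ _).trans ?_
  rw [Matrix.map_apply, totalDegree_C, add_zero]
  exact h1 _ _

variable {L : Type} [Field L] [Algebra ℂ L]

/-- **the discriminant** -/
theorem disc' (π : MvPolynomial (Fin N × Fin N) ℂ →ₐ[ℂ] L)
    (fr : ∀ a : L, ∃ p q, π q ≠ 0 ∧ a * π q = π p) (hd : ((gm N).map π).det = 1)
    {r : Type} [Fintype r] (z : r → Matrix (Fin N) (Fin N) ℂ) (li : LinearIndependent ℂ z)
    (E Dr : r → Derivation ℂ L L) (lf : r → Prop)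
    (hr : ∀ j a b, Dr j (π (X (a, b))) =
      ((gm N).map π * (z j).map (algebraMap ℂ L) : Matrix _ _ L) a b)
    (hl : ∀ i, lf i → ∀ a b, E i (π (X (a, b))) =
      ((z i).map (algebraMap ℂ L) * (gm N).map π : Matrix _ _ L) a b)
    (he : ∀ i, ¬ lf i → E i = Dr i)
    (ad : ∀ i, lf i → ∃ c : r → L, ((gm N).map π).adjugate * (z i).map (algebraMap ℂ L) *
      (gm N).map π = ∑ j, c j • (z j).map (algebraMap ℂ L)) :
    ∃ (del : MvPolynomial (Fin N × Fin N) ℂ) (e : r → r → MvPolynomial (Fin N × Fin N) ℂ),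
      del.totalDegree ≤ N ^ 3 ∧
      eval (fun v => (1 : Matrix (Fin N) (Fin N) ℂ) v.1 v.2) del = 1 ∧
      ∀ j a, π del * Dr j a = ∑ i, π (e j i) * E i a := by
  classical
  choose la hla using dual z li
  have hN : Fintype.card r ≤ N * N := by simpa [Module.finrank_matrix] using li.fintype_card_le_finrank
  let M : Matrix r r (MvPolynomial (Fin N × Fin N) ℂ) := Matrix.of fun i j =>
    if lf i then ∑ a, ∑ b, C (la j a b) *
      ((gm N).adjugate * (z i).map C * gm N : Matrix _ _ _) a b else if i = j then 1 else 0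
  have key : ∀ i a, E i a = ∑ j, π (M i j) * Dr j a := by
    intro i a
    by_cases hi : lf i
    · obtain ⟨c, hc⟩ := ad i hi
      rw [left_eq π fr hd z Dr hr (z i) (E i) (hl i hi) c hc a]
      refine Finset.sum_congr rfl fun j _ => ?_
      congr 1
      have e1 : (π : MvPolynomial (Fin N × Fin N) ℂ →+* L).comp C = algebraMap ℂ L :=
        RingHom.ext fun t => π.commutes t
      have e2 : ∀ a b, π (((gm N).adjugate * (z i).map C * gm N : Matrix _ _ _) a b) =
          ∑ k, c k * algebraMap ℂ L (z k a b) := fun a b => by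
        have := mp (π : MvPolynomial (Fin N × Fin N) ℂ →+* L) (z i) a b
        rw [e1] at this
        refine this.trans ((congrFun (congrFun hc a) b).trans ?_)
        rw [Matrix.sum_apply]
        rfl
      have e3 : ∀ t : ℂ, π (C t) = algebraMap ℂ L t := fun t => π.commutes t
      simp only [M, Matrix.of_apply, if_pos hi, map_sum, map_mul, e2, e3, Finset.mul_sum]
      have e4 : ∀ k, ∑ a, ∑ b, algebraMap ℂ L (la j a b) * (c k * algebraMap ℂ L (z k a b)) =
          if k = j then c k else 0 := fun k => by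
        have := congrArg (fun t => c k * algebraMap ℂ L t) (hla j k)
        simp only [map_sum, map_mul, Finset.mul_sum, apply_ite (algebraMap ℂ L), map_one, map_zero,
          mul_ite, mul_one, mul_zero] at this
        rw [← this]
        exact Finset.sum_congr rfl fun a _ => Finset.sum_congr rfl fun b _ => by ring
      calc c j = ∑ k, if k = j then c k else 0 := by simp
        _ = _ := by
          simp only [← e4]
          rw [Finset.sum_comm]
          exact Finset.sum_congr rfl fun a _ => Finset.sum_comm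
    · simp [M, hi, he i hi, apply_ite π]
  refine ⟨M.det, fun j i => M.adjugate j i, (td_det M N fun i j => ?_).trans ?_, ?_, fun j a => ?_⟩
  · simp only [M, Matrix.of_apply]
    split_ifs
    · refine (totalDegree_finsetSum _ _).trans (Finset.sup_le fun a _ => ?_)
      refine (totalDegree_finsetSum _ _).trans (Finset.sup_le fun b _ => ?_)
      refine (totalDegree_mul _ _).trans ?_
      rw [totalDegree_C, zero_add]
      exact td_ad' _ _ _
    · simp
    · simp
  · exact (Nat.mul_le_mul_left N hN).trans (by rw [pow_succ', pow_two])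
  · set φ := eval (fun v : Fin N × Fin N => (1 : Matrix (Fin N) (Fin N) ℂ) v.1 v.2) with hφ
    have g1 : (gm N).map φ = 1 := by
      ext a b
      simp [gm, hφ]
    have g2 : φ.comp C = RingHom.id ℂ := RingHom.ext fun t => by simp [hφ]
    have g3 : φ.mapMatrix M = 1 := by
      ext i j
      rw [RingHom.mapMatrix_apply, Matrix.map_apply, Matrix.one_apply]
      simp only [M, Matrix.of_apply]
      by_cases hi : lf i
      · rw [if_pos hi, ← hla j i]
        simp only [map_sum, map_mul, mp φ, g1, g2, Matrix.adjugate_one, one_mul, mul_one]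
        refine Finset.sum_congr rfl fun a _ => Finset.sum_congr rfl fun b _ => ?_
        simp [hφ]
      · rw [if_neg hi]
        split_ifs <;> simp
    rw [RingHom.map_det, g3, Matrix.det_one]
  · simp only [key, Finset.mul_sum, ← mul_assoc, ← map_mul]
    rw [Finset.sum_comm]
    simp only [← Finset.sum_mul, ← map_sum, ← Matrix.mul_apply, Matrix.adjugate_mul,
      Matrix.smul_apply, Matrix.one_apply, smul_eq_mul, mul_ite, mul_one, mul_zero, apply_ite π,
      map_zero, ite_mul, zero_mul, Finset.sum_ite_eq, Finset.mem_univ, if_true]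

variable {x : Matrix (Fin N) (Fin N) L}

theorem lin_left {ξ : Mat N} {D : L → L} (h : Lin (zx x) (Lm ξ) D) (a b : Fin N) :
    D (x a b) = (ξ.map (algebraMap ℂ L) * x : Matrix _ _ L) a b := by
  refine (h (a, b)).trans ?_
  simp [Lm, zx, Fintype.sum_prod_type, Matrix.one_apply, Matrix.mul_apply, Algebra.smul_def,
    apply_ite (algebraMap ℂ L)]

theorem lin_right {ξ : Mat N} {D : L → L} (h : Lin (zx x) (Rm ξ) D) (a b : Fin N) :
    D (x a b) = (x * ξ.map (algebraMap ℂ L) : Matrix _ _ L) a b := by
  refine (h (a, b)).trans ?_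
  rw [Fintype.sum_prod_type, Finset.sum_comm]
  simp [Rm, zx, Matrix.one_apply, Matrix.mul_apply, Algebra.smul_def,
    apply_ite (algebraMap ℂ L), mul_comm]

theorem fr_of {G : Set (Mat N)} {l r : Mat N → L ≃ₐ[ℂ] L} (h : Reductive x G l r) (a : L) :
    ∃ p q, aeval (R := ℂ) (zx x) q ≠ 0 ∧
      a * aeval (R := ℂ) (zx x) q = aeval (R := ℂ) (zx x) p := by
  obtain ⟨p, q, e⟩ := h.frac a
  by_cases q0 : atMat x q = 0
  · exact ⟨0, 1, by simp, by simp [e, q0]⟩
  · exact ⟨p, q, q0, by rw [e]; exact div_mul_cancel₀ _ q0⟩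

end B37

open B37 in
theorem dis37 (hs : SPN) : DIS := by
  intro N L _ _ x G l r D D' gd bas Cc hC
  classical
  obtain ⟨b, hb, sp, li⟩ := exists_linearIndependent ℂ (Subtype.val '' (Bu G ∪ Cc))
  have : Finite b := li.finite
  let _ : Fintype b := Fintype.ofFinite b
  choose ξ hξ e using fun i : b => hb i.2
  have gx : (gm N).map (aeval (R := ℂ) (zx x)) = x := by
    ext a b
    simp [gm, zx]
  have px : ∀ a b, aeval (R := ℂ) (zx x) (X (a, b)) = x a b := fun a b => by simp [zx]
  have rg : ∀ ζ : Lie G, ζ.1 ∈ Submodule.span ℂ (range (Subtype.val : b → Mat N)) := fun ζ => by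
    rw [Subtype.range_coe, sp]
    exact hC ζ
  obtain ⟨del, ee, h1, h2, h3⟩ := disc' (aeval (zx x)) (fr_of gd.red) (by rw [gx]; exact gd.red.det)
    (Subtype.val : b → Mat N) li (fun i => if ξ i ∈ Bu G then D (ξ i) else D' (ξ i))
    (fun i => D' (ξ i)) (fun i => ξ i ∈ Bu G)
    (fun j a c => by rw [gx, px, ← e j]; exact lin_right (gd.hR _) a c)
    (fun j hj a c => by rw [gx, px, ← e j, if_pos hj]; exact lin_left (gd.hL _) a c)
    (fun j hj => if_neg hj) (fun i _ => by
      rw [gx]
      have e1 : x.map (D (ξ i)) = (i : Mat N).map (algebraMap ℂ L) * x := by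
        ext a c
        rw [← e i]
        exact lin_left (gd.hL _) a c
      obtain ⟨c, -, hc⟩ := C6.tens (fun (j : b) (v : Fin N × Fin N) => (j : Mat N) v.1 v.2)
        (fun v => (x.adjugate * x.map (D (ξ i)) : Matrix _ _ L) v.1 v.2) fun Λ => by
          obtain ⟨t, ht⟩ := (Submodule.mem_span_range_iff_exists_fun ℂ).1
            (rg ⟨_, (hs N L x G l r gd.red bas (D (ξ i)) Λ).1⟩)
          refine (Submodule.mem_span_range_iff_exists_fun ℂ).2 ⟨t, funext fun v => ?_⟩
          have := congrFun (congrFun ht v.1) v.2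
          rw [Matrix.sum_apply] at this
          rw [Finset.sum_apply]
          exact this
      refine ⟨c, ?_⟩
      rw [mul_assoc, ← e1]
      ext a d
      rw [Matrix.sum_apply]
      exact hc (a, d))
  refine ⟨aeval (zx x) del, ⟨del, (mem_restrictTotalDegree _ _ _).2 h1, rfl⟩, fun h0 => ?_,
    fun ζ W a w1 w2 => ?_⟩
  · have := (gd.red.points 1).1 gd.red.one del h0
    exact one_ne_zero (h2.symm.trans this)
  · obtain ⟨t, ht⟩ := (Submodule.mem_span_range_iff_exists_fun ℂ).1 (rg ζ)
    have e1 : D' ζ = ∑ j, t j • D' (ξ j) := by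
      refine bas.exd _ _ fun v => ?_
      have h4 := congrFun (map_sum (Derivation.coeFnAddMonoidHom (R := ℂ) (A := L) (M := L))
        (fun j => t j • D' (ξ j)) Finset.univ) (zx x v)
      rw [Finset.sum_apply] at h4
      refine Eq.trans ?_ h4.symm
      change D' ζ (x v.1 v.2) = ∑ j, t j • D' (ξ j) (x v.1 v.2)
      simp only [lin_right (gd.hR _), e, ← ht, Matrix.mul_apply, Matrix.map_apply, Matrix.sum_apply,
        Matrix.smul_apply, map_sum, Finset.mul_sum, Finset.smul_sum, smul_eq_mul, map_mul]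
      rw [Finset.sum_comm]
      refine Finset.sum_congr rfl fun j _ => Finset.sum_congr rfl fun k _ => ?_
      rw [Algebra.smul_def]
      ring
    have e2 : D' ζ a = ∑ j, t j • D' (ξ j) a := by
      have h4 := congrFun (map_sum (Derivation.coeFnAddMonoidHom (R := ℂ) (A := L) (M := L))
        (fun j => t j • D' (ξ j)) Finset.univ) a
      rw [Finset.sum_apply] at h4
      rw [e1]
      exact h4
    rw [e2, Finset.mul_sum]
    refine W.sum_mem fun j _ => ?_
    rw [mul_smul_comm, h3, Finset.smul_sum]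
    refine W.sum_mem fun i _ => ?_
    have w3 : (if ξ i ∈ Bu G then D (ξ i) else D' (ξ i)) a ∈ W := by
      split_ifs with hi
      · exact w1 _ hi
      · exact w2 _ ((hξ i).resolve_left hi)
    rw [← smul_mul_assoc]
    exact W.smul_mem (⟨_, (Rg (zx x)).smul_mem ⟨ee j i, rfl⟩ (t j)⟩ : Rg (zx x)) w3

end Vale.Agent.P283R.Sq
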