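import Vale.Agent.P283R.Sq.St

/-!
# P283R, block SQ: subgroups of finite index are dense
-/

noncomputable section

namespace Vale.Agent.P283R.Sq

open Sl

namespace N19

variable {N : ℕ} {L : Type} [Field L] [Algebra ℂ L] {x : Matrix (Fin N) (Fin N) L}
  {G : Set (Mat N)} {l r : Mat N → L ≃ₐ[ℂ] L}

theorem l_one (h : Reductive x G l r) (b : Bas x G l r) : l 1 = 1 := by
  have e := b.lmul 1 h.one 1 h.one
  rw [mul_one] at e
  exact left_eq_mul.1 e

theorem l_adj (h : Reductive x G l r) (b : Bas x G l r) {g : Mat N} (hg : g ∈ G) :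
    l g.adjugate = (l g)⁻¹ := by
  have e := b.lmul g hg _ (b.inv g hg).2
  rw [Matrix.mul_adjugate, (b.inv g hg).1, one_smul, l_one h b] at e
  exact eq_inv_of_mul_eq_one_left e.symm

/-- a polynomial which vanishes on a subgroup of finite index vanishes on the group -/
theorem dense (h : Reductive x G l r) (b : Bas x G l r) (Γ : Subgroup (L ≃ₐ[ℂ] L))
    (fi : (Γ.subgroupOf (Ga G l)).FiniteIndex) (p : MvPolynomial (Fin N × Fin N) ℂ)
    (hp : ∀ g ∈ G, l g ∈ Γ → atMat g p = 0) : atMat x p = 0 := by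
  classical
  let cl : G → Ga G l ⧸ Γ.subgroupOf (Ga G l) := fun g =>
    QuotientGroup.mk ⟨l g, Subgroup.subset_closure ⟨g, g.2, rfl⟩⟩
  have := Fintype.ofFinite (Ga G l ⧸ Γ.subgroupOf (Ga G l))
  have : Nonempty G := ⟨⟨1, h.one⟩⟩
  let s : Ga G l ⧸ Γ.subgroupOf (Ga G l) → G := Function.invFun cl
  have hs : ∀ g, cl (s (cl g)) = cl g := fun g => Function.invFun_eq ⟨g, rfl⟩
  have ex : ∀ k : G, ∃ q, r k.1.adjugate (atMat x p) = atMat x q := fun k => by
    obtain ⟨q, e⟩ := b.rA _ (b.inv k k.2).2 (atMat x p) ⟨p, rfl⟩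
    exact ⟨q, e.symm⟩
  choose q hq using ex
  have z : atMat x (∏ c, q (s c)) = 0 := b.nul _ fun g hg => by
    rw [atMat, map_prod]
    refine Finset.prod_eq_zero (Finset.mem_univ (cl ⟨g, hg⟩)) ?_
    set k := s (cl ⟨g, hg⟩)
    have ka := (b.inv k k.2).2
    refine (b.rv _ ka g hg p _ (hq k)).trans (hp _ (b.mul g hg _ ka) ?_)
    rw [b.lmul g hg _ ka, l_adj h b k.2]
    exact Subgroup.mem_subgroupOf.1 (QuotientGroup.eq.1 (hs ⟨g, hg⟩))
  rw [atMat, map_prod] at z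
  obtain ⟨c, -, hc⟩ := Finset.prod_eq_zero_iff.1 z
  exact (map_eq_zero_iff _ (r _).injective).1 ((hq (s c)).trans hc)

end N19

/-- **DNS** -/
theorem dns : DNS := fun _ _ _ _ _ _ _ _ h b Γ fi _ t p hp =>
  t p fun g hg => (h.points g).1 hg p (N19.dense h b Γ fi p fun k hk m => hp k ⟨hk, m⟩)

end Vale.Agent.P283R.Sq
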