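import Vale.Agent.P283R.Sq.St
import Vale.Agent.P283R.Tp.Ufd
import Vale.Agent.P287D.Gm.Ffs

/-!
# P283R, block SQ: the factorial coordinate ring
-/

open Set

noncomputable section

namespace Vale.Agent.P283R.Sq

open Vale.Agent.P287D Vale.Agent.P297Z Sl

namespace F27

variable {L : Type} [Field L] [Algebra ℂ L] {A : Subalgebra ℂ L} {q : Ideal A} {R : Pl L}

theorem cen_iff (h : Cen A q R) (a : A) : a ∈ q ↔ (a : L) = 0 ∨ 0 < R.ord (a : L) :=
  (h a).2.trans (On.rd_zero_iff R (h a).1)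

theorem nn (h : Cen A q R) (a : A) : 0 ≤ R.ord (a : L) := Pl.ord_nonneg_of_mem _ (h a).1

/-- the centre of a prime divisor which contains a prime element -/
theorem cen_dvd (h : Cen A q R) (hl : ∀ a ∈ R.ring, a ∈ Lo A q) {p : A} (hp : Prime p)
    (pos : 0 < R.ord (p : L)) (a : A) : a ∈ q ↔ p ∣ a := by
  have pq : p ∈ q := (cen_iff h p).2 (Or.inr pos)
  refine ⟨fun ha => ?_, fun ⟨c, hc⟩ => hc ▸ q.mul_mem_right c pq⟩
  by_cases a0 : (a : L) = 0
  · rw [show a = 0 from Subtype.ext a0]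
    exact dvd_zero _
  have p0 : (p : L) ≠ 0 := fun e => hp.ne_zero (Subtype.ext e)
  have ap := ((cen_iff h a).1 ha).resolve_left a0
  obtain ⟨m, hm⟩ := Int.eq_ofNat_of_zero_le pos.le
  have : (a : L) ^ m / p ∈ R.ring := by
    rw [← Pl.ord_nonneg_iff _ (div_ne_zero (pow_ne_zero _ a0) p0),
      Pl.ord_div _ (pow_ne_zero _ a0) p0, Pl.ord_pow, hm]
    nlinarith
  obtain ⟨s, t, ht, e⟩ := hl _ this
  rw [div_eq_div_iff p0 (Uf.ne_of ht)] at e
  have e' : a ^ m * t = s * p := Subtype.ext (by simpa using e)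
  refine (hp.dvd_or_dvd (Dvd.intro_left s e'.symm)).elim hp.dvd_of_dvd_pow fun ⟨c, hc⟩ => ?_
  exact absurd (hc ▸ q.mul_mem_right c pq) ht

theorem ex_prime [UniqueFactorizationMonoid A] (h : Cen A q R) {s : A} (s0 : s ≠ 0)
    (hs : R.ord (s : L) = 1) : ∃ p : A, Prime p ∧ R.ord (p : L) = 1 := by
  induction s using UniqueFactorizationMonoid.induction_on_prime with
  | h₁ => exact absurd rfl s0
  | h₂ z hu =>
    obtain ⟨c, hc⟩ := hu.exists_right_inv
    have e : (z : L) * c = 1 := congrArg Subtype.val hc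
    rw [Pl.ord_unit _ (h z).1 (inv_eq_of_mul_eq_one_right e ▸ (h c).1)] at hs
    exact absurd hs zero_ne_one
  | h₃ z p z0 hp ih =>
    rw [MulMemClass.coe_mul, Pl.ord_mul _ (fun e => hp.ne_zero (Subtype.ext e))
      fun e => z0 (Subtype.ext e)] at hs
    have := nn h z
    have := nn h p
    by_cases e : R.ord (p : L) = 1
    · exact ⟨p, hp, e⟩
    · exact ih z0 (by omega)

/-- every prime divisor of a factorial ring is given by a prime element -/
theorem gn [UniqueFactorizationMonoid A] (hR : PD A R) : ∃ p : A, Prime p ∧ Gn A R p := by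
  obtain ⟨q, h, hl⟩ := hR
  obtain ⟨x, x0, hx⟩ := Pl.exists_ord_eq_one R.toPlace
  obtain ⟨s, t, ht, rfl⟩ := hl x ((Pl.ord_nonneg_iff _ x0).1 (by rw [hx]; exact zero_le_one))
  have s0 := (div_ne_zero_iff.1 x0).1
  rw [Pl.ord_div _ s0 (Uf.ne_of ht), Uf.cen_ord h ht, sub_zero] at hx
  obtain ⟨p, hp, e⟩ := ex_prime h (fun e => s0 (congrArg Subtype.val e)) hx
  refine ⟨p, hp, p.2, fun e => hp.ne_zero (Subtype.ext e), e, fun R' ⟨q', h', hl'⟩ n => ?_⟩
  refine le_antisymm (not_lt.1 fun pos => n ?_) (nn h' p)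
  obtain rfl : q' = q := Ideal.ext fun a =>
    (cen_dvd h' hl' hp pos a).trans (cen_dvd h hl hp (e ▸ one_pos) a).symm
  exact Pb.pl_ext (congrArg _ (Pl.eq_of_le' (v := R'.toPlace) (w := R.toPlace)
    fun a ha => Uf.cen_lo h (hl' a ha)))

theorem aff (fg : A.FG) (fr : ∀ a : L, ∃ s t : A, a = s / t) : ∃ n, Aff n A := by
  have : IsFractionRing A L := IsFractionRing.of_field _ _ fr
  have : Algebra.FiniteType ℂ A := (Subalgebra.fg_iff_finiteType A).1 fg
  have : Algebra.EssFiniteType A L := .of_isLocalization L (nonZeroDivisors A)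
  have : Algebra.EssFiniteType ℂ L := .comp ℂ A L
  have := IsLocalization.isAlgebraic L (nonZeroDivisors A)
  obtain ⟨n, hn⟩ := Cardinal.lt_aleph0.1 (trdeg_lt_aleph0_of_finiteType (R := ℂ) (S := A))
  refine ⟨n, Gm.ff_of_ess ?_, fg, fr⟩
  rw [← trdeg_add_eq ℂ A (A := L), trdeg_eq_zero (R := A), add_zero, hn]

theorem rg_eq {s : Type} (z : s → L) : Rg z = Algebra.adjoin ℂ (range z) :=
  (Algebra.adjoin_range_eq_range_aeval ℂ z).symm

theorem ufm {N : ℕ} {x : Matrix (Fin N) (Fin N) L} {G : Set (Mat N)} {l r : Mat N → L ≃ₐ[ℂ] L}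
    (h : Reductive x G l r) : UniqueFactorizationMonoid (Rg (zx x)) := by
  rw [rg_eq]
  exact h.factorial

end F27

theorem fac27 : FAC := fun N L _ _ x G l r h => by
  have := F27.ufm h
  refine ⟨F27.aff ?_ fun a => ?_, inferInstance, fun R hR => ?_⟩
  · rw [F27.rg_eq]
    exact Subalgebra.fg_def.2 ⟨_, finite_range _, rfl⟩
  · obtain ⟨p, q, e⟩ := h.frac a
    exact ⟨⟨_, p, rfl⟩, ⟨_, q, rfl⟩, e⟩
  · obtain ⟨p, -, hp⟩ := F27.gn hR
    exact ⟨p, hp⟩

end Vale.Agent.P283R.Sq
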