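import Vale.Agent.P287D.Va.Bas

/-!
# P283R, block SQ: a subgroup of finite index fixes the boundary, and the cocycle has order zero
-/

noncomputable section

namespace Vale.Agent.P283R.Sq.K57

open Vale.Agent.P287D

variable {K : Type} [Field K] [Algebra ℂ K] {Γ : Type*} [Group Γ]

/-- The order is bounded below on a finite dimensional space. -/
theorem bdd (E : Pl K) (V : Submodule ℂ K) [FiniteDimensional ℂ V] :
    ∃ n : ℤ, ∀ a ∈ V, a ≠ 0 → n ≤ E.ord a := by
  obtain ⟨s, hs⟩ := (Submodule.fg_iff_finiteDimensional V).2 inferInstance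
  refine ⟨-E.mz s, fun a ha a0 => ?_⟩
  have h := P297Z.Pl.ord_nonneg_of_mem E.toPlace (E.mem_ring_mz (hs ▸ ha))
  rw [E.ord_mul_t a0] at h
  omega

/-- A field automorphism which maps one valuation ring to the other keeps the orders. -/
theorem ord_eq (E E' : Pl K) (m : K →+* K) (hm : Function.Surjective m)
    (h : ∀ a, a ∈ E.ring ↔ m a ∈ E'.ring) (a : K) : E'.ord (m a) = E.ord a := by
  obtain ⟨t, t0, t1⟩ := P297Z.Pl.exists_ord_eq_one E.toPlace
  have m0 : ∀ {b}, b ≠ 0 → m b ≠ 0 := fun hb => (map_ne_zero m).2 hb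
  have key : ∀ b, b ≠ 0 → E'.ord (m b) = E.ord b * E'.ord (m t) := fun b b0 => by
    have u0 : b / t ^ E.ord b ≠ 0 := div_ne_zero b0 (zpow_ne_zero _ t0)
    have e : E.ord (b / t ^ E.ord b) = 0 := by
      rw [P297Z.Pl.ord_div _ b0 (zpow_ne_zero _ t0), P297Z.Pl.ord_zpow, t1]
      ring
    obtain ⟨h1, h2⟩ := (P297Z.Pl.ord_eq_zero_iff _ u0).1 e
    have e' := P297Z.Pl.ord_unit E'.toPlace ((h _).1 h1) (by rw [← map_inv₀]; exact (h _).1 h2)
    rw [map_div₀, map_zpow₀, P297Z.Pl.ord_div _ (m0 b0) (zpow_ne_zero _ (m0 t0)),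
      P297Z.Pl.ord_zpow] at e'
    omega
  have one : E'.ord (m t) = 1 := by
    obtain ⟨u, u0, u1⟩ := P297Z.Pl.exists_ord_eq_one E'.toPlace
    obtain ⟨b, rfl⟩ := hm u
    have b0 : b ≠ 0 := fun e => u0 (by rw [e, map_zero])
    rw [key b b0] at u1
    have nn : 0 ≤ E'.ord (m t) := P297Z.Pl.ord_nonneg_of_mem _
      ((h t).1 ((P297Z.Pl.ord_nonneg_iff _ t0).1 (by omega)))
    exact Int.eq_one_of_mul_eq_one_left nn u1
  rcases eq_or_ne a 0 with rfl | a0
  · simp
  · rw [key a a0, one, mul_one]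

theorem pl_ext {E E' : Pl K} (h : ∀ a, a ∈ E.ring ↔ a ∈ E'.ring) : E = E' := by
  obtain ⟨P, _, _⟩ := E
  obtain ⟨P', _, _⟩ := E'
  have : P = P' := P297Z.Pl.ext' (SetLike.ext h)
  subst this
  rfl

theorem fix0 (m : Γ → K →+* K) (one : ∀ a, m 1 a = a) (mul : ∀ g h a, m (g * h) a = m g (m h a))
    (S : Set (Pl K)) (fin : S.Finite)
    (perm : ∀ g, ∀ E ∈ S, ∃ E' ∈ S, ∀ a, a ∈ E.ring ↔ m g a ∈ E'.ring) :
    ∃ G' : Subgroup Γ, G'.FiniteIndex ∧ ∀ g ∈ G', ∀ E ∈ S, ∀ a, E.ord (m g a) = E.ord a := by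
  have sj : ∀ g, Function.Surjective (m g) := fun g a =>
    ⟨m g⁻¹ a, by rw [← mul, mul_inv_cancel, one]⟩
  choose σ hσ e using perm
  letI : MulAction Γ S :=
    { smul := fun g E => ⟨σ g E E.2, hσ g E E.2⟩
      one_smul := fun E => Subtype.ext (pl_ext fun a => by
        have := e 1 E E.2 a
        rw [one] at this
        exact this.symm)
      mul_smul := fun g h E => Subtype.ext (pl_ext fun a => by
        obtain ⟨b, rfl⟩ := sj (g * h) a
        refine (e (g * h) E E.2 b).symm.trans ?_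
        rw [mul]
        exact (e h E E.2 b).trans (e g _ (hσ h E E.2) _)) }
  haveI : Finite S := fin
  refine ⟨(MulAction.toPermHom Γ S).ker, Subgroup.finiteIndex_ker _, fun g hg E hE a => ?_⟩
  have h1 : σ g E hE = E :=
    congrArg Subtype.val (congrArg (fun p : Equiv.Perm S => p ⟨E, hE⟩) (MonoidHom.mem_ker.1 hg))
  exact ord_eq E E (m g) (sj g) (fun b => by have := e g E hE b; rwa [h1] at this) a

/-- `m` is a left or a right action. -/
def Act {F : Type*} (m : Γ → F → F) : Prop :=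
  (∀ a, m 1 a = a) ∧ ((∀ g h a, m (g * h) a = m g (m h a)) ∨ ∀ g h a, m (g * h) a = m h (m g a))

/-- **FXD**: a subgroup of finite index fixes a finite stable set of places. -/
theorem fix (m : Γ → K →+* K) (act : Act fun g a => m g a) (S : Set (Pl K)) (fin : S.Finite)
    (perm : ∀ g, ∀ E ∈ S, ∃ E' ∈ S, ∀ a, a ∈ E.ring ↔ m g a ∈ E'.ring) :
    ∃ G' : Subgroup Γ, G'.FiniteIndex ∧ ∀ g ∈ G', ∀ E ∈ S, ∀ a, E.ord (m g a) = E.ord a := by
  obtain ⟨one, mul | mul⟩ := act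
  · exact fix0 m one mul S fin perm
  · obtain ⟨G', f, h⟩ := fix0 (fun g => m g⁻¹) (fun a => by rw [inv_one]; exact one a)
      (fun g h a => by rw [mul_inv_rev]; exact mul _ _ a) S fin fun g => perm g⁻¹
    exact ⟨G', f, fun g hg E hE a => by simpa using h g⁻¹ (G'.inv_mem hg) E hE a⟩

/-- A homomorphism to the integers which is bounded below is zero. -/
theorem hom0 (G' : Subgroup Γ) (χ : Γ → ℤ) (add : ∀ g ∈ G', ∀ h ∈ G', χ (g * h) = χ g + χ h)
    (n : ℤ) (bd : ∀ g ∈ G', n ≤ χ g) : ∀ g ∈ G', χ g = 0 := by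
  have one : χ 1 = 0 := by
    have := add 1 G'.one_mem 1 G'.one_mem
    rw [mul_one] at this
    omega
  have pw : ∀ g ∈ G', ∀ k : ℕ, χ (g ^ k) = k * χ g := fun g hg k => by
    induction k with
    | zero => simpa using one
    | succ k ih =>
      rw [pow_succ, add _ (G'.pow_mem hg k) g hg, ih]
      push_cast
      ring
  have nn : ∀ g ∈ G', 0 ≤ χ g := fun g hg => by
    by_contra l
    have h := bd _ (G'.pow_mem hg (n.natAbs + 1))
    rw [pw g hg] at h
    have h2 : ((n.natAbs + 1 : ℕ) : ℤ) * χ g ≤ ((n.natAbs + 1 : ℕ) : ℤ) * (-1) :=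
      mul_le_mul_of_nonneg_left (by omega) (Int.natCast_nonneg _)
    omega
  intro g hg
  have h1 := add g hg g⁻¹ (G'.inv_mem hg)
  rw [mul_inv_cancel, one] at h1
  have h2 := nn g hg
  have h3 := nn _ (G'.inv_mem hg)
  omega

/-- **COC**: the quotient of a translate of `f` by `f` has order zero on the fixed places. -/
theorem coc {L : Type*} [Field L] [Algebra ℂ L] (ι : K →ₐ[ℂ] L) (l : Γ → L →+* L)
    (act : Act fun g a => l g a) (G' : Subgroup Γ) (m : Γ → K → K)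
    (hm : ∀ g ∈ G', ∀ a, l g (ι a) = ι (m g a)) (E : Pl K)
    (fx : ∀ g ∈ G', ∀ a, E.ord (m g a) = E.ord a) {f : L} (f0 : f ≠ 0) (W : Submodule ℂ L)
    [FiniteDimensional ℂ W] (hW : ∀ g ∈ G', l g f ∈ W) (κ : Γ → K)
    (hκ : ∀ g ∈ G', ι (κ g) * f = l g f) : ∀ g ∈ G', κ g ≠ 0 ∧ E.ord (κ g) = 0 := by
  have k0 : ∀ g ∈ G', κ g ≠ 0 := fun g hg e => by
    have h := hκ g hg
    rw [e, map_zero, zero_mul] at h
    exact (map_ne_zero (l g)).2 f0 h.symm
  have m0 : ∀ g ∈ G', ∀ a, a ≠ 0 → m g a ≠ 0 := fun g hg a a0 e => by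
    have h := hm g hg a
    rw [e, map_zero] at h
    exact (map_ne_zero (l g)).2 ((map_ne_zero ι).2 a0) h
  have cc : ∀ g ∈ G', ∀ h ∈ G', ∀ k ∈ G', l k f = l g (l h f) →
      E.ord (κ k) = E.ord (κ g) + E.ord (κ h) := fun g hg h hh k hk e => by
    rw [← hκ k hk, ← hκ h hh, map_mul, hm g hg, ← hκ g hg, ← mul_assoc, ← map_mul] at e
    rw [ι.injective (mul_right_cancel₀ f0 e),
      P297Z.Pl.ord_mul _ (m0 g hg _ (k0 h hh)) (k0 g hg), fx g hg, add_comm]
  let T : K →ₗ[ℂ] L := LinearMap.mulRight ℂ f ∘ₗ ι.toLinearMap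
  have hT : Function.Injective T := fun a b e => ι.injective (mul_right_cancel₀ f0 e)
  haveI : FiniteDimensional ℂ (W.comap T) :=
    Module.Finite.of_injective ((T.domRestrict (W.comap T)).codRestrict W fun a => a.2)
      fun a b e => Subtype.ext (hT (congrArg Subtype.val e))
  obtain ⟨n, hn⟩ := bdd E (W.comap T)
  intro g hg
  refine ⟨k0 g hg, hom0 G' (fun g => E.ord (κ g)) (fun g hg h hh => ?_) n
    (fun g hg => hn _ ?_ (k0 g hg)) g hg⟩
  · rcases act.2 with mul | mul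
    · exact cc g hg h hh _ (G'.mul_mem hg hh) (mul g h f)
    · exact (cc h hh g hg _ (G'.mul_mem hg hh) (mul g h f)).trans (add_comm _ _)
  · change ι (κ g) * f ∈ W
    rw [hκ g hg]
    exact hW g hg

end Vale.Agent.P283R.Sq.K57
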