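import Vale.Agent.P283R.Sq.St
import Vale.Agent.P283R.Sq.Coc57
import Vale.Agent.P287D.Iso.Bas

/-!
# P283R, block SQ: a subgroup of finite index fixes the boundary
-/

open Set

noncomputable section

namespace Vale.Agent.P283R.Sq

open Vale.Agent.P287D Sl

namespace F59

variable {K L : Type} [Field K] [Algebra ℂ K] [Field L] [Algebra ℂ L]

/-- an automorphism of `A` permutes the prime divisors -/
theorem pd_mv (A : Subalgebra ℂ L) (σ : L ≃ₐ[ℂ] L) (h : ∀ a ∈ A, σ a ∈ A)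
    (h' : ∀ a ∈ A, σ.symm a ∈ A) {R : Pl L} (p : PD A R) : PD A ((Semi.of_alg σ).pl R) := by
  obtain ⟨q, ce, lo⟩ := p
  let τ : A →+* A := ((σ.symm : L →+* L).comp (algebraMap A L)).codRestrict A fun a => h' a a.2
  have hτ : ∀ a : A, σ (τ a : L) = a := fun a => σ.apply_symm_apply a
  refine ⟨q.comap τ, fun a => ?_, fun a ha => ?_⟩
  · rw [← hτ a]
    refine ⟨(Semi.of_alg σ).mem_pl.2 (ce (τ a)).1, ?_⟩
    have e := (Semi.of_alg σ).κ_rd R (τ a : L)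
    refine (Ideal.mem_comap.trans (ce (τ a)).2).trans ?_
    exact (map_eq_zero ((Semi.of_alg σ).κ R)).symm.trans (by rw [e]; rfl)
  · obtain ⟨c, rfl⟩ := σ.surjective a
    obtain ⟨s, t, ht, rfl⟩ := lo c ((Semi.of_alg σ).mem_pl.1 ha)
    refine ⟨⟨σ s, h s s.2⟩, ⟨σ t, h t t.2⟩, fun x => ht ?_, map_div₀ σ _ _⟩
    have e : τ ⟨σ t, h t t.2⟩ = t := Subtype.ext (σ.symm_apply_apply t)
    exact e ▸ Ideal.mem_comap.1 x

/-- the action on the invariants -/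
theorem act (i : K →ₐ[ℂ] L) (Γ : Subgroup (L ≃ₐ[ℂ] L))
    (ex : ∀ σ ∈ Γ, ∀ a, ∃ a', i a' = σ (i a)) :
    ∃ m : Γ → K →+* K, (∀ (σ : Γ) a, σ.1 (i a) = i (m σ a)) ∧ K57.Act fun g a => m g a := by
  choose f hf using ex
  have j := i.toRingHom.injective
  let m : Γ → K →+* K := fun σ =>
    { toFun := f σ σ.2
      map_one' := j ((hf _ _ _).trans (by simp))
      map_mul' := fun x y => j ((hf _ _ _).trans (by simp [hf]))
      map_zero' := j ((hf _ _ _).trans (by simp))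
      map_add' := fun x y => j ((hf _ _ _).trans (by simp [hf])) }
  have hm : ∀ (σ : Γ) a, σ.1 (i a) = i (m σ a) := fun σ a => (hf σ σ.2 a).symm
  refine ⟨m, hm, fun a => j (hm 1 a).symm, Or.inl fun g h a => j ?_⟩
  change i (m (g * h) a) = i (m g (m h a))
  rw [← hm, ← hm, ← hm]
  rfl

end F59

open F59 in
/-- **FIX** -/
theorem fix59 : FIX := by
  intro n b w d K L J _ _ _ _ i A Γ H D B T ab ge va
  obtain ⟨m, hm, ac⟩ := act i Γ fun σ s a => (ge.inv _).2 fun h hh => by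
    rw [← ab.cΓ σ s h hh, (ge.inv _).1 ⟨a, rfl⟩ h hh]
  obtain ⟨G', fi, fx⟩ := K57.fix m ac (Bd i A T) va.up fun σ E hE => by
    obtain ⟨E', t, e⟩ := ge.act σ σ.2 E hE.1
    refine ⟨E', ⟨t, fun ⟨R, p, o⟩ => hE.2 ?_⟩, fun a => e a _ (hm σ a)⟩
    refine ⟨_, pd_mv A σ.1.symm (ab.stΓ _ (Γ.inv_mem σ.2)) (ab.stΓ _ σ.2) p, fun a => ?_⟩
    rw [e a _ (hm σ a), o]
    refine (Semi.of_alg σ.1.symm).mem_pl.symm.trans ?_
    change σ.1.symm (i (m σ a)) ∈ _ ↔ i a ∈ _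
    rw [← hm, AlgEquiv.symm_apply_apply]
  have sub : (G'.map Γ.subtype).subgroupOf Γ = G' :=
    Subgroup.comap_map_eq_self_of_injective Γ.subtype_injective G'
  refine ⟨G'.map Γ.subtype, by rw [sub]; exact fi, Subgroup.map_subtype_le _, ?_, ?_⟩
  · rintro _ ⟨σ, s, rfl⟩ a
    exact ⟨m σ a, hm σ a, fun Q q => fx σ s Q q a⟩
  · rintro _ ⟨σ, s, rfl⟩ f fA f0 sm
    have ex : ∀ τ : Γ, ∃ a, i a = τ.1 f / f := fun τ => (ge.inv _).2 fun h hh => by
      obtain ⟨c, hc⟩ := sm h hh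
      have c0 : c ≠ 0 := fun e => (map_ne_zero h).2 f0 (by rw [hc, e, zero_smul])
      rw [map_div₀, ← ab.cΓ τ τ.2 h hh, hc, map_smul, Algebra.smul_def, Algebra.smul_def,
        mul_div_mul_left _ _ ((map_ne_zero _).2 c0)]
    choose κ hκ using ex
    have hk : ∀ τ : Γ, i (κ τ) * f = τ.1 f := fun τ => by rw [hκ, div_mul_cancel₀ _ f0]
    have := ab.fd f fA
    refine ⟨κ σ, (hk σ).symm, fun Q q => ?_⟩
    exact (K57.coc i (fun g : Γ => (g.1 : L →+* L)) ⟨fun _ => rfl, Or.inl fun _ _ _ => rfl⟩ G'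
      (fun g a => m g a) (fun g _ a => hm g a) Q (fun g hg a => fx g hg Q q a) f0 (Orb Γ f)
      (fun g _ => Submodule.subset_span ⟨g.1, g.2, rfl⟩) κ (fun g _ => hk g) σ s).2

end Vale.Agent.P283R.Sq
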