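import Vale.Agent.P283R.Sg.Deg9

/-!
# P283R, block SQ: semi-invariants of locally finite derivations and automorphisms
-/

open Module

namespace Vale.Agent.P283R.Sq.E93

open Sg.D9

variable {R : Type*} [CommRing R] [Algebra ℂ R]

theorem ex_eig (U : Submodule ℂ R) [FiniteDimensional ℂ U] {a : R} (a0 : a ≠ 0) (ha : a ∈ U)
    (T : R →ₗ[ℂ] R) (st : ∀ v ∈ U, T v ∈ U) : ∃ c : ℂ, ∃ v ∈ U, v ≠ 0 ∧ T v = c • v := by
  have : Nontrivial U := ⟨⟨⟨a, ha⟩, 0, fun e => a0 (congrArg Subtype.val e)⟩⟩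
  obtain ⟨c, hc⟩ := End.exists_eigenvalue (T.restrict st)
  obtain ⟨v, hv⟩ := hc.exists_hasEigenvector
  refine ⟨c, v, v.2, fun h => hv.2 (Subtype.ext h), ?_⟩
  simpa using congrArg Subtype.val hv.apply_eq_smul

variable [IsDomain R]

/-- an element that divides its derivative is an eigenvector -/
theorem dvd_eig {δ : Derivation ℂ R R} (lf : ∀ x, Lf δ x) {a : R} (h : a ∣ δ a) :
    ∃ c : ℂ, δ a = c • a := by
  by_cases a0 : a = 0
  · exact ⟨0, by simp [a0]⟩
  obtain ⟨W, _, a1, a2⟩ := lf a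
  let U := W ⊓ (Ideal.span {a}).restrictScalars ℂ
  have : FiniteDimensional ℂ U := Submodule.finiteDimensional_inf_left _ _
  obtain ⟨c, v, hv, v0, e⟩ := ex_eig U a0 ⟨a1, Ideal.mem_span_singleton_self a⟩ δ fun v hv => by
    refine ⟨a2 v hv.1, ?_⟩
    obtain ⟨b, rfl⟩ := Ideal.mem_span_singleton.1 hv.2
    refine Ideal.mem_span_singleton.2 ?_
    rw [Derivation.coeFn_coe, Derivation.leibniz]
    exact dvd_add (dvd_mul_right _ _) (h.mul_left _)
  obtain ⟨b, rfl⟩ := Ideal.mem_span_singleton.1 hv.2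
  exact eig (lf a) (lf b) v0 e

/-- a unit whose powers keep `f` in a finite dimensional space is algebraic, hence constant -/
theorem const_of {u f : R} (f0 : f ≠ 0) (W : Submodule ℂ R) [FiniteDimensional ℂ W]
    (h : ∀ k : ℕ, u ^ k * f ∈ W) : ∃ c : ℂ, u = algebraMap ℂ R c := by
  have k : ¬ LinearIndependent ℂ fun k : ℕ => (⟨u ^ k * f, h k⟩ : W) := fun li =>
    not_finite_iff_infinite.2 inferInstance li.finite
  have a : IsAlgebraic ℂ u := by
    by_contra t
    refine k (LinearIndependent.of_comp W.subtype ?_)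
    have li := (Polynomial.basisMonomials ℂ).linearIndependent.map'
      ((LinearMap.mulRight ℂ f) ∘ₗ (Polynomial.aeval u).toLinearMap) (by
        rw [LinearMap.ker_eq_bot]
        intro p q e
        exact (transcendental_iff_injective.1 t) (mul_right_cancel₀ f0 e))
    have e : (W.subtype ∘ fun k : ℕ => (⟨u ^ k * f, h k⟩ : W)) =
        ((LinearMap.mulRight ℂ f) ∘ₗ (Polynomial.aeval u).toLinearMap) ∘
          Polynomial.basisMonomials ℂ := by
      ext n
      simp
    rw [e]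
    exact li
  obtain ⟨c, hc⟩ := (IsAlgClosed.algebraMap_bijective_of_isIntegral (k := ℂ)
    (K := integralClosure ℂ R)).2 ⟨u, a.isIntegral⟩
  exact ⟨c, (congrArg Subtype.val hc).symm⟩

/-- a semi-invariant `σ f = u f` of a locally finite endomorphism with `σ u = c u` -/
theorem semi (σ : R →ₐ[ℂ] R) {u f : R} (f0 : f ≠ 0) (W : Submodule ℂ R) [FiniteDimensional ℂ W]
    (hf : f ∈ W) (st : ∀ v ∈ W, σ v ∈ W) (h : σ f = u * f) {c : ℂ} (c0 : c ≠ 0)
    (hu : σ u = c • u) : ∃ e : ℂ, σ f = e • f := by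
  have k : ∀ k : ℕ, u ^ k * f ∈ W := fun k => by
    induction k with
    | zero => simpa using hf
    | succ k ih =>
      have := W.smul_mem (c ^ k)⁻¹ (st _ ih)
      rwa [map_mul, map_pow, hu, h, smul_pow, smul_mul_assoc, smul_smul,
        inv_mul_cancel₀ (pow_ne_zero k c0), one_smul, ← mul_assoc, ← pow_succ] at this
  obtain ⟨e, rfl⟩ := const_of f0 W k
  exact ⟨e, by rw [h, Algebra.smul_def]⟩

end Vale.Agent.P283R.Sq.E93
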