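import Mathlib

/-!
# P283R, block SQ: groups of semi-invariants with weights in a lattice
-/

open Set

namespace Vale.Agent.P283R.Sq.L93

/-- a subgroup of a group with `N` generators has `N` generators -/
theorem sub_gen {V : Type*} [AddCommGroup V] {N : ℕ} (e : Fin N → V) (M : Submodule ℤ V)
    (h : M ≤ Submodule.span ℤ (range e)) :
    ∃ v : Fin N → V, (∀ j, v j ∈ M) ∧ ∀ x ∈ M, ∃ n : Fin N → ℤ, x = ∑ j, n j • v j := by
  classical
  let π := Fintype.linearCombination ℤ e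
  obtain ⟨n, b⟩ := Submodule.basisOfPid (Pi.basisFun ℤ (Fin N)) (M.comap π)
  have le : n ≤ N := by
    have := (M.comap π).finrank_le
    rwa [Module.finrank_eq_card_basis b, Fintype.card_fin, Module.finrank_fin_fun] at this
  refine ⟨fun j => if k : j.1 < n then π (b ⟨j, k⟩) else 0, fun j => ?_, fun x hx => ?_⟩
  · dsimp only
    split_ifs with k
    · exact (b ⟨j, k⟩).2
    · exact M.zero_mem
  · have := h hx
    rw [← Fintype.range_linearCombination] at this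
    obtain ⟨y, rfl⟩ := this
    refine ⟨fun j => if k : j.1 < n then b.repr ⟨y, hx⟩ ⟨j, k⟩ else 0, ?_⟩
    have e1 := congrArg (fun z : M.comap π => π z) (b.sum_repr ⟨y, hx⟩)
    simp only [Submodule.coe_sum, Submodule.coe_smul, map_sum, map_smul] at e1
    refine e1.symm.trans ?_
    refine Finset.sum_of_injOn (Fin.castLE le) (Fin.castLE_injective le).injOn (by simp)
      (fun j _ hj => ?_) fun i _ => by simp
    have k : ¬ j.1 < n := fun k => hj ⟨⟨j, k⟩, by simp, rfl⟩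
    simp [k]

/-- **LAT** -/
theorem lat {K V : Type*} [Field K] [Algebra ℂ K] [AddCommGroup V] {N : ℕ} (Cu : K → Prop)
    (h1 : Cu 1) (hm : ∀ a b, Cu a → Cu b → Cu (a * b)) (hi : ∀ a, Cu a → Cu a⁻¹)
    (h0 : ∀ a, Cu a → a ≠ 0) (χ : K → V) (ad : ∀ a b, Cu a → Cu b → χ (a * b) = χ a + χ b)
    (e : Fin N → V) (sp : ∀ a, Cu a → χ a ∈ Submodule.span ℤ (range e))
    (ke : ∀ a, Cu a → χ a = 0 → ∃ c : ℂ, a = algebraMap ℂ K c) :
    ∃ u : Fin (2 * N) → K, (∀ j, Cu (u j)) ∧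
      ∀ φ, Cu φ → ∃ (a : ℂ) (n : Fin (2 * N) → ℕ), φ = a • ∏ j, u j ^ n j := by
  classical
  have c1 : χ 1 = 0 := by simpa using ad 1 1 h1 h1
  have ci : ∀ a, Cu a → χ a⁻¹ = -χ a := fun a h => by
    rw [eq_neg_iff_add_eq_zero, ← ad _ _ (hi a h) h, inv_mul_cancel₀ (h0 a h), c1]
  have cp : ∀ a, Cu a → ∀ k : ℕ, Cu (a ^ k) ∧ χ (a ^ k) = k • χ a := fun a h k => by
    induction k with
    | zero => simpa using ⟨h1, c1⟩
    | succ k ih => rw [pow_succ, ad _ _ ih.1 h, ih.2, succ_nsmul]; exact ⟨hm _ _ ih.1 h, rfl⟩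
  have cs : ∀ (s : Finset (Fin N)) (x : Fin N → K), (∀ j, Cu (x j)) →
      Cu (∏ j ∈ s, x j) ∧ χ (∏ j ∈ s, x j) = ∑ j ∈ s, χ (x j) := fun s x h => by
    induction s using Finset.induction_on with
    | empty => simpa using ⟨h1, c1⟩
    | insert j s k ih =>
      rw [Finset.prod_insert k, Finset.sum_insert k, ad _ _ (h j) ih.1, ih.2]
      exact ⟨hm _ _ (h j) ih.1, rfl⟩
  let M : AddSubgroup V :=
    { carrier := {v | ∃ a, Cu a ∧ χ a = v}
      zero_mem' := ⟨1, h1, c1⟩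
      add_mem' := by
        rintro _ _ ⟨a, ha, rfl⟩ ⟨b, hb, rfl⟩
        exact ⟨a * b, hm a b ha hb, ad a b ha hb⟩
      neg_mem' := by
        rintro _ ⟨a, ha, rfl⟩
        exact ⟨a⁻¹, hi a ha, ci a ha⟩ }
  obtain ⟨v, v1, v2⟩ := sub_gen e M.toIntSubmodule (by rintro _ ⟨a, ha, rfl⟩; exact sp a ha)
  choose w w1 w2 using v1
  have eq : N + N = 2 * N := (two_mul N).symm
  refine ⟨fun j => Fin.append w (fun i => (w i)⁻¹) (j.cast eq.symm), fun j => ?_, fun φ hφ => ?_⟩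
  · refine Fin.addCases (motive := fun j => Cu (Fin.append w (fun i => (w i)⁻¹) j))
      (fun i => ?_) (fun i => ?_) _
    · rw [Fin.append_left]; exact w1 i
    · rw [Fin.append_right]; exact hi _ (w1 i)
  obtain ⟨n, hn⟩ := v2 (χ φ) ⟨φ, hφ, rfl⟩
  let x : Fin N → K := fun j => w j ^ (n j).toNat * (w j)⁻¹ ^ (-n j).toNat
  have x1 : ∀ j, Cu (x j) := fun j => hm _ _ (cp _ (w1 j) _).1 (cp _ (hi _ (w1 j)) _).1
  have x2 : ∀ j, χ (x j) = n j • v j := fun j => by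
    rw [ad _ _ (cp _ (w1 j) _).1 (cp _ (hi _ (w1 j)) _).1, (cp _ (w1 j) _).2,
      (cp _ (hi _ (w1 j)) _).2, ci _ (w1 j), w2, smul_neg, ← sub_eq_add_neg, ← natCast_zsmul,
      ← natCast_zsmul, ← sub_smul, Int.toNat_sub_toNat_neg]
  obtain ⟨p1, p2⟩ := cs Finset.univ x x1
  obtain ⟨c, hc⟩ := ke (φ * (∏ j, x j)⁻¹) (hm _ _ hφ (hi _ p1)) (by
    rw [ad _ _ hφ (hi _ p1), ci _ p1, p2, hn, Finset.sum_congr rfl fun j _ => x2 j, add_neg_cancel])
  refine ⟨c, fun j => Fin.append (fun i => (n i).toNat) (fun i => (-n i).toNat) (j.cast eq.symm), ?_⟩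
  rw [Algebra.smul_def, ← hc, ← (finCongr eq).prod_comp, Fin.prod_univ_add,
    ← Finset.prod_mul_distrib]
  simp only [finCongr_apply, Fin.cast_cast, Fin.cast_eq_self, Fin.append_left, Fin.append_right]
  exact (inv_mul_cancel_right₀ (h0 _ p1) φ).symm

end Vale.Agent.P283R.Sq.L93
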