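import Vale.Agent.P283R.Sq.Cr57
import Vale.Agent.P283R.Sq.Eig93
import Vale.Agent.P283R.Sq.Lat93

/-!
# P283R, block SQ: the weights of the eigenvectors of triangular matrices
-/

open MvPolynomial

noncomputable section

namespace Vale.Agent.P283R.Sq.W93

open C57

variable {s : Type} [Fintype s] [DecidableEq s]

theorem wtP {J : Type*} (mat : J → Matrix s s ℂ) (Bo : Set J) (ht : s → ℕ)
    (hB : ∀ a ∈ Bo, Tri ht (mat a)) (W0 W : Submodule ℂ (MvPolynomial s ℂ))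
    (hW : ∀ a ∈ Bo, ∀ F ∈ W, op (mat a) F ∈ W) (h0 : ¬ W ≤ W0) :
    ∃ F ∈ W, F ∉ W0 ∧ ∃ m : s →₀ ℕ, ∀ a ∈ Bo,
      op (mat a) F - (∑ v, mat a v v * (m v : ℂ)) • F ∈ W0 := by
  classical
  have hex : ∃ n, ∃ F ∈ W, F ∉ W0 ∧ ∀ m ∈ F.support, Finsupp.weight ht m < n := by
    obtain ⟨F, hF, hF0⟩ := SetLike.not_le_iff_exists.1 h0
    exact ⟨F.support.sup (Finsupp.weight ht) + 1, F, hF, hF0,
      fun m hm => Nat.lt_succ_of_le (Finset.le_sup (f := Finsupp.weight ht) hm)⟩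
  set n := Nat.find hex with hn
  have hex2 : ∃ k, ∃ F ∈ W, F ∉ W0 ∧ (∀ m ∈ F.support, Finsupp.weight ht m < n) ∧
      (F.support.filter fun m => n ≤ Finsupp.weight ht m + 1).card = k := by
    obtain ⟨F, hF, hF0, h⟩ := Nat.find_spec hex
    exact ⟨_, F, hF, hF0, h, rfl⟩
  obtain ⟨F, hF, hF0, hh, hk⟩ := Nat.find_spec hex2
  have hne : (F.support.filter fun m => n ≤ Finsupp.weight ht m + 1).Nonempty := by
    by_contra e
    rw [Finset.not_nonempty_iff_eq_empty, Finset.filter_eq_empty_iff] at e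
    have F0 : F ≠ 0 := fun e => hF0 (e ▸ W0.zero_mem)
    obtain ⟨m0, hm0⟩ := support_nonempty.2 F0
    have hpos : n - 1 < n := by have := hh m0 hm0; omega
    exact Nat.find_min hex hpos ⟨F, hF, hF0, fun m hm => by have := e hm; omega⟩
  obtain ⟨m0, hm0⟩ := hne
  refine ⟨F, hF, hF0, m0, fun a ha => ?_⟩
  by_contra ne
  set G := op (mat a) F - (∑ v, mat a v v * (m0 v : ℂ)) • F with hG
  have top : ∀ m, n ≤ Finsupp.weight ht m + 1 → m ∈ G.support → m ∈ F.support ∧ m ≠ m0 := by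
    intro m hm hs
    rw [mem_support_iff, hG, coeff_sub, coeff_smul, coeff_top (hB a ha) hh hm, smul_eq_mul,
      ← sub_mul] at hs
    refine ⟨mem_support_iff.2 (right_ne_zero_of_mul hs), ?_⟩
    rintro rfl
    exact left_ne_zero_of_mul hs (sub_self _)
  have hsub : (G.support.filter fun m => n ≤ Finsupp.weight ht m + 1) ⊆
      (F.support.filter fun m => n ≤ Finsupp.weight ht m + 1).erase m0 := by
    intro m hm
    obtain ⟨h1, h2⟩ := Finset.mem_filter.1 hm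
    exact Finset.mem_erase.2 ⟨(top m h2 h1).2, Finset.mem_filter.2 ⟨(top m h2 h1).1, h2⟩⟩
  have hlt := lt_of_le_of_lt (Finset.card_le_card hsub) (Finset.card_erase_lt_of_mem hm0)
  rw [hk] at hlt
  refine Nat.find_min hex2 hlt ⟨G, W.sub_mem (hW a ha F hF) (W.smul_mem _ hF), ne,
    fun m hm => ?_, rfl⟩
  by_contra l
  exact l (hh m (top m (by omega) hm).1)

/-- the weight of an eigenvector in the image of the polynomial ring -/
theorem wt {A : Type*} [AddCommGroup A] [Module ℂ A] (π : MvPolynomial s ℂ →ₗ[ℂ] A) {J : Type*}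
    (mat : J → Matrix s s ℂ) (D : J → A →ₗ[ℂ] A) (Bo : Set J)
    (hD : ∀ a ∈ Bo, ∀ p, D a (π p) = π (op (mat a) p)) (ht : s → ℕ)
    (hB : ∀ a ∈ Bo, Tri ht (mat a)) {p : MvPolynomial s ℂ} (p0 : π p ≠ 0) (c : J → ℂ)
    (h : ∀ a ∈ Bo, D a (π p) = c a • π p) :
    ∃ m : s →₀ ℕ, ∀ a ∈ Bo, c a = ∑ v, mat a v v * (m v : ℂ) := by
  obtain ⟨F, hF, F0, m, e⟩ := wtP mat Bo ht hB (LinearMap.ker π)
    ((Submodule.span ℂ {π p}).comap π) (fun a ha F hF => by
      obtain ⟨b, hb⟩ := Submodule.mem_span_singleton.1 hF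
      refine Submodule.mem_span_singleton.2 ⟨b * c a, ?_⟩
      rw [← hD a ha, ← hb, map_smul, h a ha, smul_smul])
    fun le => p0 (le (Submodule.mem_span_singleton_self _))
  refine ⟨m, fun a ha => ?_⟩
  obtain ⟨b, hb⟩ := Submodule.mem_span_singleton.1 hF
  have k := LinearMap.mem_ker.1 (e a ha)
  rw [map_sub, map_smul, ← hD a ha, ← hb, map_smul, h a ha, smul_comm, ← sub_smul, hb] at k
  exact sub_eq_zero.1 ((smul_eq_zero.1 k).resolve_right F0)

variable {L : Type*} [Field L] [Algebra ℂ L]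

/-- numerator and denominator of an eigenvector -/
theorem frac {A : Type*} [CommRing A] [IsDomain A] [Algebra ℂ A] [DecompositionMonoid A]
    (δ : Derivation ℂ A A) (lf : ∀ x, Sg.D9.Lf δ x) {p q : A} (co : IsRelPrime p q) {u : A}
    (h : q * δ p - p * δ q = u * (p * q)) : (∃ c : ℂ, δ p = c • p) ∧ ∃ c : ℂ, δ q = c • q :=
  ⟨E93.dvd_eig lf (co.dvd_of_dvd_mul_left ⟨δ q + u * q, by linear_combination h⟩),
    E93.dvd_eig lf (co.symm.dvd_of_dvd_mul_left ⟨δ p - u * p, by linear_combination -h⟩)⟩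

end Vale.Agent.P283R.Sq.W93
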