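import Vale.Agent.P283R.Sq.St
import Vale.Agent.P283R.Sq.Wt93

/-!
# P283R, block SQ: the rows GEG, UNI, SEM
-/

open Set
open scoped Matrix

noncomputable section

namespace Vale.Agent.P283R.Sq

open Sg.D9 Sl

namespace G93

variable {s L : Type} [Fintype s] [Field L] [Algebra ℂ L] {z : s → L} {M : Matrix s s ℂ}
  {D : Derivation ℂ L L}

theorem com (h : Lin z M D) (p : MvPolynomial s ℂ) :
    D (MvPolynomial.aeval z p) = MvPolynomial.aeval z (C57.op Mᵀ p) :=
  C57.comm (MvPolynomial.aeval z) Mᵀ D (fun v => by simpa using h v) p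

theorem st (h : Lin z M D) {a : L} (ha : a ∈ Rg z) : D a ∈ Rg z := by
  obtain ⟨p, rfl⟩ := ha
  exact ⟨_, (com h p).symm⟩

theorem lf (h : Lin z M D) {a : L} (ha : a ∈ Rg z) : Lf D a := by
  classical
  obtain ⟨p, rfl⟩ := ha
  exact ⟨C57.Le (MvPolynomial.aeval z) p.totalDegree, C57.le_fin _ _,
    ⟨p, (MvPolynomial.mem_restrictTotalDegree _ _ _).2 le_rfl, rfl⟩,
    fun x hx => C57.le_st _ Mᵀ (D : L →ₗ[ℂ] L) (com h) _ x hx⟩

/-- a polynomial function which divides its derivative is an eigenvector -/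
theorem dvd (h : Lin z M D) {a q : L} (ha : a ∈ Rg z) (hq : q ∈ Rg z) (e : D a = q * a) :
    ∃ c : ℂ, D a = c • a := by
  by_cases a0 : a = 0
  · exact ⟨0, by simp [a0]⟩
  obtain ⟨W, _, a1, a2⟩ := lf h ha
  let U := W ⊓ (Subalgebra.toSubmodule (Rg z)).map (LinearMap.mulLeft ℂ a)
  have : FiniteDimensional ℂ U := Submodule.finiteDimensional_inf_left _ _
  obtain ⟨c, v, hv, v0, k⟩ := E93.ex_eig U a0 ⟨a1, 1, one_mem (Rg z), mul_one a⟩ D fun v hv => by
    refine ⟨a2 v hv.1, ?_⟩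
    obtain ⟨b, hb, rfl⟩ := hv.2
    refine ⟨D b + b * q, (Rg z).add_mem (st h hb) ((Rg z).mul_mem hb hq), ?_⟩
    simp only [LinearMap.mulLeft_apply, Derivation.coeFn_coe, Derivation.leibniz, e, smul_eq_mul]
    ring
  obtain ⟨b, hb, rfl⟩ := hv.2
  exact eig (lf h ha) (lf h hb) v0 k

theorem div (h : Lin z M D) {a : L} (ha : a ∈ Rg z) (hq : D a / a ∈ Rg z) :
    ∃ c : ℂ, D a = c • a := by
  by_cases a0 : a = 0
  · exact ⟨0, by simp [a0]⟩
  exact dvd h ha hq (div_mul_cancel₀ _ a0).symm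

/-- raising operators have no eigenvalue but zero -/
theorem rai (h : Lin z M D) {ν : s → ℕ} (hν : Rai ν M) {a : L} (ha : a ∈ Rg z) {c : ℂ}
    (e : D a = c • a) : D a = 0 := by
  classical
  by_cases a0 : a = 0
  · simp [a0]
  obtain ⟨p, rfl⟩ := ha
  obtain ⟨m, hm⟩ := W93.wt (MvPolynomial.aeval z : MvPolynomial s ℂ →ₐ[ℂ] L).toLinearMap
    (fun _ : Unit => Mᵀ) (fun _ => D) univ (fun _ _ => com h)
    (fun u => Finset.univ.sup ν - ν u) (fun _ _ u v k => Or.inr (by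
      have := hν v u k
      have := Finset.le_sup (f := ν) (Finset.mem_univ u)
      dsimp only
      omega)) a0 (fun _ => c) fun _ _ => e
  rw [e, hm () trivial, Finset.sum_eq_zero fun v _ => ?_, zero_smul]
  rw [Matrix.transpose_apply, not_not.1 fun k => (hν v v k).false, zero_mul]

end G93

theorem geg : GEG := fun _ _ _ _ _ _ _ _ _ _ _ h _ a _ _ hφ _ hq e =>
  let ⟨c, k⟩ := G93.dvd (h a) hφ hq e
  ⟨⟨c, k⟩, fun r => G93.rai (h a) r hφ k⟩

theorem uni : UNI := fun _ _ _ _ _ _ _ _ _ _ g _ _ hp =>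
  ⟨fun h ξ _ => G93.div (g.hL ξ) hp (h ξ), fun h ξ _ => G93.div (g.hR ξ) hp (h ξ)⟩

theorem sem (com : COM) (con : CON) (tra : TRA) : SEM := by
  intro N L _ _ x G l r D D' g b f hf f0 h hh u1 u2
  have r0 : r h f ≠ 0 := by simpa using f0
  have u0 : r h f / f ≠ 0 := div_ne_zero r0 f0
  have ei : (r h f / f)⁻¹ ∈ Rg (zx x) := by rwa [inv_div]
  set u := r h f / f with hu
  obtain ⟨c, hc⟩ := con N L x G l r D D' g b (r h u / u) (Or.inr fun ξ => by
    obtain ⟨e, he⟩ := G93.div (g.hL ξ) u1 (mul_mem (G93.st (g.hL ξ) u1) ei |> fun k => by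
      rwa [div_eq_mul_inv])
    rw [Derivation.leibniz_div, ((com N L x G l r D D' g b).2.2.1 ξ h hh u).1, he, map_smul]
    simp only [smul_eq_mul, Algebra.smul_def]
    ring)
  have k : r h u = c • u := by rw [Algebra.smul_def, ← hc, div_mul_cancel₀ _ u0]
  have := ((tra N L x G l r g.red b).1 f hf).2
  have r1 : r 1 = 1 := by
    have := b.rmul 1 g.red.one 1 g.red.one
    rw [mul_one] at this
    exact left_eq_mul.1 this
  refine E93.semi (r h : L →ₐ[ℂ] L) f0 (Submodule.span ℂ ((fun g => r g f) '' G))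
    (Submodule.subset_span ⟨1, g.red.one, by simp [r1]⟩) (fun v hv => ?_)
    (div_mul_cancel₀ _ f0).symm (c := c) (fun c0 => ?_) k
  · refine (Submodule.span_le (p := Submodule.comap (r h).toLinearMap
      (Submodule.span ℂ ((fun g => r g f) '' G)))).2 ?_ hv
    rintro _ ⟨a, ha, rfl⟩
    exact Submodule.subset_span ⟨h * a, b.mul h hh a ha, by simp [b.rmul h hh a ha]⟩
  · rw [c0, zero_smul] at k
    exact u0 (by simpa using k)

end Vale.Agent.P283R.Sq
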