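import Vale.Agent.P283R.Sq.St
import Vale.Agent.P283R.Sp.Iv38

/-!
# P283R, block SQ: the generators of the ring of sections
-/

set_option linter.all false

open Set

noncomputable section

namespace Vale.Agent.P283R.Sq

open Vale.Agent.P287D Vale.Agent.P297Z Sl Vale.Agent.P283R.Sp.G38

namespace N38

variable {K L J : Type} [Field K] [Algebra ℂ K] [Field L] [Algebra ℂ L] {k : ℕ}

theorem cf_add (r : Fin k → Pl K) (m m' : Fin k → ℤ) (Q : Pl K) :
    cf r (m + m') Q = cf r m Q + cf r m' Q := by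
  unfold cf
  rw [← Finset.sum_add_distrib]
  refine Finset.sum_congr rfl fun j _ => ?_
  split_ifs <;> simp

theorem cf_zero (r : Fin k → Pl K) (Q : Pl K) : cf r 0 Q = 0 := by simp [cf]

theorem cf_neg (r : Fin k → Pl K) (m : Fin k → ℤ) (Q : Pl K) : cf r (-m) Q = -cf r m Q := by
  have := cf_add r m (-m) Q
  rw [add_neg_cancel, cf_zero] at this
  omega

theorem cf_self {r : Fin k → Pl K} (h : Function.Injective r) (m : Fin k → ℤ) (j : Fin k) :
    cf r m (r j) = m j := by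
  unfold cf
  rw [Finset.sum_eq_single j (fun b _ hb => if_neg fun e => hb (h e)) (by simp), if_pos rfl]

theorem cf_not {r : Fin k → Pl K} (m : Fin k → ℤ) {Q : Pl K} (h : ¬ ∃ j, r j = Q) :
    cf r m Q = 0 := Finset.sum_eq_zero fun j _ => if_neg fun e => h ⟨j, e⟩

theorem cf_nonneg (r : Fin k → Pl K) {m : Fin k → ℤ} (h : ∀ j, 0 ≤ m j) (Q : Pl K) :
    0 ≤ cf r m Q := Finset.sum_nonneg fun j _ => by
  split_ifs
  · exact h j
  · rfl

variable {D : J → Derivation ℂ L L} {B : Set J}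

theorem hw_mul {x y : L} (hx : Hw D B x) (hy : Hw D B y) : Hw D B (x * y) := fun a e => by
  obtain ⟨c, hc⟩ := hx a e
  obtain ⟨c', hc'⟩ := hy a e
  refine ⟨c + c', ?_⟩
  rw [Derivation.leibniz, hc, hc', smul_eq_mul, smul_eq_mul, mul_smul_comm, mul_smul_comm,
    add_smul, mul_comm y, add_comm]

theorem hw_one : Hw D B (1 : L) := fun a _ => ⟨0, by rw [Derivation.map_one_eq_zero, zero_smul]⟩

theorem hw_inv {x : L} (hx : Hw D B x) : Hw D B x⁻¹ := fun a e => by
  obtain ⟨c, hc⟩ := hx a e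
  refine ⟨-c, ?_⟩
  rcases eq_or_ne x 0 with rfl | x0
  · simp
  rw [Derivation.leibniz_inv, hc, smul_eq_mul, Algebra.smul_def, Algebra.smul_def, map_neg]
  field_simp

theorem hw_zpow {x : L} (hx : Hw D B x) (n : ℤ) : Hw D B (x ^ n) := by
  have a : ∀ n : ℕ, Hw D B (x ^ n) := fun n => by
    induction n with
    | zero => rw [pow_zero]; exact hw_one
    | succ n ih => rw [pow_succ]; exact hw_mul ih hx
  obtain ⟨n, rfl | rfl⟩ := n.eq_nat_or_neg
  · rw [zpow_natCast]; exact a n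
  · rw [zpow_neg, zpow_natCast]; exact hw_inv (a n)

theorem sm_fprod {ι κ : Type} (deg : ι → Fin k → ℤ) (V : ι → Submodule ℂ L) (s : Finset κ)
    (y : κ → L) (μ : κ → Fin k → ℤ) (h : ∀ j ∈ s, y j ∈ Sp.G38.Sm deg V (μ j)) :
    ∏ j ∈ s, y j ∈ Sp.G38.Sm deg V (∑ j ∈ s, μ j) := by
  classical
  induction s using Finset.induction_on with
  | empty => exact sm_one deg V
  | insert a s ha ih =>
    rw [Finset.prod_insert ha, Finset.sum_insert ha]
    exact sm_mul deg V (h a (Finset.mem_insert_self _ _))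
      (ih fun j hj => h j (Finset.mem_insert_of_mem hj))

theorem sm_zpow {ι : Type} (deg : ι → Fin k → ℤ) (V : ι → Submodule ℂ L) {x : L} {μ : Fin k → ℤ}
    (h : x ∈ Sp.G38.Sm deg V μ) (h' : x⁻¹ ∈ Sp.G38.Sm deg V (-μ)) (n : ℤ) : x ^ n ∈ Sp.G38.Sm deg V (n • μ) := by
  obtain ⟨n, rfl | rfl⟩ := n.eq_nat_or_neg
  · rw [zpow_natCast, natCast_zsmul]; exact sm_pow deg V h n
  · rw [zpow_neg, zpow_natCast, ← inv_pow, neg_smul, ← smul_neg, natCast_zsmul]
    exact sm_pow deg V h' n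

theorem ord_fprod {κ : Type} (Q : Pl K) (s : Finset κ) (y : κ → K) (y0 : ∀ j, y j ≠ 0)
    (e : κ → ℤ) : Q.ord (∏ j ∈ s, y j ^ e j) = ∑ j ∈ s, e j * Q.ord (y j) := by
  classical
  induction s using Finset.induction_on with
  | empty => simp [Pl.ord_one]
  | insert a s ha ih =>
    rw [Finset.prod_insert ha, Finset.sum_insert ha, Pl.ord_mul _ (zpow_ne_zero _ (y0 a))
      (Finset.prod_ne_zero_iff.2 fun j _ => zpow_ne_zero _ (y0 j)), ih, Pl.ord_zpow]

end N38

open N38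

theorem gen38 (sta : STA) : GEN := by
  classical
  intro n b w d K L J _ _ _ _ i A Γ H D B T ab ge va Γ' fx k r f fm
  have st := sta n b w d K L J i A Γ H D B T ab ge va Γ' fx k r f fm
  have f0 : ∀ j, f j ≠ 0 := fun j => (fm.eq j).2.1
  let F : (Fin k → ℤ) → L := fun m => ∏ j, f j ^ m j
  have F0 : ∀ m, F m ≠ 0 := fun m => Finset.prod_ne_zero_iff.2 fun j _ => zpow_ne_zero _ (f0 j)
  have Fa : ∀ m m', F (m + m') = F m * F m' := fun m m' => by
    simp only [F, Pi.add_apply, zpow_add₀ (f0 _), Finset.prod_mul_distrib]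
  have Fz : ∀ (e : ℤ) m, F (e • m) = F m ^ e := fun e m => by
    simp only [F, Pi.smul_apply, smul_eq_mul, mul_comm e, zpow_mul, Finset.prod_zpow]
  have F1 : F 0 = 1 := by simp [F]
  have Fn : ∀ m, F (-m) = (F m)⁻¹ := fun m => by
    rw [← neg_one_smul ℤ m, Fz, zpow_neg_one]
  have Fs : ∀ {κ : Type} (s : Finset κ) (μ : κ → Fin k → ℤ), F (∑ j ∈ s, μ j) = ∏ j ∈ s, F (μ j) :=
    fun s μ => by
      induction s using Finset.induction_on with
      | empty => exact F1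
      | insert a s ha ih => rw [Finset.prod_insert ha, Finset.sum_insert ha, Fa, ih]
  have Fe : ∀ j, F (Pi.single j 1) = f j := fun j => by
    simp only [F]
    rw [Finset.prod_eq_single j (fun b _ hb => by rw [Pi.single_eq_of_ne hb, zpow_zero]) (by simp),
      Pi.single_eq_same, zpow_one]
  have Fh : ∀ m, Hw D B (F m) := fun m =>
    Finset.prod_induction _ _ (fun _ _ => hw_mul) hw_one fun j _ => hw_zpow (fm.hw j) _
  let S : (Fin k → ℤ) → Submodule ℂ K := fun m => sec (fun Q : Pl K => Q) (· ∈ T) (cf r m)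
  let W : (Fin k → ℤ) → Submodule ℂ L := fun m =>
    (S m).map (LinearMap.mulRight ℂ (F m) ∘ₗ i.toLinearMap)
  have mW : ∀ m x, x ∈ W m ↔ ∃ φ ∈ S m, x = i φ * F m := fun m x =>
    ⟨fun ⟨φ, a, e⟩ => ⟨φ, a, e.symm⟩, fun ⟨φ, a, e⟩ => ⟨φ, a, e.symm⟩⟩
  have sW : ∀ m, Stb D univ (W m) := fun m a _ x hx => by
    obtain ⟨φ, hφ, rfl⟩ := (mW m x).1 hx
    obtain ⟨ψ, h1, h2⟩ := (st m).2.2 φ hφ a
    exact (mW m _).2 ⟨ψ, h1, h2⟩
  obtain ⟨u, hu, lat⟩ := ab.lat
  choose v hv using fun t => (ge.inv (u t)).2 (hu t).2.2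
  have v0 : ∀ t, v t ≠ 0 := fun t z => (hu t).1 (by rw [← hv, z, map_zero])
  let μ : Fin w → Fin k → ℤ := fun t j => -(r j).ord (v t)
  have hμ : ∀ t, ∀ Q ∈ T, Q.ord (v t) + cf r (μ t) Q = 0 := fun t Q hQ => by
    by_cases e : ∃ j, r j = Q
    · obtain ⟨j, rfl⟩ := e
      rw [cf_self fm.inj]
      exact add_neg_cancel _
    · rw [cf_not _ e, add_zero]
      have : ∃ R, PD A R ∧ Ov i R Q := by
        by_contra z
        exact e (fm.bd Q ⟨hQ, z⟩)
      obtain ⟨R, pd, ov⟩ := this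
      have o : R.ord (u t) = 0 := by
        by_contra z
        exact e (fm.col Q hQ R pd ov _ (hu t).1 (hu t).2.1 z)
      have a1 := (Pl.ord_nonneg_iff Q.toPlace (v0 t)).2 ((ov (v t)).2 (by
        show i (v t) ∈ R.ring
        rw [hv]
        exact (Pl.ord_nonneg_iff R.toPlace (hu t).1).1 o.ge))
      have a2 := (Pl.ord_nonneg_iff Q.toPlace (inv_ne_zero (v0 t))).2 ((ov (v t)⁻¹).2 (by
        show i (v t)⁻¹ ∈ R.ring
        rw [map_inv₀, hv]
        exact (Pl.ord_nonneg_iff R.toPlace (inv_ne_zero (hu t).1)).1 (by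
          rw [Pl.ord_inv, o]; rfl)))
      rw [Pl.ord_inv] at a2
      omega
  have s1 : ∀ t, v t ∈ S (μ t) := fun t _ Q hQ => (hμ t Q hQ).ge
  have s2 : ∀ t, (v t)⁻¹ ∈ S (-μ t) := fun t _ Q hQ => by
    have := hμ t Q hQ
    show 0 ≤ Q.ord (v t)⁻¹ + cf r (-μ t) Q
    rw [Pl.ord_inv, cf_neg]
    omega
  let y : Fin w → L := fun t => i (v t) * F (μ t)
  have yi : ∀ t, (y t)⁻¹ = i (v t)⁻¹ * F (-μ t) := fun t => by rw [Fn, map_inv₀, mul_inv]
  have yh : ∀ t, Hw D univ (y t) := fun t =>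
    ab.uni _ ((st _).1 _ (s1 t)) (yi t ▸ (st _).1 _ (s2 t))
  have sp : ∀ x : L, Hw D univ x → ∀ a, ∀ z ∈ Submodule.span ℂ {x}, D a z ∈ Submodule.span ℂ {x} :=
    fun x hx a z hz => by
      obtain ⟨c, rfl⟩ := Submodule.mem_span_singleton.1 hz
      obtain ⟨c', e⟩ := hx a trivial
      rw [Derivation.map_smul, e]
      exact Submodule.smul_mem _ _ (Submodule.smul_mem _ _ (Submodule.mem_span_singleton_self _))
  have so : ∀ j a, ∀ z ∈ Orb Γ (f j), D a z ∈ Orb Γ (f j) := fun j a z hz => by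
    induction hz using Submodule.span_induction with
    | mem z hz =>
      obtain ⟨τ, hτ, rfl⟩ := hz
      refine ab.lf Γ (by rw [Subgroup.subgroupOf_self]; infer_instance) _ _
        (ab.stΓ τ hτ _ (fm.eq j).1) (fun σ hσ _ => ?_) a
      exact Submodule.subset_span ⟨σ * τ, mul_mem hσ hτ, rfl⟩
    | zero => rw [map_zero]; exact zero_mem _
    | add x y _ _ hx hy => rw [map_add]; exact add_mem hx hy
    | smul c x _ hx => rw [Derivation.map_smul]; exact Submodule.smul_mem _ _ hx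
  let deg : Fin k ⊕ (Fin w ⊕ Fin w) → Fin k → ℤ :=
    Sum.elim (fun j => Pi.single j 1) (Sum.elim μ fun t => -μ t)
  let V : Fin k ⊕ (Fin w ⊕ Fin w) → Submodule ℂ L :=
    Sum.elim (fun j => Orb Γ (f j) ⊓ W (Pi.single j 1))
      (Sum.elim (fun t => Submodule.span ℂ {y t}) fun t => Submodule.span ℂ {(y t)⁻¹})
  have fd : ∀ j, FiniteDimensional ℂ (Orb Γ (f j)) := fun j => ab.fd _ (fm.eq j).1
  have hs : ∀ o a, ∀ x ∈ V o, D a x ∈ V o := by
    rintro (j | t | t) a x hx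
    · exact ⟨so j a x hx.1, sW _ a trivial x hx.2⟩
    · exact sp _ (yh t) a x hx
    · exact sp _ (hw_inv (yh t)) a x hx
  have S1 : 1 ∈ S 0 := fun _ Q _ => by
    show 0 ≤ Q.ord 1 + cf r 0 Q
    rw [Pl.ord_one, cf_zero]; rfl
  have Sm' : ∀ m m', ∀ x ∈ S m, ∀ y ∈ S m', x * y ∈ S (m + m') := fun m m' x hx y hy z Q hQ => by
    obtain ⟨x0, y0⟩ := mul_ne_zero_iff.1 z
    have k1 : 0 ≤ Q.ord x + cf r m Q := hx x0 Q hQ
    have k2 : 0 ≤ Q.ord y + cf r m' Q := hy y0 Q hQ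
    show 0 ≤ Q.ord (x * y) + cf r (m + m') Q
    rw [Pl.ord_mul _ x0 y0, cf_add]
    omega
  refine gg_up i F F0 Fa S S1 Sm' deg V ?_ ?_ (fun m φ hφ => ?_) _ ?_
  · rintro (j | t | t)
    · have := fd j
      exact Submodule.finiteDimensional_inf_left _ _
    · exact inferInstanceAs (FiniteDimensional ℂ (Submodule.span ℂ {y t}))
    · exact inferInstanceAs (FiniteDimensional ℂ (Submodule.span ℂ {(y t)⁻¹}))
  · rintro (j | t | t) x hx
    · exact (mW _ x).1 hx.2
    · exact (mW _ x).1 ((Submodule.span_singleton_le_iff_mem _ _).2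
        ((mW _ _).2 ⟨_, s1 t, rfl⟩) hx)
    · exact (mW _ x).1 ((Submodule.span_singleton_le_iff_mem _ _).2
        ((mW _ _).2 ⟨_, s2 t, yi t⟩) hx)
  · refine ab.cr (W m) (Sp.G38.Sm deg V m) (fun x hx => ?_) (sW m)
      (fun a _ => sm_der deg V (D a : L →ₗ[ℂ] L) (fun x y => ?_) (fun o => hs o a) m)
      (fun x hx x0 h => ?_) ((mW m _).2 ⟨φ, hφ, rfl⟩)
    · obtain ⟨ψ, a, rfl⟩ := (mW m x).1 hx
      exact (st m).1 ψ a
    · show D a (x * y) = D a x * y + x * D a y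
      rw [Derivation.leibniz, smul_eq_mul, smul_eq_mul, add_comm, mul_comm y]
    obtain ⟨ψ, hψ, rfl⟩ := (mW m x).1 hx
    have i0 := left_ne_zero_of_mul x0
    have ψ0 : ψ ≠ 0 := fun z => i0 (by rw [z, map_zero])
    have h1 : Hw D B (i ψ) := by
      have := hw_mul h (hw_inv (Fh m))
      rwa [mul_inv_cancel_right₀ (F0 m)] at this
    obtain ⟨c, e, he⟩ := lat _ i0 h1 ((ge.inv _).1 ⟨ψ, rfl⟩)
    have c0 : c ≠ 0 := fun z => i0 (by rw [he, z, zero_smul])
    have e1 : ψ = c • ∏ t, v t ^ e t := i.toRingHom.injective (by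
      show i ψ = i _
      rw [he, map_smul, map_prod]
      simp only [map_zpow₀, hv])
    let ν : Fin k → ℕ := fun j => ((r j).ord ψ + m j).toNat
    have hν : ∀ j, (ν j : ℤ) = (r j).ord ψ + m j := fun j => Int.toNat_of_nonneg (by
      have : 0 ≤ (r j).ord ψ + cf r m (r j) := hψ ψ0 (r j) (fm.mem j)
      rwa [cf_self fm.inj] at this)
    have e2 : m = ∑ j, ν j • (Pi.single j 1 : Fin k → ℤ) + ∑ t, e t • μ t := by
      funext j
      have o : (r j).ord ψ = ∑ t, e t * (r j).ord (v t) := by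
        rw [e1, Pl.ord_smul _ c0, ord_fprod _ _ _ v0]
      simp only [Pi.add_apply, Finset.sum_apply, Pi.smul_apply]
      simp only [nsmul_eq_mul, Pi.single_apply, mul_ite, mul_one, mul_zero, Finset.sum_ite_eq,
        Finset.mem_univ, if_true, hν, μ, smul_eq_mul, mul_neg, Finset.sum_neg_distrib, o]
      ring
    have e3 : i ψ * F m = c • ((∏ j, f j ^ ν j) * ∏ t, y t ^ e t) := by
      conv_lhs => rw [he, e2, Fa, Fs, Fs]
      simp only [y, hv, mul_zpow, Finset.prod_mul_distrib, Fz, ← natCast_zsmul, Fe, zpow_natCast,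
        smul_mul_assoc]
      congr 1
      ring
    rw [e3, e2]
    refine Submodule.smul_mem _ _ (sm_mul deg V (sm_fprod deg V _ _ _ fun j _ =>
      sm_pow deg V (sm_gen deg V (.inl j) ⟨Submodule.subset_span ⟨1, one_mem _, rfl⟩,
        (mW _ _).2 ⟨1, fun _ Q _ => ?_, ?_⟩⟩) _) (sm_fprod deg V _ _ _ fun t _ =>
      sm_zpow deg V (sm_gen deg V (.inr (.inl t)) (Submodule.mem_span_singleton_self _))
        (sm_gen deg V (.inr (.inr t)) (Submodule.mem_span_singleton_self _)) _))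
    · show 0 ≤ Q.ord 1 + cf r (Pi.single j 1) Q
      rw [Pl.ord_one, zero_add]
      refine cf_nonneg r (fun j' => ?_) Q
      rw [Pi.single_apply]
      split_ifs <;> simp
    · rw [map_one, one_mul, Fe]
      rfl
  · have one : ∀ x : L, Module.finrank ℂ (Submodule.span ℂ {x}) ≤ 1 := fun x =>
      (finrank_span_le_card ({x} : Set L)).trans (by simp)
    have a1 : ∑ j, Module.finrank ℂ (V (.inl j)) ≤ k + b * b :=
      (Finset.sum_le_sum fun j _ => by
        have := fd j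
        exact Submodule.finrank_mono inf_le_left).trans fm.dim
    have a2 : ∑ t, Module.finrank ℂ (V (.inr (.inl t))) ≤ w :=
      (Finset.sum_le_card_nsmul _ _ 1 fun t _ => one _).trans (by simp)
    have a3 : ∑ t, Module.finrank ℂ (V (.inr (.inr t))) ≤ w :=
      (Finset.sum_le_card_nsmul _ _ 1 fun t _ => one _).trans (by simp)
    rw [Fintype.sum_sum_type, Fintype.sum_sum_type]
    omega

end Vale.Agent.P283R.Sq
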