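import Vale.Agent.P283R.Sp.Cr38
import Vale.Agent.P283R.Sp.Cr71

/-!
# P283R, block SQ: highest weight vectors and complete reducibility in a quotient of a
polynomial ring
-/

open MvPolynomial

noncomputable section

namespace Vale.Agent.P283R.Sq.C57

open Sp.C38 (ap ap_smul ap_sum ap_X ap_pd ap_self orth td dsum)

variable {s : Type} [Fintype s] [DecidableEq s]

/-- The linear vector field of a matrix. -/
def op (M : Matrix s s ℂ) : Derivation ℂ (MvPolynomial s ℂ) (MvPolynomial s ℂ) :=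
  mkDerivation ℂ fun v => ∑ u, M u v • X u

omit [DecidableEq s] in
theorem op_X (M : Matrix s s ℂ) (v : s) : op M (X v) = ∑ u, M u v • X u :=
  mkDerivation_X _ _ _

theorem op_eq (M : Matrix s s ℂ) (p : MvPolynomial s ℂ) :
    op M p = ∑ v, ∑ u, M u v • (X u * pderiv v p) := by
  have e : op M = ∑ v, (∑ u, M u v • X u : MvPolynomial s ℂ) • pderiv v := by
    refine derivation_ext fun w => ?_
    rw [op_X, dsum]
    simp only [Derivation.smul_apply, pderiv_X, smul_eq_mul, Pi.single_apply, mul_ite, mul_one,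
      mul_zero]
    rw [Finset.sum_ite_eq]
    simp
  rw [e, dsum]
  simp only [Derivation.smul_apply, smul_eq_mul, Finset.sum_mul, smul_mul_assoc]

theorem deg (M : Matrix s s ℂ) {n : ℕ} {p : MvPolynomial s ℂ}
    (hp : p ∈ restrictTotalDegree s ℂ n) : op M p ∈ restrictTotalDegree s ℂ n := by
  rw [op_eq]
  refine Submodule.sum_mem _ fun v _ => Submodule.sum_mem _ fun u _ => Submodule.smul_mem _ _ ?_
  rw [mem_restrictTotalDegree] at hp ⊢
  exact (td _ _ _).trans hp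

theorem adj (M : Matrix s s ℂ) (q p : MvPolynomial s ℂ) :
    ap q (op M p) = ap (op M.conjTranspose q) p := by
  rw [op_eq, op_eq, map_sum, ap_sum]
  simp only [map_sum, ap_sum, map_smul, ap_smul, Matrix.conjTranspose_apply, star_star,
    smul_eq_mul]
  rw [Finset.sum_comm]
  refine Finset.sum_congr rfl fun u _ => Finset.sum_congr rfl fun v _ => ?_
  rw [ap_X, ap_pd]

omit [Fintype s] in
theorem coeff_one' (v : s) (F : MvPolynomial s ℂ) (m : s →₀ ℕ) :
    coeff m (X v * pderiv v F) = (m v : ℂ) * coeff m F := by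
  have h := Sp.C71.coeff_diag {(v, v)} (by simp) F m
  rw [Sp.C71.op_apply] at h
  simpa using h

/-- `M` is triangular for the height `ht`. -/
def Tri (ht : s → ℕ) (M : Matrix s s ℂ) : Prop := ∀ u v, M u v ≠ 0 → u = v ∨ ht u < ht v

theorem coeff_top {ht : s → ℕ} {M : Matrix s s ℂ} (hM : Tri ht M) {F : MvPolynomial s ℂ} {n : ℕ}
    (hF : ∀ m ∈ F.support, Finsupp.weight ht m < n) {m : s →₀ ℕ}
    (hm : n ≤ Finsupp.weight ht m + 1) :
    coeff m (op M F) = (∑ v, M v v * (m v : ℂ)) * coeff m F := by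
  rw [op_eq, coeff_sum, Finset.sum_mul]
  refine Finset.sum_congr rfl fun v _ => ?_
  rw [coeff_sum, Finset.sum_eq_single v]
  · rw [coeff_smul, coeff_one', smul_eq_mul, mul_assoc]
  · intro u _ hu
    rw [coeff_smul, smul_eq_mul]
    by_contra ne
    obtain ⟨m', hm', e⟩ := Sp.C71.supp_one u v F m (right_ne_zero_of_mul ne)
    have h2 := congrArg (Finsupp.weight ht) e
    simp only [map_add, Finsupp.weight_apply (w := ht) (Finsupp.single _ _),
      Finsupp.sum_single_index (h := fun i (c : ℕ) => c • ht i) (zero_smul _ _), one_smul] at h2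
    have := hF m' hm'
    have := (hM u v (left_ne_zero_of_mul ne)).resolve_left hu
    omega
  · simp

/-- A common eigenvector modulo `W0`, in the polynomial ring. -/
theorem hwP {J : Type*} (mat : J → Matrix s s ℂ) (Bo : Set J) (ht : s → ℕ)
    (hB : ∀ a ∈ Bo, Tri ht (mat a)) (W0 W : Submodule ℂ (MvPolynomial s ℂ))
    (hW : ∀ a ∈ Bo, ∀ F ∈ W, op (mat a) F ∈ W) (h0 : ¬ W ≤ W0) :
    ∃ F ∈ W, F ∉ W0 ∧ ∀ a ∈ Bo, ∃ c : ℂ, op (mat a) F - c • F ∈ W0 := by
  classical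
  have hex : ∃ n, ∃ F ∈ W, F ∉ W0 ∧ ∀ m ∈ F.support, Finsupp.weight ht m < n := by
    obtain ⟨F, hF, hF0⟩ := SetLike.not_le_iff_exists.1 h0
    exact ⟨F.support.sup (Finsupp.weight ht) + 1, F, hF, hF0,
      fun m hm => Nat.lt_succ_of_le (Finset.le_sup (f := Finsupp.weight ht) hm)⟩
  set n := Nat.find hex with hn
  have hex2 : ∃ k, ∃ F ∈ W, F ∉ W0 ∧ (∀ m ∈ F.support, Finsupp.weight ht m < n) ∧
      (F.support.filter fun m => n ≤ Finsupp.weight ht m + 1).card = k := by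
    obtain ⟨F, hF, hF0, h⟩ := Nat.find_spec hex
    exact ⟨_, F, hF, hF0, h, rfl⟩
  obtain ⟨F, hF, hF0, hh, hk⟩ := Nat.find_spec hex2
  have hne : (F.support.filter fun m => n ≤ Finsupp.weight ht m + 1).Nonempty := by
    by_contra e
    rw [Finset.not_nonempty_iff_eq_empty, Finset.filter_eq_empty_iff] at e
    have F0 : F ≠ 0 := fun e => hF0 (e ▸ W0.zero_mem)
    obtain ⟨m0, hm0⟩ := support_nonempty.2 F0
    have hpos : n - 1 < n := by have := hh m0 hm0; omega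
    exact Nat.find_min hex hpos ⟨F, hF, hF0, fun m hm => by have := e hm; omega⟩
  obtain ⟨m0, hm0⟩ := hne
  refine ⟨F, hF, hF0, fun a ha => ⟨∑ v, mat a v v * (m0 v : ℂ), ?_⟩⟩
  by_contra ne
  set G := op (mat a) F - (∑ v, mat a v v * (m0 v : ℂ)) • F with hG
  have top : ∀ m, n ≤ Finsupp.weight ht m + 1 → m ∈ G.support → m ∈ F.support ∧ m ≠ m0 := by
    intro m hm hs
    rw [mem_support_iff, hG, coeff_sub, coeff_smul, coeff_top (hB a ha) hh hm, smul_eq_mul,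
      ← sub_mul] at hs
    refine ⟨mem_support_iff.2 (right_ne_zero_of_mul hs), ?_⟩
    rintro rfl
    exact left_ne_zero_of_mul hs (sub_self _)
  have hsub : (G.support.filter fun m => n ≤ Finsupp.weight ht m + 1) ⊆
      (F.support.filter fun m => n ≤ Finsupp.weight ht m + 1).erase m0 := by
    intro m hm
    obtain ⟨h1, h2⟩ := Finset.mem_filter.1 hm
    exact Finset.mem_erase.2 ⟨(top m h2 h1).2, Finset.mem_filter.2 ⟨(top m h2 h1).1, h2⟩⟩
  have hlt := lt_of_le_of_lt (Finset.card_le_card hsub) (Finset.card_erase_lt_of_mem hm0)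
  rw [hk] at hlt
  refine Nat.find_min hex2 hlt ⟨G, W.sub_mem (hW a ha F hF) (W.smul_mem _ hF), ne,
    fun m hm => ?_, rfl⟩
  by_contra l
  exact l (hh m (top m (by omega) hm).1)

/-- Complete reducibility in the polynomial ring. -/
theorem crP {J : Type*} (mat : J → Matrix s s ℂ) (Bo : Set J) (ht : s → ℕ)
    (hB : ∀ a ∈ Bo, Tri ht (mat a)) (G : Set J) (sub : Bo ⊆ G)
    (st : ∀ a ∈ G, ∃ a' ∈ G, mat a' = (mat a).conjTranspose)
    (W W' : Submodule ℂ (MvPolynomial s ℂ)) (hW : ∀ a ∈ G, ∀ F ∈ W, op (mat a) F ∈ W)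
    (hW' : ∀ a ∈ G, ∀ F ∈ W', op (mat a) F ∈ W')
    (ev : ∀ F ∈ W, F ≠ 0 → (∀ a ∈ Bo, ∃ c : ℂ, op (mat a) F = c • F) → F ∈ W') : W ≤ W' := by
  intro v hv
  set T := restrictTotalDegree s ℂ v.totalDegree
  have : FiniteDimensional ℂ ↥(W ⊓ T) := Submodule.finiteDimensional_of_le inf_le_right
  have e : W' ⊓ (W ⊓ T) = W ⊓ T := by
    by_contra ne
    obtain ⟨u, hu, u0, o⟩ := orth (W' ⊓ (W ⊓ T)) (W ⊓ T) inf_le_right ne
    let U : Submodule ℂ (MvPolynomial s ℂ) :=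
      (W ⊓ T) ⊓ ⨅ (q) (_ : q ∈ W' ⊓ (W ⊓ T)), LinearMap.ker (ap q)
    have mem : ∀ p, p ∈ U ↔ p ∈ W ⊓ T ∧ ∀ q ∈ W' ⊓ (W ⊓ T), ap q p = 0 := fun p => by
      simp only [U, Submodule.mem_inf (p := W ⊓ T), Submodule.mem_iInf, LinearMap.mem_ker]
    have sU : ∀ a ∈ G, ∀ p ∈ U, op (mat a) p ∈ U := fun a ha p hp => by
      obtain ⟨h1, h2⟩ := (mem p).1 hp
      obtain ⟨a', ha', e⟩ := st a ha
      refine (mem _).2 ⟨⟨hW a ha p h1.1, deg _ h1.2⟩, fun q hq => ?_⟩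
      rw [adj, ← e]
      exact h2 _ ⟨hW' a' ha' q hq.1, hW a' ha' q hq.2.1, deg _ hq.2.2⟩
    obtain ⟨p, hp, p0, w⟩ := hwP mat Bo ht hB ⊥ U (fun a ha => sU a (sub ha))
      (fun le => u0 (le ((mem u).2 ⟨hu, o⟩)))
    obtain ⟨h1, h2⟩ := (mem p).1 hp
    exact p0 (ap_self (h2 p ⟨ev p h1.1 p0 fun a ha => (w a ha).imp fun c hc =>
      sub_eq_zero.1 hc, h1⟩))
  have : v ∈ W' ⊓ (W ⊓ T) := e.symm ▸ ⟨hv, (mem_restrictTotalDegree _ _ _).2 le_rfl⟩
  exact this.1

variable {A : Type*} [CommRing A] [Algebra ℂ A] (π : MvPolynomial s ℂ →ₐ[ℂ] A)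

omit [DecidableEq s] in
/-- A derivation which is linear on the generators lifts to the polynomial ring. -/
theorem comm (M : Matrix s s ℂ) (D : Derivation ℂ A A)
    (h : ∀ v, D (π (X v)) = ∑ u, M u v • π (X u)) (p : MvPolynomial s ℂ) :
    D (π p) = π (op M p) := by
  induction p using MvPolynomial.induction_on with
  | C a =>
    have e : (C a : MvPolynomial s ℂ) = algebraMap ℂ _ a := rfl
    rw [e, π.commutes, D.map_algebraMap, (op M).map_algebraMap, map_zero]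
  | add p q hp hq => simp only [map_add, hp, hq]
  | mul_X p v hp =>
    rw [map_mul, D.leibniz, (op M).leibniz, hp, h, op_X]
    simp only [smul_eq_mul, map_add, map_mul, map_sum, map_smul]

/-- **HW**: a common eigenvector modulo `W0`. -/
theorem hw (hπ : Function.Surjective π) {J : Type*} (mat : J → Matrix s s ℂ)
    (D : J → A →ₗ[ℂ] A) (Bo : Set J) (hD : ∀ a ∈ Bo, ∀ p, D a (π p) = π (op (mat a) p))
    (ht : s → ℕ) (hB : ∀ a ∈ Bo, Tri ht (mat a)) (W0 W : Submodule ℂ A)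
    (hW : ∀ a ∈ Bo, ∀ x ∈ W, D a x ∈ W) (h0 : ¬ W ≤ W0) :
    ∃ x ∈ W, x ∉ W0 ∧ ∀ a ∈ Bo, ∃ c : ℂ, D a x - c • x ∈ W0 := by
  obtain ⟨F, hF, hF0, e⟩ := hwP mat Bo ht hB (W0.comap π.toLinearMap) (W.comap π.toLinearMap)
    (fun a ha F hF => by
      change π _ ∈ W
      rw [← hD a ha]
      exact hW a ha _ hF)
    (fun le => h0 fun x hx => by
      obtain ⟨F, rfl⟩ := hπ x
      exact le (x := F) hx)
  refine ⟨π F, hF, hF0, fun a ha => (e a ha).imp fun c hc => ?_⟩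
  rw [hD a ha, ← map_smul, ← map_sub]
  exact hc

/-- **HW**: a nonzero stable subspace holds a common eigenvector. -/
theorem hw0 (hπ : Function.Surjective π) {J : Type*} (mat : J → Matrix s s ℂ)
    (D : J → A →ₗ[ℂ] A) (Bo : Set J) (hD : ∀ a ∈ Bo, ∀ p, D a (π p) = π (op (mat a) p))
    (ht : s → ℕ) (hB : ∀ a ∈ Bo, Tri ht (mat a)) (W : Submodule ℂ A)
    (hW : ∀ a ∈ Bo, ∀ x ∈ W, D a x ∈ W) (h0 : W ≠ ⊥) :
    ∃ x ∈ W, x ≠ 0 ∧ ∀ a ∈ Bo, ∃ c : ℂ, D a x = c • x := by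
  obtain ⟨x, hx, x0, e⟩ := hw π hπ mat D Bo hD ht hB ⊥ W hW fun le => h0 (le_bot_iff.1 le)
  exact ⟨x, hx, x0, fun a ha => (e a ha).imp fun c hc => sub_eq_zero.1 hc⟩

/-- **CR**: a stable subspace which holds all eigenvectors of `Bo` is everything. -/
theorem cr (hπ : Function.Surjective π) {J : Type*} (mat : J → Matrix s s ℂ)
    (D : J → A →ₗ[ℂ] A) (G : Set J) (hD : ∀ a ∈ G, ∀ p, D a (π p) = π (op (mat a) p))
    (st : ∀ a ∈ G, ∃ a' ∈ G, mat a' = (mat a).conjTranspose) (Bo : Set J) (sub : Bo ⊆ G)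
    (ht : s → ℕ) (hB : ∀ a ∈ Bo, Tri ht (mat a)) (W W' : Submodule ℂ A)
    (hW : ∀ a ∈ G, ∀ x ∈ W, D a x ∈ W) (hW' : ∀ a ∈ G, ∀ x ∈ W', D a x ∈ W')
    (ev : ∀ x ∈ W, x ≠ 0 → (∀ a ∈ Bo, ∃ c : ℂ, D a x = c • x) → x ∈ W') : W ≤ W' := by
  have pull : ∀ U : Submodule ℂ A, (∀ a ∈ G, ∀ x ∈ U, D a x ∈ U) →
      ∀ a ∈ G, ∀ F ∈ U.comap π.toLinearMap, op (mat a) F ∈ U.comap π.toLinearMap :=
    fun U hU a ha F hF => by
      change π _ ∈ U
      rw [← hD a ha]
      exact hU a ha _ hF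
  have key := crP mat Bo ht hB G sub st (W.comap π.toLinearMap) (W'.comap π.toLinearMap)
    (pull W hW) (pull W' hW') fun F hF _ e => by
      change π F ∈ W'
      by_cases h0 : π F = 0
      · rw [h0]
        exact W'.zero_mem
      · exact ev _ hF h0 fun a ha => (e a ha).imp fun c hc => by
          rw [hD a (sub ha), hc, map_smul]
  intro x hx
  obtain ⟨F, rfl⟩ := hπ x
  exact key (x := F) hx

/-- The image of the polynomials of degree at most `n`. -/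
def Le (n : ℕ) : Submodule ℂ A := (restrictTotalDegree s ℂ n).map π.toLinearMap

omit [DecidableEq s] in
theorem le_fin (n : ℕ) : FiniteDimensional ℂ (Le π n) := by
  unfold Le
  infer_instance

theorem le_st (M : Matrix s s ℂ) (D : A →ₗ[ℂ] A) (hD : ∀ p, D (π p) = π (op M p)) (n : ℕ) :
    ∀ x ∈ Le π n, D x ∈ Le π n := by
  rintro x ⟨p, hp, rfl⟩
  exact ⟨op M p, deg M hp, (hD p).symm⟩

omit [Fintype s] [DecidableEq s] in
theorem le_ex (hπ : Function.Surjective π) (x : A) : ∃ n, x ∈ Le π n := by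
  obtain ⟨p, rfl⟩ := hπ x
  exact ⟨p.totalDegree, p, (mem_restrictTotalDegree _ _ _).2 le_rfl, rfl⟩

end Vale.Agent.P283R.Sq.C57
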