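import Vale.Agent.P283R.Sq.St
import Vale.Agent.P283R.Sq.Cr57

/-!
# P283R, block SQ: the rows GHW and GCR
-/

open Set MvPolynomial
open scoped Matrix

noncomputable section

namespace Vale.Agent.P283R.Sq

namespace H57

variable {s L : Type} [Fintype s] [Field L] [Algebra ℂ L]

theorem lift {z : s → L} {M : Matrix s s ℂ} {D : Derivation ℂ L L} (h : Lin z M D)
    (p : MvPolynomial s ℂ) : D (aeval z p) = aeval z (C57.op Mᵀ p) :=
  C57.comm (aeval z) Mᵀ D (fun v => by simpa only [aeval_X, Matrix.transpose_apply] using h v) p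

theorem tri {ν : s → ℕ} {M : Matrix s s ℂ} (h : Dia M ∨ Rai ν M) :
    C57.Tri (fun u => Finset.univ.sup ν - ν u) Mᵀ := fun u v e => by
  rcases h with h | h
  · exact Or.inl (h v u e).symm
  · have h1 := h v u e
    have h2 : ν u ≤ Finset.univ.sup ν := Finset.le_sup (Finset.mem_univ u)
    exact Or.inr (by simp only; omega)

theorem pull {z : s → L} {M : Matrix s s ℂ} {D : Derivation ℂ L L} (h : Lin z M D)
    {W : Submodule ℂ L} (st : ∀ φ ∈ W, D φ ∈ W) :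
    ∀ F ∈ W.comap (aeval z : MvPolynomial s ℂ →ₐ[ℂ] L).toLinearMap,
      C57.op Mᵀ F ∈ W.comap (aeval z : MvPolynomial s ℂ →ₐ[ℂ] L).toLinearMap := fun F hF => by
  change aeval z _ ∈ W
  rw [← lift h]
  exact st _ hF

/-- A common eigenvector modulo a subspace. -/
theorem hwm {z : s → L} {J : Type} {M : J → Matrix s s ℂ} {D : J → Derivation ℂ L L} {B : Set J}
    {ν : s → ℕ} (hl : ∀ a, Lin z (M a) (D a)) (hB : ∀ a ∈ B, Dia (M a) ∨ Rai ν (M a))
    (W0 W : Submodule ℂ L) (le : ∀ φ ∈ W, φ ∈ Rg z) (ne : ¬ W ≤ W0) (st : Stb D B W) :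
    ∃ φ ∈ W, φ ∉ W0 ∧ ∀ a ∈ B, ∃ c : ℂ, D a φ - c • φ ∈ W0 := by
  classical
  obtain ⟨F, hF, hF0, e⟩ := C57.hwP (fun a => (M a)ᵀ) B _ (fun a ha => tri (hB a ha))
    (W0.comap (aeval z : MvPolynomial s ℂ →ₐ[ℂ] L).toLinearMap)
    (W.comap (aeval z : MvPolynomial s ℂ →ₐ[ℂ] L).toLinearMap)
    (fun a ha => pull (hl a) (st a ha)) (fun h => ne fun φ hφ => by
      obtain ⟨F, rfl⟩ := le φ hφ
      exact h (x := F) hφ)
  refine ⟨aeval z F, hF, hF0, fun a ha => (e a ha).imp fun c hc => ?_⟩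
  rw [lift (hl a), ← map_smul, ← map_sub]
  exact hc

theorem le_rg {z : s → L} {n : ℕ} {φ : L} (h : φ ∈ Le z n) : φ ∈ Rg z := by
  obtain ⟨p, -, rfl⟩ := h
  exact ⟨p, rfl⟩

theorem rg_le {z : s → L} {φ : L} (h : φ ∈ Rg z) : ∃ n, φ ∈ Le z n := by
  obtain ⟨p, rfl⟩ := h
  exact ⟨p.totalDegree, p, (mem_restrictTotalDegree _ _ _).2 le_rfl, rfl⟩

end H57

open H57

theorem ghw : GHW := by
  intro s L _ _ _ z J M D B ν hl hB
  classical
  refine ⟨fun n a _ => C57.le_st (aeval z) (M a)ᵀ (D a) (lift (hl a)) n, fun n W le ne st => ?_⟩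
  obtain ⟨φ, h, h0, e⟩ := hwm hl hB ⊥ W (fun φ h => le_rg (le h))
    (fun h => ne (le_bot_iff.1 h)) st
  exact ⟨φ, h, h0, fun a ha => (e a ha).imp fun c hc => sub_eq_zero.1 hc⟩

theorem gcr : GCR := by
  intro s L _ _ _ z J M D B ν hl hB ad W W' le st st' ev φ hφ
  classical
  have key := C57.crP (fun a => (M a)ᵀ) B _ (fun a ha => tri (hB a ha)) univ (subset_univ _)
    (fun a _ => by
      obtain ⟨a', e⟩ := ad a
      exact ⟨a', trivial, by rw [e]; rfl⟩)
    (W.comap (aeval z : MvPolynomial s ℂ →ₐ[ℂ] L).toLinearMap)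
    (W'.comap (aeval z : MvPolynomial s ℂ →ₐ[ℂ] L).toLinearMap)
    (fun a ha => pull (hl a) (st a ha)) (fun a ha => pull (hl a) (st' a ha)) fun F hF _ e => by
      change aeval z F ∈ W'
      by_cases h0 : aeval z F = 0
      · rw [h0]
        exact W'.zero_mem
      · exact ev _ hF h0 fun a ha => (e a ha).imp fun c hc => by
          rw [lift (hl a), hc, map_smul]
  obtain ⟨F, rfl⟩ := le φ hφ
  exact key (x := F) hφ

end Vale.Agent.P283R.Sq
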