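import Vale.Agent.P283R.Sq.St
import Vale.Agent.P283R.Sg.Deg9

/-!
# P283R, block SQ: the weights of rational eigenvectors
-/

open Set MvPolynomial Module

noncomputable section

namespace Vale.Agent.P283R.Sq

namespace W39

section lin

variable {V A I : Type} [AddCommGroup V] [Module ℂ V] {T : A → V →ₗ[ℂ] V} {v : I → V}
  {χ : I → A → ℂ} {w : V}

theorem step [DecidableEq I] (h : ∀ i a, T a (v i) = χ i a • v i) (S : Finset I) (i : I) (a : A)
    (hw : w ∈ Submodule.span ℂ (v '' ↑(insert i S))) :
    T a w - χ i a • w ∈ Submodule.span ℂ (v '' ↑S) := by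
  induction hw using Submodule.span_induction with
  | mem x hx =>
    obtain ⟨j, hj, rfl⟩ := hx
    rcases Finset.mem_insert.1 hj with rfl | hj
    · simp [h]
    · rw [h, ← sub_smul]
      exact Submodule.smul_mem _ _ (Submodule.subset_span ⟨j, hj, rfl⟩)
  | zero => simp
  | add x y _ _ hx hy =>
    rw [map_add, smul_add, add_sub_add_comm]
    exact add_mem hx hy
  | smul r x _ hx =>
    rw [map_smul, smul_comm, ← smul_sub]
    exact Submodule.smul_mem _ _ hx

theorem stab (h : ∀ i a, T a (v i) = χ i a • v i) (S : Set I) (a : A)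
    (hw : w ∈ Submodule.span ℂ (v '' S)) : T a w ∈ Submodule.span ℂ (v '' S) := by
  induction hw using Submodule.span_induction with
  | mem x hx =>
    obtain ⟨j, hj, rfl⟩ := hx
    exact h j a ▸ Submodule.smul_mem _ _ (Submodule.subset_span ⟨j, hj, rfl⟩)
  | zero => simp
  | add x y _ _ hx hy => exact map_add (T a) x y ▸ add_mem hx hy
  | smul r x _ hx => exact map_smul (T a) r x ▸ Submodule.smul_mem _ _ hx

/-- the weight of an eigenvector in the span of eigenvectors -/
theorem one (h : ∀ i a, T a (v i) = χ i a • v i) (S : Finset I) {c : A → ℂ}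
    (hw : w ∈ Submodule.span ℂ (v '' ↑S)) (e : ∀ a, T a w = c a • w) (n : ∀ i, χ i ≠ c) :
    w = 0 := by
  classical
  induction S using Finset.induction_on with
  | empty => simpa using hw
  | insert i S _ ih =>
    obtain ⟨a, ha⟩ := Function.ne_iff.1 (n i)
    have k := step h S i a hw
    rw [e, ← sub_smul] at k
    exact ih ((Submodule.smul_mem_iff _ (sub_ne_zero.2 ha.symm)).1 k)

/-- two families of eigenvectors -/
theorem two {v' : I → V} {χ' : I → A → ℂ} (h : ∀ i a, T a (v i) = χ i a • v i)
    (h' : ∀ i a, T a (v' i) = χ' i a • v' i) (n : ∀ i j, χ i ≠ χ' j) (S S' : Finset I) :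
    ∀ w ∈ Submodule.span ℂ (v '' ↑S), w ∈ Submodule.span ℂ (v' '' ↑S') → w = 0 := by
  classical
  induction S' using Finset.induction_on with
  | empty => exact fun w _ k => by simpa using k
  | insert j S' _ ih =>
    exact fun w a b => one h S a (fun x => sub_eq_zero.1 (ih _
      (sub_mem (stab h _ x a) (Submodule.smul_mem _ _ a)) (step h' S' j x b))) fun i => n i j

end lin

variable {s L : Type} [Fintype s] [Field L] [Algebra ℂ L] {z : s → L} {M : Matrix s s ℂ}
  {δ : Derivation ℂ L L}

theorem eig_mul {x y : L} {a b : ℂ} (h : δ x = a • x) (k : δ y = b • y) :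
    δ (x * y) = (a + b) • (x * y) := by
  rw [δ.leibniz, h, k, smul_eq_mul, smul_eq_mul]
  simp only [Algebra.smul_def, map_add]
  ring

/-- the weights of the monomials -/
theorem mon_eig (h : Lin z M δ) (d : Dia M) (e : s →₀ ℕ) :
    δ (aeval z (monomial e (1 : ℂ))) = (∑ u, (e u : ℂ) * M u u) • aeval z (monomial e (1 : ℂ)) := by
  classical
  induction e using Finsupp.induction_linear with
  | zero => simp
  | add e e' k k' =>
    rw [← mul_one (1 : ℂ), ← monomial_mul, map_mul, eig_mul k k', ← Finset.sum_add_distrib]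
    simp [add_mul]
  | single u k =>
    have x : δ (z u) = M u u • z u := by
      rw [h u, Finset.sum_eq_single u (fun v _ n => by
        rw [not_not.1 fun c => n (d u v c).symm, zero_smul]) (by simp)]
    have y : ∑ v, (Finsupp.single u k v : ℂ) * M v v = k * M u u := by
      simp [Finsupp.single_apply]
    rw [y, ← X_pow_eq_monomial, map_pow, aeval_X]
    clear y
    induction k with
    | zero => simp
    | succ k ih =>
      rw [pow_succ, eig_mul ih x]
      push_cast
      rw [add_mul, one_mul]

theorem mem_sp (φ : L) (p : MvPolynomial s ℂ) : φ * aeval z p ∈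
    Submodule.span ℂ ((fun e => φ * aeval z (monomial e (1 : ℂ))) '' ↑p.support) := by
  conv_rhs => rw [p.as_sum, map_sum, Finset.mul_sum]
  refine sum_mem fun e he => ?_
  have k : monomial e (coeff e p) = coeff e p • monomial e (1 : ℂ) := by simp [smul_monomial]
  rw [k, map_smul, mul_smul_comm]
  exact Submodule.smul_mem _ _ (Submodule.subset_span ⟨e, he, rfl⟩)

/-- raising operators are locally nilpotent -/
theorem nil {ν : s → ℕ} (h : Lin z M δ) (r : Rai ν M) (p : MvPolynomial s ℂ) :
    aeval z p ∈ End.maxGenEigenspace (δ : End ℂ L) 0 := by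
  have up : ∀ x, δ x ∈ End.maxGenEigenspace (δ : End ℂ L) 0 →
      x ∈ End.maxGenEigenspace (δ : End ℂ L) 0 := fun x hx => by
    obtain ⟨k, hk⟩ := (End.mem_maxGenEigenspace _ _ _).1 hx
    refine (End.mem_maxGenEigenspace _ _ _).2 ⟨k + 1, ?_⟩
    rw [pow_succ, End.mul_apply]
    simpa using hk
  obtain ⟨b, hb⟩ := (finite_range ν).bddAbove
  have g : ∀ n u, b ≤ ν u + n → z u ∈ End.maxGenEigenspace (δ : End ℂ L) 0 := fun n => by
    induction n using Nat.strong_induction_on with
    | _ n ih =>
      refine fun u hu => up _ (h u ▸ sum_mem fun v _ => ?_)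
      by_cases c : M u v = 0
      · simp [c]
      · have := r u v c
        have := hb (mem_range_self v)
        exact Submodule.smul_mem _ _ (ih (n - 1) (by omega) v (by omega))
  induction p using MvPolynomial.induction_on with
  | C a => exact up _ (by simp)
  | add p q hp hq => exact map_add (aeval z) p q ▸ add_mem hp hq
  | mul_X p u hp => simpa using Sg.D9.gen_mul hp (g b u (by omega))

end W39

open W39

/-- **GWT** -/
theorem gwt : GWT := by
  rintro s L _ _ _ z J M D B ν hl hB _ ⟨p, rfl⟩ _ ⟨q, rfl⟩ a0 b0 hw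
  replace a0 : aeval z p ≠ 0 := a0
  replace b0 : aeval z q ≠ 0 := b0
  change Hw D B (aeval z p / aeval z q) at hw
  change ∃ m : s → ℤ, ∀ a ∈ B, D a (aeval z p / aeval z q) = _ • (aeval z p / aeval z q)
  have e := div_mul_cancel₀ (aeval z p) b0
  generalize aeval z p / aeval z q = φ at hw e
  choose! c hc using hw
  obtain ⟨d, d', k⟩ : ∃ d d' : s →₀ ℕ,
      (fun a : {a // a ∈ B ∧ Dia (M a)} => ∑ u, (d u : ℂ) * M a u u) =
        fun a : {a // a ∈ B ∧ Dia (M a)} => c a + ∑ u, (d' u : ℂ) * M a u u := by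
    by_contra! n
    refine a0 (two (T := fun a : {a // a ∈ B ∧ Dia (M a)} => (D a).toLinearMap)
      (v := fun e => 1 * aeval z (monomial e (1 : ℂ)))
      (v' := fun e => φ * aeval z (monomial e (1 : ℂ))) (fun i a => ?_)
      (fun i a => eig_mul (hc a a.2.1) (mon_eig (hl a) a.2.2 i)) n p.support q.support _
      (one_mul (aeval z p) ▸ mem_sp 1 p) (e ▸ mem_sp φ q))
    rw [one_mul]
    exact mon_eig (hl a) a.2.2 i
  refine ⟨fun u => d u - d' u, fun a ha => (hc a ha).trans (congrArg (· • φ) ?_)⟩
  rcases hB a ha with h | h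
  · have := congrFun k ⟨a, ha, h⟩
    simp only [Int.cast_sub, Int.cast_natCast, sub_mul, Finset.sum_sub_distrib]
    exact (sub_eq_of_eq_add this).symm
  · rw [Finset.sum_eq_zero fun u _ => by
      rw [not_not.1 fun x => lt_irrefl _ (h u u x), mul_zero]]
    by_contra c0
    have m : φ ∈ End.maxGenEigenspace (D a : End ℂ L) (c a) :=
      (End.mem_maxGenEigenspace _ _ _).2 ⟨1, by simp [hc a ha]⟩
    have m' := Sg.D9.gen_mul m (nil (hl a) h q)
    rw [e, add_zero] at m'
    exact a0 (Submodule.disjoint_def.1 (End.disjoint_genEigenspace _ c0 ⊤ ⊤) _ m' (nil (hl a) h p))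

end Vale.Agent.P283R.Sq
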