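import Vale.Agent.P283R.Sq.St

/-!
# P283R, block SQ: the row IRR
-/

open Set
open scoped Kronecker Matrix

noncomputable section

namespace Vale.Agent.P283R.Sq

open Vale.Agent.P287D Sl

namespace I56

variable {N : ℕ} {G : Set (Mat N)}

theorem rm_ne {g : Mat N} {u v : Fin N × Fin N} (h : Rm g u v ≠ 0) : u.1 = v.1 ∧ g v.2 u.2 ≠ 0 := by
  rw [Rm, Matrix.kroneckerMap_apply, Matrix.transpose_apply] at h
  refine ⟨?_, right_ne_zero_of_mul h⟩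
  by_contra e
  exact left_ne_zero_of_mul h (Matrix.one_apply_ne e)

theorem lm_ne {g : Mat N} {u v : Fin N × Fin N} (h : Lm g u v ≠ 0) : u.2 = v.2 ∧ g u.1 v.1 ≠ 0 := by
  rw [Lm, Matrix.kroneckerMap_apply] at h
  refine ⟨?_, left_ne_zero_of_mul h⟩
  by_contra e
  exact right_ne_zero_of_mul h (Matrix.one_apply_ne e)

theorem rai_r {g : Mat N} (h : ∀ i j, g i j ≠ 0 → j < i) :
    Rai (fun e : Fin N × Fin N => e.2.1) (Rm g) := fun _ _ k => h _ _ (rm_ne k).2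

theorem bl (a : Lie G) (h : a ∈ Bl G) :
    Dia (Rm a.1) ∨ Rai (fun e : Fin N × Fin N => e.2.1) (Rm a.1) := by
  rcases h with h | h
  · exact Or.inl fun u v k => Prod.ext (rm_ne k).1 (h _ _ (rm_ne k).2).symm
  · exact Or.inr (rai_r h)

theorem bu (a : Lie G) (h : a ∈ Bu G) :
    Dia (Lm a.1) ∨ Rai (fun e : Fin N × Fin N => e.1.1) (Lm a.1) := by
  rcases h with h | h
  · exact Or.inl fun u v k => Prod.ext (h _ _ (lm_ne k).2) (lm_ne k).1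
  · exact Or.inr fun _ _ k => h _ _ (lm_ne k).2

theorem rm_adj (g : Mat N) : Rm gᴴ = (Rm g)ᴴ := by
  rw [Rm, Rm, Matrix.conjTranspose_kronecker, Matrix.conjTranspose_one]
  rfl

variable {s L : Type} [Fintype s] [Field L] [Algebra ℂ L]

omit [Fintype s] in
theorem le_rg {z : s → L} {n : ℕ} {a : L} (h : a ∈ Le z n) : a ∈ Rg z := by
  obtain ⟨p, -, rfl⟩ := h
  exact ⟨p, rfl⟩

theorem quo (D : Derivation ℂ L L) {a b : L} (b0 : b ≠ 0) {c : ℂ} (ha : D a = c • a)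
    (hb : D b = c • b) : D (a / b) = 0 := by
  have := D.leibniz (a / b) b
  rw [div_mul_cancel₀ _ b0, ha, hb, smul_eq_mul, smul_eq_mul, mul_smul_comm, div_mul_cancel₀ _ b0,
    left_eq_add] at this
  exact (mul_eq_zero.1 this).resolve_left b0

/-- the eigenfunctions of one weight -/
def Wt {J : Type} (A : Subalgebra ℂ L) (D : J → Derivation ℂ L L) (B : Set J) (c : J → ℂ) :
    Submodule ℂ L where
  carrier := {ψ | ψ ∈ A ∧ ∀ ξ ∈ B, D ξ ψ = c ξ • ψ}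
  zero_mem' := ⟨zero_mem _, fun _ _ => by simp⟩
  add_mem' a b := ⟨add_mem a.1 b.1, fun ξ h => by rw [map_add, a.2 ξ h, b.2 ξ h, smul_add]⟩
  smul_mem' t _ a := ⟨A.smul_mem a.1 t, fun ξ h => by
    rw [Derivation.map_smul, a.2 ξ h, smul_comm]⟩

end I56

open I56 in
/-- **IRR** -/
theorem irr56 (ghw : GHW) (gcr : GCR) (geg : GEG) (tan : TAN) (com : COM) (con : CON)
    (dis : DIS) : IRR := by
  intro N L _ _ x G l r D D' g b n φ hφ φ0 c hc ψ hψ kψ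
  obtain ⟨-, -, t3, t4⟩ := tan N L x G l r g.red
  obtain ⟨-, c2, -, c4⟩ := com N L x G l r D D' g b
  obtain ⟨h1, h2⟩ := ghw _ L (zx x) _ (fun ξ : Lie G => Rm ξ.1) D' (Bl G) _ g.hR bl
  have s1 : Stb D' univ (Wt (Rg (zx x)) D (Bu G) c) := fun a _ y hy =>
    ⟨(c2 a y hy.1).2, fun ξ k => by rw [c4, hy.2 ξ k, Derivation.map_smul]⟩
  have s2 : Stb D' univ (Wt (Rg (zx x)) D (Bu G) c ⊓ Le (zx x) n) := fun a k y hy =>
    ⟨s1 a k y hy.1, h1 n a k y hy.2⟩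
  obtain ⟨φ1, m1, n1, w1⟩ := h2 n (Wt (Rg (zx x)) D (Bu G) c ⊓ Le (zx x) n) inf_le_right
    ((Submodule.ne_bot_iff _).2 ⟨φ, ⟨⟨le_rg hφ, hc⟩, hφ⟩, φ0⟩) fun a _ => s2 a trivial
  obtain ⟨Δ, -, Δ0, hΔ⟩ := dis N L x G l r D D' g b {η | ∀ i j, η.1 i j ≠ 0 → j < i} fun ξ => by
    obtain ⟨τ, ν, μ, e, a1, a2, a3⟩ := t4 ξ
    rw [e]
    exact add_mem (add_mem (Submodule.subset_span ⟨τ, Or.inl (Or.inl a1), rfl⟩)
      (Submodule.subset_span ⟨ν, Or.inl (Or.inr a2), rfl⟩))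
      (Submodule.subset_span ⟨μ, Or.inr a3, rfl⟩)
  have kil : ∀ y ∈ Rg (zx x), Hw D' (Bl G) y → ∀ η : Lie G, (∀ i j, η.1 i j ≠ 0 → j < i) →
      D' η y = (0 : ℂ) • y := by
    intro y hy w η k
    obtain ⟨t, e⟩ := w η (Or.inr k)
    rw [zero_smul]
    exact (geg _ L (zx x) _ (fun ξ : Lie G => Rm ξ.1) D' (Bl G) _ g.hR bl η (Or.inr k) y hy
      (algebraMap ℂ L t) (Subalgebra.algebraMap_mem _ t) (by rw [e, Algebra.smul_def])).2 (rai_r k)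
  refine (gcr _ L (zx x) _ (fun ξ : Lie G => Rm ξ.1) D' (Bl G) _ g.hR bl (fun a => ?_)
    (Wt (Rg (zx x)) D (Bu G) c) (Wt (Rg (zx x)) D (Bu G) c ⊓ Le (zx x) n)
    (fun y hy => hy.1) s1 s2 (fun y hy _ w => ?_) (⟨hψ, kψ⟩ : ψ ∈ Wt _ D (Bu G) c)).2
  · obtain ⟨η, e⟩ := t3 a
    exact ⟨η, (congrArg Rm e).trans (rm_adj _)⟩
  · obtain ⟨t, e⟩ := con N L x G l r D D' g b (y / φ1) (Or.inl fun ζ => by
      have := hΔ ζ ⊥ (y / φ1) (fun ξ k => quo _ n1 (hy.2 ξ k) (m1.1.2 ξ k))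
        fun η k => quo _ n1 (kil y hy.1 w η k) (kil φ1 m1.1.1 w1 η k)
      exact (mul_eq_zero.1 this).resolve_left Δ0)
    rw [div_eq_iff n1, ← Algebra.smul_def] at e
    rw [e]
    exact Submodule.smul_mem _ t m1

end Vale.Agent.P283R.Sq
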