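import Vale.Agent.P283R.Sq.St
import Vale.Agent.P283R.Sq.Lat93

/-!
# P283R, block SQ: the lattice of the weights
-/

open Set

noncomputable section

namespace Vale.Agent.P283R.Sq

open Vale.Agent.P287D Sl

namespace L63

variable {L J : Type} [Field L] [Algebra ℂ L]

/-- the logarithmic derivatives -/
def lgd (D : J → Derivation ℂ L L) (B : Set J) (φ : L) : B → L := fun a => D a φ / φ

variable {D : J → Derivation ℂ L L} {B : Set J}

theorem ld_mul {a b : L} (a0 : a ≠ 0) (b0 : b ≠ 0) : lgd D B (a * b) = lgd D B a + lgd D B b := by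
  funext j
  simp only [lgd, Pi.add_apply, Derivation.leibniz, smul_eq_mul]
  field_simp
  ring

theorem hw_mul {a b : L} (ha : Hw D B a) (hb : Hw D B b) : Hw D B (a * b) := fun j h => by
  obtain ⟨c, hc⟩ := ha j h
  obtain ⟨e, he⟩ := hb j h
  refine ⟨c + e, ?_⟩
  rw [Derivation.leibniz, hc, he]
  simp only [smul_eq_mul, Algebra.smul_def, map_add]
  ring

theorem hw_inv {a : L} (ha : Hw D B a) : Hw D B a⁻¹ := fun j h => by
  obtain ⟨c, hc⟩ := ha j h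
  refine ⟨-c, ?_⟩
  rw [Derivation.leibniz_inv, hc]
  simp only [smul_eq_mul, Algebra.smul_def, map_neg]
  by_cases a0 : a = 0
  · simp [a0]
  · field_simp

/-- the lattice lemma with integral exponents -/
theorem lat {V : Type} [AddCommGroup V] {N : ℕ} (Cu : L → Prop)
    (h1 : Cu 1) (hm : ∀ a b, Cu a → Cu b → Cu (a * b)) (hi : ∀ a, Cu a → Cu a⁻¹)
    (h0 : ∀ a, Cu a → a ≠ 0) (χ : L → V) (ad : ∀ a b, Cu a → Cu b → χ (a * b) = χ a + χ b)
    (e : Fin N → V) (sp : ∀ a, Cu a → χ a ∈ Submodule.span ℤ (range e))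
    (ke : ∀ a, Cu a → χ a = 0 → ∃ c : ℂ, a = algebraMap ℂ L c) :
    ∃ u : Fin N → L, (∀ j, Cu (u j)) ∧
      ∀ φ, Cu φ → ∃ (a : ℂ) (n : Fin N → ℤ), φ = a • ∏ j, u j ^ n j := by
  classical
  have c1 : χ 1 = 0 := by simpa using ad 1 1 h1 h1
  have ci : ∀ a, Cu a → χ a⁻¹ = -χ a := fun a h => by
    rw [eq_neg_iff_add_eq_zero, ← ad _ _ (hi a h) h, inv_mul_cancel₀ (h0 a h), c1]
  have cp : ∀ a, Cu a → ∀ k : ℕ, Cu (a ^ k) ∧ χ (a ^ k) = k • χ a := fun a h k => by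
    induction k with
    | zero => simpa using ⟨h1, c1⟩
    | succ k ih => rw [pow_succ, ad _ _ ih.1 h, ih.2, succ_nsmul]; exact ⟨hm _ _ ih.1 h, rfl⟩
  have cz : ∀ a, Cu a → ∀ k : ℤ, Cu (a ^ k) ∧ χ (a ^ k) = k • χ a := fun a h k => by
    obtain ⟨n, rfl | rfl⟩ := k.eq_nat_or_neg
    · simpa using cp a h n
    · rw [zpow_neg, zpow_natCast, ci _ (cp a h n).1, (cp a h n).2, neg_smul, natCast_zsmul]
      exact ⟨hi _ (cp a h n).1, rfl⟩
  have cs : ∀ (s : Finset (Fin N)) (x : Fin N → L), (∀ j, Cu (x j)) →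
      Cu (∏ j ∈ s, x j) ∧ χ (∏ j ∈ s, x j) = ∑ j ∈ s, χ (x j) := fun s x h => by
    induction s using Finset.induction_on with
    | empty => simpa using ⟨h1, c1⟩
    | insert j s k ih =>
      rw [Finset.prod_insert k, Finset.sum_insert k, ad _ _ (h j) ih.1, ih.2]
      exact ⟨hm _ _ (h j) ih.1, rfl⟩
  let M : AddSubgroup V :=
    { carrier := {v | ∃ a, Cu a ∧ χ a = v}
      zero_mem' := ⟨1, h1, c1⟩
      add_mem' := by
        rintro _ _ ⟨a, ha, rfl⟩ ⟨b, hb, rfl⟩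
        exact ⟨a * b, hm a b ha hb, ad a b ha hb⟩
      neg_mem' := by
        rintro _ ⟨a, ha, rfl⟩
        exact ⟨a⁻¹, hi a ha, ci a ha⟩ }
  obtain ⟨v, v1, v2⟩ := L93.sub_gen e M.toIntSubmodule (by rintro _ ⟨a, ha, rfl⟩; exact sp a ha)
  choose w w1 w2 using v1
  refine ⟨w, w1, fun φ hφ => ?_⟩
  obtain ⟨n, hn⟩ := v2 (χ φ) ⟨φ, hφ, rfl⟩
  obtain ⟨p1, p2⟩ := cs Finset.univ (fun j => w j ^ n j) fun j => (cz _ (w1 j) _).1
  obtain ⟨c, hc⟩ := ke (φ * (∏ j, w j ^ n j)⁻¹) (hm _ _ hφ (hi _ p1)) (by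
    rw [ad _ _ hφ (hi _ p1), ci _ p1, p2, hn,
      Finset.sum_congr rfl fun j _ => ((cz _ (w1 j) (n j)).2.trans (by rw [w2])), add_neg_cancel])
  exact ⟨c, n, by rw [Algebra.smul_def, ← hc, inv_mul_cancel_right₀ (h0 _ p1)]⟩

theorem tri {N : ℕ} {G : Set (Mat N)} (a : Lie G) (h : a ∈ Bu G) :
    Dia (Lm a.1) ∨ Rai (fun u : Fin N × Fin N => (u.1 : ℕ)) (Lm a.1) := by
  refine h.imp (fun h u v e => ?_) fun h u v e => ?_
  · simp only [Lm, Matrix.kroneckerMap_apply, ne_eq, mul_eq_zero, not_or] at e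
    refine Prod.ext (h _ _ e.1) ?_
    by_contra k
    exact e.2 (Matrix.one_apply_ne k)
  · simp only [Lm, Matrix.kroneckerMap_apply, ne_eq, mul_eq_zero, not_or] at e
    exact h _ _ e.1

end L63

open L63

/-- **LAT** -/
theorem lat63 (gwt : GWT) (kil : KIL) (dis : DIS) (con : CON) : LAT := by
  intro N L _ _ x G l r D D' gd bs H hH sp
  obtain ⟨Δ, -, Δ0, hΔ⟩ := dis N L x G l r D D' gd bs _ sp
  obtain ⟨u, u1, u2⟩ := lat (N := N * N)
    (fun φ : L => φ ≠ 0 ∧ Hw D (Bu G) φ ∧ ∀ h ∈ r '' H, h φ = φ)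
    ⟨one_ne_zero, fun a _ => ⟨0, by simp⟩, fun h _ => map_one h⟩
    (fun a b ha hb => ⟨mul_ne_zero ha.1 hb.1, hw_mul ha.2.1 hb.2.1, fun h k => by
      rw [map_mul, ha.2.2 h k, hb.2.2 h k]⟩)
    (fun a ha => ⟨inv_ne_zero ha.1, hw_inv ha.2.1, fun h k => by rw [map_inv₀, ha.2.2 h k]⟩)
    (fun a ha => ha.1) (lgd D (Bu G)) (fun a b ha hb => ld_mul ha.1 hb.1)
    (fun j a => algebraMap ℂ L (Lm a.1.1 (finProdFinEquiv.symm j) (finProdFinEquiv.symm j)))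
    (fun φ hφ => by
      obtain ⟨p, q, rfl⟩ := gd.red.frac φ
      obtain ⟨p0, q0⟩ := div_ne_zero_iff.1 hφ.1
      obtain ⟨m, hm⟩ := gwt (Fin N × Fin N) L (zx x) (Lie G) (fun a => Lm a.1) D (Bu G) _ gd.hL
        tri (atMat x p) ⟨p, rfl⟩ (atMat x q) ⟨q, rfl⟩ p0 q0 hφ.2.1
      refine (Submodule.mem_span_range_iff_exists_fun ℤ).2
        ⟨fun j => m (finProdFinEquiv.symm j), funext fun a => ?_⟩
      rw [lgd, hm a a.2, Algebra.smul_def, mul_div_cancel_right₀ _ hφ.1, map_sum,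
        ← finProdFinEquiv.symm.sum_comp, Finset.sum_apply]
      refine Finset.sum_congr rfl fun j _ => ?_
      simp)
    (fun φ hφ z => by
      refine con N L x G l r D D' gd bs φ (Or.inl fun ζ => ?_)
      have := hΔ ζ ⊥ φ (fun ξ k => by
        have := congrFun z ⟨ξ, k⟩
        simpa [lgd, hφ.1] using this) fun η k =>
          kil N L x G l r D D' gd bs H hH φ η (fun h e => hφ.2.2 _ ⟨h, e, rfl⟩) k
      exact (mul_eq_zero.1 this).resolve_left Δ0)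
  exact ⟨u, u1, fun φ a b c => u2 φ ⟨a, b, c⟩⟩

end Vale.Agent.P283R.Sq
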