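import Vale.Agent.P283R.Sq.St
import Vale.Agent.P283R.Sg.Gg27

/-!
# P283R, block SQ: the row LOC
-/

open Set

noncomputable section

namespace Vale.Agent.P283R.Sq

open Vale.Agent.P287D Vale.Agent.P283R.Sl

namespace L84

variable {K : Type} [Field K] [Algebra ℂ K] {k : ℕ}

open Classical in
/-- the coefficients of the prime divisors -/
def dv (r : Fin k → Pl K) (Q : Pl K) (j : Fin k) : ℤ := if r j = Q then 1 else 0

theorem cf_eq (r : Fin k → Pl K) (m : Fin k → ℤ) (Q : Pl K) : cf r m Q = m ⬝ᵥ dv r Q :=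
  Finset.sum_congr rfl fun j _ => by
    unfold dv
    split_ifs <;> simp

theorem sec_eq (T : Set (Pl K)) (r : Fin k → Pl K) : Sec T r = Sg.Sec T (dv r) := by
  funext m
  simp only [Sec, Sg.Sec, cf_eq]

/-- one more generator -/
theorem loc {N : ℕ} {T T' : Set (Pl K)} {D : Pl K → Fin k → ℤ} {m0 : Fin k → ℤ} {ψ : K}
    (sub : T' ⊆ T) (fin : (T \ T').Finite) (ψ0 : ψ ≠ 0) (h1 : ∀ P ∈ T', P.ord ψ + m0 ⬝ᵥ D P = 0)
    (h2 : ∀ P ∈ T \ T', 0 < P.ord ψ + m0 ⬝ᵥ D P) (h : GradedGen N (Sg.Sec T D)) :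
    GradedGen (N + 1) (Sg.Sec T' D) := by
  obtain ⟨R, -, r2, r3, -⟩ := Sg.gg27 K k T D
  obtain ⟨R', q1, q2, -, q4⟩ := Sg.gg27 K k T' D
  obtain ⟨s, a, hs⟩ := r3 N h
  have key := q4 (Option (Fin N)) (fun o => o.elim ψ⁻¹ s) (fun o => o.elim (-m0) a) ?_
  · rwa [Fintype.card_option, Fintype.card_fin] at key
  refine le_antisymm (Algebra.adjoin_le ?_) fun F hF => ?_
  · rintro _ ⟨_ | j, rfl⟩
    · refine (q2 _ _).2 fun _ P hP => ?_
      have := h1 P hP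
      change 0 ≤ P.ord ψ⁻¹ + -m0 ⬝ᵥ D P
      rw [P.ord_inv, neg_dotProduct]
      omega
    · exact (q2 _ _).2 fun c P hP =>
        (r2 _ _).1 (hs ▸ Algebra.subset_adjoin ⟨j, rfl⟩) c P (sub hP)
  · rw [← AddMonoidAlgebra.sum_coeff_single F]
    refine sum_mem fun m _ => ?_
    have hφ := (q1 F).1 hF m
    generalize F.coeff m = φ at hφ
    by_cases φ0 : φ = 0
    · rw [φ0, AddMonoidAlgebra.single_zero]; exact zero_mem _
    obtain ⟨n, hn⟩ := (fin.image fun P => (-(P.ord φ + m ⬝ᵥ D P)).toNat).bddAbove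
    have k1 : Sg.sg (m + n • m0) (φ * ψ ^ n) ∈ R := (r2 _ _).2 fun _ P hP => by
      rw [P.ord_mul φ0 (pow_ne_zero _ ψ0), P.ord_pow, add_dotProduct, smul_dotProduct,
        nsmul_eq_mul, add_add_add_comm, ← mul_add]
      by_cases c : P ∈ T'
      · rw [h1 P c, mul_zero, add_zero]; exact hφ φ0 P c
      · have : (-(P.ord φ + m ⬝ᵥ D P)).toNat ≤ n := hn ⟨P, ⟨hP, c⟩, rfl⟩
        have := le_mul_of_one_le_right (Int.natCast_nonneg n) (h2 P ⟨hP, c⟩)
        omega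
    have k2 : AddMonoidAlgebra.single m φ =
        Sg.sg (m + n • m0) (φ * ψ ^ n) * Sg.sg (-m0) ψ⁻¹ ^ n := by
      rw [AddMonoidAlgebra.single_pow, AddMonoidAlgebra.single_mul_single, smul_neg,
        add_neg_cancel_right, mul_assoc, ← mul_pow, mul_inv_cancel₀ ψ0, one_pow, mul_one]
    rw [k2]
    refine mul_mem (Algebra.adjoin_mono ?_ (hs.ge k1))
      (pow_mem (Algebra.subset_adjoin (mem_range.2 ⟨none, rfl⟩)) _)
    rintro _ ⟨j, rfl⟩
    exact ⟨some j, rfl⟩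

end L84

/-- **LOC** -/
theorem loc84 : LOC := fun K _ _ k n r T T' m φ sub fin φ0 h1 h2 h => by
  rw [L84.sec_eq] at h ⊢
  simp only [L84.cf_eq] at h1 h2
  exact L84.loc sub fin φ0 h1 h2 h

end Vale.Agent.P283R.Sq
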