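import Vale.Agent.P283R.Sq.St
import Vale.Agent.P283R.Sl.Mb

/-!
# P283R, block SQ: assembly of the second part, and the complements
-/

open Set

noncomputable section

namespace Vale.Agent.P283R.Sq

open Vale.Agent.P287D Sl

/-- **MEM** -/
theorem mem_of (val : VAL) (eqn : EQN) (fix : FIX) (fam : FAM) (gen : GEN) (cls : CLS)
    (loc : LOC) : MEM := by
  classical
  intro n b w d K L J _ _ _ _ i A Γ H D B T hA hG T' hT hfin
  have hv := val n b w d K L J i A Γ H D B T hA hG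
  have he := eqn n b w d K L J i A Γ H D B T hA hG hv
  obtain ⟨Γ', hx⟩ := fix n b w d K L J i A Γ H D B T hA hG hv
  obtain ⟨k, r, f, hm⟩ := fam n b w d K L J i A Γ H D B T hA hG hv he
  have hc := cls n b w d K L J i A Γ H D B T hA hG hv Γ' hx he k r f hm
  have hg := gen n b w d K L J i A Γ H D B T hA hG hv Γ' hx k r f hm
  refine ⟨k, r, hm.inj, hm.mem, ?_, hc⟩
  obtain ⟨m, φ, h0, h⟩ := hc (fun Q => if Q ∈ T' then 0 else 1) (hfin.subset fun Q hQ =>
    ⟨hQ.1, fun hn => hQ.2 (if_pos hn)⟩)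
  have := loc K k _ r T T' m φ hT hfin h0 (fun Q hQ => by rw [← h Q (hT hQ), if_pos hQ])
    (fun Q hQ => by rw [← h Q hQ.1, if_neg hQ.2]; exact one_pos) hg
  simpa only [add_assoc] using this

end Vale.Agent.P283R.Sq

namespace Vale.Agent.P283R.Sl

open Var

theorem on_sq_of (h : Sq.SPH) (M : ℕ → ℕ) : On fun d _ _ f ω B z => FanoType f ω ∧
    NefOver f (-logCan ω B) ∧ ∃ W, z.In W ∧ ∃ N ≤ M d, IsSpherical N (pre f W) := by
  intro d hd ε hε R hR
  obtain ⟨n, hn, H⟩ := on_gen' (∑ N ∈ Finset.range (M d + 1),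
    (Sq.bd N * Sq.bd N + 2 * (N * N) + 1)) d hd ε hε R hR
  refine ⟨n, hn, fun X Z f ω B z a b c e s t ⟨u, v, W, p, N, hN, q⟩ =>
    H X Z f ω B z a b c e s t ⟨u, v, ?_⟩⟩
  obtain ⟨k, N', V, D, le, w⟩ := h N d X Z f ω B z W hd a b s p q
  exact ⟨k, N', V, D, le.trans (Nat.add_le_add_left (Finset.single_le_sum
    (f := fun N => Sq.bd N * Sq.bd N + 2 * (N * N) + 1) (fun _ _ => Nat.zero_le _)
    (Finset.mem_range.2 (Nat.lt_succ_of_le hN))) _), w⟩

end Vale.Agent.P283R.Sl
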