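import Vale.Agent.P283R.Sq.St

/-!
# P283R, block SQ: the row `MOV`
-/

open Set

noncomputable section

namespace Vale.Agent.P283R.Sq

open Sl

/-- a map which commutes with the vector fields multiplies an eigenvector by a constant -/
theorem M53.cst {L J : Type} [Field L] [Algebra ℂ L] {D : J → Derivation ℂ L L} {p : L}
    (σ : L ≃ₐ[ℂ] L) (p0 : p ≠ 0) (h : Hw D univ p) (cm : ∀ ξ a, D ξ (σ a) = σ (D ξ a))
    (cn : ∀ a : L, (∀ ξ, D ξ a = 0) → ∃ c : ℂ, a = algebraMap ℂ L c) : ∃ c : ℂ, σ p = c • p := by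
  obtain ⟨c, hc⟩ := cn (σ p / p) fun ξ => by
    obtain ⟨e, he⟩ := h ξ trivial
    rw [Derivation.leibniz_div, cm, he, map_smul]
    simp only [smul_eq_mul, Algebra.smul_def]
    ring
  exact ⟨c, by rw [Algebra.smul_def, ← hc, div_mul_cancel₀ _ p0]⟩

/-- **MOV** -/
theorem mov53 (com : COM) (con : CON) : MOV := by
  intro N L _ _ x G l r D D' gd b p hp h
  by_contra k
  have p0 : p ≠ 0 := fun a => k (by rw [a, inv_zero]; exact zero_mem _)
  obtain ⟨g₀, g0, e⟩ := b.pt (Ideal.span {⟨p, hp⟩}) fun a => by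
    obtain ⟨u, hu⟩ := (Ideal.span_singleton_eq_top.1 a).exists_right_inv
    exact k (by rw [inv_eq_of_mul_eq_one_right (congrArg Subtype.val hu :)]; exact u.2)
  obtain ⟨P, rfl⟩ := hp
  have z := e P _ (Ideal.mem_span_singleton_self _) rfl
  have cm := (com N L x G l r D D' gd b).2.2.1
  have cn := con N L x G l r D D' gd b
  have sm : ∀ {R : Type} [CommRing R] [Algebra ℂ R] (y : Matrix (Fin N) (Fin N) R) (c : ℂ),
      atMat y (c • P) = c • atMat y P := fun y c => map_smul (MvPolynomial.aeval _) c P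
  refine p0 (b.nul P fun g hg => ?_)
  rcases h with h | h
  · have m := b.mul _ (b.inv _ g0).2 _ hg
    obtain ⟨c, hc⟩ := M53.cst (r _) p0 h (fun ξ a => (cm ξ _ m a).1) fun a k => cn a (.inr k)
    have := b.rv _ m _ g0 P (c • P) (hc.trans (sm x c).symm)
    rwa [sm, z, smul_zero, ← mul_assoc, Matrix.mul_adjugate, (b.inv _ g0).1, one_smul, one_mul,
      eq_comm] at this
  · have m := b.mul _ hg _ (b.inv _ g0).2
    obtain ⟨c, hc⟩ := M53.cst (l _) p0 h (fun ξ a => (cm ξ _ m a).2) fun a k => cn a (.inl k)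
    have := b.lv _ m _ g0 P (c • P) (hc.trans (sm x c).symm)
    rwa [sm, z, smul_zero, mul_assoc, Matrix.adjugate_mul, (b.inv _ g0).1, one_smul, mul_one,
      eq_comm] at this

end Vale.Agent.P283R.Sq
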