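import Vale.Agent.P283R.Sq.St
import Vale.Agent.P283R.Sq.Cst6

/-!
# P283R, block SQ: the vector fields span the derivations
-/

set_option linter.all false

open Set MvPolynomial
open scoped Kronecker Matrix

noncomputable section

namespace Vale.Agent.P283R.Sq

open Sl

namespace C6

variable {N : ℕ} {L : Type} [Field L] [Algebra ℂ L] {x : Matrix (Fin N) (Fin N) L}
  {G : Set (Mat N)} {l r : Mat N → L ≃ₐ[ℂ] L}

theorem key {T : Matrix (Fin N) (Fin N) L → Matrix (Fin N) (Fin N) L → Matrix (Fin N) (Fin N) L}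
    (Z : Matrix (Fin N) (Fin N) L → Matrix (Fin N) (Fin N) (MvPolynomial (Fin N × Fin N) L))
    (m : ∀ y u a b, eval (zx y) (Z u a b) = T y u a b) {δ : Derivation ℂ L L}
    (dT : ∀ (g : Mat N) a b, δ (T (g.map (algebraMap ℂ L)) x a b) =
      T (g.map (algebraMap ℂ L)) (x.map δ) a b)
    (hl : ∀ p, (∀ g ∈ G, atMat g p = 0) → ∀ g ∈ G, atMat (T (g.map (algebraMap ℂ L)) x) p = 0)
    (hi : ∀ q, (∀ g ∈ G, atMat g q = 0) → atMat x.adjugate q = 0) (one : T x.adjugate x = 1)
    (Λ : L →ₗ[ℂ] ℂ) : Tangent G ((T x.adjugate (x.map δ)).map Λ) := fun p hp => by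
  have ev : ∀ y : Matrix (Fin N) (Fin N) L, eval (zx y) (∑ e : Fin N × Fin N,
      aeval (fun e : Fin N × Fin N => Z x e.1 e.2) (pderiv e p) * Z (x.map δ) e.1 e.2) =
      ∑ e : Fin N × Fin N, atMat (T y x) (pderiv e p) * T y (x.map δ) e.1 e.2 := fun y => by
    rw [map_sum]
    refine Finset.sum_congr rfl fun e _ => ?_
    rw [map_mul, m]
    congr 1
    rw [map_aeval (fun e : Fin N × Fin N => Z x e.1 e.2) (eval (zx y)) (pderiv e p), atMat,
      aeval_def, coe_eval₂Hom]
    simp only [m]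
    congr 1
    exact RingHom.ext fun a => (congrArg _ (MvPolynomial.algebraMap_apply a)).trans (eval_C _)
  have := bc (G := (fun (g : Mat N) (e : Fin N × Fin N) => g e.1 e.2) '' G) (∑ e : Fin N × Fin N,
      aeval (fun e : Fin N × Fin N => Z x e.1 e.2) (pderiv e p) * Z (x.map δ) e.1 e.2) ?_
    (w := zx x.adjugate) fun q hq => hi q fun g hg => hq _ ⟨g, hg, rfl⟩
  · rw [ev, one] at this
    rw [← map_zero Λ, ← this, map_sum]
    refine Finset.sum_congr rfl fun e _ => ?_
    have u : atMat (1 : Matrix (Fin N) (Fin N) L) (pderiv e p) =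
        algebraMap ℂ L (atMat (1 : Mat N) (pderiv e p)) := by
      refine Eq.trans ?_ (aeval_algebraMap_apply L
        (fun e : Fin N × Fin N => (1 : Mat N) e.1 e.2) _)
      simp only [atMat, Function.comp_def, Matrix.one_apply, apply_ite (algebraMap ℂ L), map_one,
        map_zero]
    rw [u, ← Algebra.smul_def, map_smul, smul_eq_mul, mul_comm, Matrix.map_apply]
  · rintro _ ⟨g, hg, rfl⟩
    refine (ev (g.map (algebraMap ℂ L))).trans ?_
    have := congrArg δ (hl p hp g hg)
    rw [map_zero, atMat, chain] at this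
    rw [← this]
    exact Finset.sum_congr rfl fun e _ => by rw [dT]; rfl

theorem at_map {R S : Type} [CommRing R] [CommRing S] [Algebra ℂ R] [Algebra ℂ S] (σ : R →ₐ[ℂ] S)
    (y : Matrix (Fin N) (Fin N) R) (p : MvPolynomial (Fin N × Fin N) ℂ) :
    σ (atMat y p) = atMat (y.map σ) p := by
  rw [atMat, ← AlgHom.comp_apply, comp_aeval]
  rfl

theorem adj (b : Bas x G l r) (q : MvPolynomial (Fin N × Fin N) ℂ) (h : ∀ g ∈ G, atMat g q = 0) :
    atMat x.adjugate q = 0 := by
  let Y : Matrix (Fin N) (Fin N) (MvPolynomial (Fin N × Fin N) ℂ) := Matrix.of fun a b => X (a, b)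
  have k : ∀ (R : Type) [CommRing R] [Algebra ℂ R] (y : Matrix (Fin N) (Fin N) R),
      atMat y (atMat Y.adjugate q) = atMat y.adjugate q := fun R _ _ y => by
    refine (at_map (aeval fun e : Fin N × Fin N => y e.1 e.2) _ q).trans ?_
    congr 1
    refine (AlgHom.map_adjugate _ Y).trans ?_
    congr 1
    ext a b
    simp [Y]
  rw [← k]
  exact b.nul _ fun g hg => (k _ g).trans (h _ (b.inv g hg).2)

theorem lin_l {ξ : Mat N} {D : L → L} (h : Lin (zx x) (Lm ξ) D) (a b : Fin N) :
    D (x a b) = (ξ.map (algebraMap ℂ L) * x) a b := by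
  refine (h (a, b)).trans ?_
  simp [Lm, zx, Fintype.sum_prod_type, Matrix.mul_apply, Matrix.one_apply, Algebra.smul_def,
    apply_ite (algebraMap ℂ L)]

theorem lin_r {ξ : Mat N} {D : L → L} (h : Lin (zx x) (Rm ξ) D) (a b : Fin N) :
    D (x a b) = (x * ξ.map (algebraMap ℂ L)) a b := by
  refine (h (a, b)).trans ?_
  rw [Fintype.sum_prod_type, Finset.sum_comm]
  simp [Rm, zx, Matrix.mul_apply, Matrix.one_apply, Algebra.smul_def, mul_comm,
    apply_ite (algebraMap ℂ L)]

/-- a finite family which spans the Lie algebra -/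
theorem fam (G : Set (Mat N)) : ∃ (k : ℕ) (z : Fin k → Lie G), ∀ ξ, Tangent G ξ →
    (fun e : Fin N × Fin N => ξ e.1 e.2) ∈
      Submodule.span ℂ (range fun j (e : Fin N × Fin N) => (z j).1 e.1 e.2) := by
  let W : Submodule ℂ (Mat N) :=
    { carrier := {ξ | Tangent G ξ}
      zero_mem' := fun p _ => by simp
      add_mem' := fun {a b} ha hb p hp => by
        simp only [Matrix.add_apply, add_mul, Finset.sum_add_distrib, ha p hp, hb p hp, add_zero]
      smul_mem' := fun c a ha p hp => by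
        simp only [Matrix.smul_apply, smul_eq_mul, mul_assoc, ← Finset.mul_sum, ha p hp,
          mul_zero] }
  let b := Module.finBasis ℂ W
  refine ⟨_, fun j => ⟨(b j).1, (b j).2⟩, fun ξ h =>
    (Submodule.mem_span_range_iff_exists_fun _).2 ⟨b.repr ⟨ξ, h⟩, funext fun e => ?_⟩⟩
  have := congrFun₂ (congrArg Subtype.val (b.sum_repr ⟨ξ, h⟩)) e.1 e.2
  simpa only [Submodule.coe_sum, Submodule.coe_smul, Matrix.sum_apply, Finset.sum_apply,
    Matrix.smul_apply, Pi.smul_apply] using this

theorem sum_ap {J : Type} (s : Finset J) (b : J → Derivation ℂ L L) (a : L) :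
    (∑ j ∈ s, b j) a = ∑ j ∈ s, b j a := by
  classical
  induction s using Finset.induction_on with
  | empty => simp
  | insert j s h ih => simp [Finset.sum_insert h, ih]

end C6

open C6

/-- **SPN** -/
theorem spn : SPN := fun N L _ _ x G l r h b δ Λ => by
  let Y : Matrix (Fin N) (Fin N) (MvPolynomial (Fin N × Fin N) L) := Matrix.of fun a b => X (a, b)
  refine ⟨key (T := fun y u => y * u) (fun u => Y * u.map C) (fun y u a b => ?_) (fun g a b => ?_)
    (fun p hp g hg => ?_) (adj b) (by rw [Matrix.adjugate_mul, h.det, one_smul]) Λ,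
    key (T := fun y u => u * y) (fun u => u.map C * Y) (fun y u a b => ?_) (fun g a b => ?_)
    (fun p hp g hg => ?_) (adj b) (by rw [Matrix.mul_adjugate, h.det, one_smul]) Λ⟩
  · simp [Y, zx, Matrix.mul_apply]
  · simp [Matrix.mul_apply, ← Algebra.smul_def]
  · have := at_map (l g).toAlgHom x p
    rw [b.nul p hp, map_zero] at this
    refine Eq.trans ?_ this.symm
    congr 1
    ext a c
    exact (lin_l (b.ll g hg) a c).symm
  · simp [Y, zx, Matrix.mul_apply]
  · simp [Matrix.mul_apply, mul_comm _ (algebraMap ℂ L _), ← Algebra.smul_def]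
  · have := at_map (r g).toAlgHom x p
    rw [b.nul p hp, map_zero] at this
    refine Eq.trans ?_ this.symm
    congr 1
    ext a c
    exact (lin_r (b.rl g hg) a c).symm

namespace C6

variable {N : ℕ} {L : Type} [Field L] [Algebra ℂ L] {x : Matrix (Fin N) (Fin N) L}
  {G : Set (Mat N)} {l r : Mat N → L ≃ₐ[ℂ] L} {D D' : Lie G → Derivation ℂ L L}

/-- every derivation is a combination of the right fields -/
theorem sp_r (g : Gd x G l r D D') (b : Bas x G l r) (δ : Derivation ℂ L L) :
    ∃ (k : ℕ) (z : Fin k → Lie G) (c : Fin k → L), (∀ j, c j ∈ Submodule.span ℂ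
      (range (zx (x.adjugate * x.map δ)))) ∧ ∀ a, δ a = ∑ j, c j * D' (z j) a := by
  obtain ⟨k, z, hz⟩ := fam G
  obtain ⟨c, c1, hc⟩ := tens _ (zx (x.adjugate * x.map δ)) fun Λ =>
    hz _ (spn N L x G l r g.red b δ Λ).1
  have e := b.exd δ (∑ j, c j • D' (z j)) fun e => by
    have : x.map δ = x * (x.adjugate * x.map δ) := by
      rw [← mul_assoc, Matrix.mul_adjugate, g.red.det, one_smul, one_mul]
    refine (congrFun₂ this e.1 e.2).trans ?_
    rw [Matrix.mul_apply, sum_ap]
    have hc' : ∀ u v, (x.adjugate * x.map δ) u v = _ := fun u v => hc (u, v)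
    simp only [hc', Derivation.smul_apply, smul_eq_mul, zx, lin_r (g.hR _)]
    simp only [Matrix.mul_apply, Finset.mul_sum, Matrix.map_apply]
    rw [Finset.sum_comm]
    exact Finset.sum_congr rfl fun _ _ => Finset.sum_congr rfl fun _ _ => by ring
  exact ⟨k, z, c, c1, fun a => by rw [e, sum_ap]; rfl⟩

/-- every derivation is a combination of the left fields -/
theorem sp_l (g : Gd x G l r D D') (b : Bas x G l r) (δ : Derivation ℂ L L) :
    ∃ (k : ℕ) (z : Fin k → Lie G) (c : Fin k → L), (∀ j, c j ∈ Submodule.span ℂ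
      (range (zx (x.map δ * x.adjugate)))) ∧ ∀ a, δ a = ∑ j, c j * D (z j) a := by
  obtain ⟨k, z, hz⟩ := fam G
  obtain ⟨c, c1, hc⟩ := tens _ (zx (x.map δ * x.adjugate)) fun Λ =>
    hz _ (spn N L x G l r g.red b δ Λ).2
  have e := b.exd δ (∑ j, c j • D (z j)) fun e => by
    have : x.map δ = x.map δ * x.adjugate * x := by
      rw [mul_assoc, Matrix.adjugate_mul, g.red.det, one_smul, mul_one]
    refine (congrFun₂ this e.1 e.2).trans ?_
    rw [Matrix.mul_apply, sum_ap]
    have hc' : ∀ u v, (x.map δ * x.adjugate) u v = _ := fun u v => hc (u, v)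
    simp only [hc', Derivation.smul_apply, smul_eq_mul, zx, lin_l (g.hL _)]
    simp only [Matrix.mul_apply, Finset.mul_sum, Finset.sum_mul, Matrix.map_apply]
    rw [Finset.sum_comm]
    exact Finset.sum_congr rfl fun _ _ => Finset.sum_congr rfl fun _ _ => by ring
  exact ⟨k, z, c, c1, fun a => by rw [e, sum_ap]; rfl⟩

end C6

/-- **CON** -/
theorem con : CON := fun _ _ _ _ _ _ _ _ _ _ g b a h => cst fun δ => by
  rcases h with h | h
  · obtain ⟨_, z, c, -, e⟩ := sp_r g b δ
    simp only [e, h, mul_zero, Finset.sum_const_zero]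
  · obtain ⟨_, z, c, -, e⟩ := sp_l g b δ
    simp only [e, h, mul_zero, Finset.sum_const_zero]

end Vale.Agent.P283R.Sq
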