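import Vale.Agent.P283R.Sq.St
import Vale.Agent.P283R.Tp.Hrt
import Vale.Agent.P283R.To.Gs
import Vale.Agent.P287D.Pb.Bas

/-!
# P283R, block SQ, rows STA and CLS
-/

open Set

noncomputable section

namespace Vale.Agent.P283R.Sq

open Vale.Agent.P287D Vale.Agent.P297Z

namespace S33

variable {K L J : Type} [Field K] [Algebra ℂ K] [Field L] [Algebra ℂ L] {k : ℕ} {i : K →ₐ[ℂ] L}
  {A : Subalgebra ℂ L} {H : Set (L ≃ₐ[ℂ] L)} {T : Set (Pl K)} {R : Pl L} {Q Q' : Pl K}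
  {r : Fin k → Pl K} {f : Fin k → L}

theorem uniq (h : Ov i R Q) (h' : Ov i R Q') : Q = Q' :=
  Pl.ext' (SetLike.ext fun a => (h a).trans (h' a).symm)

theorem not_ov (h : ∀ a, i a ∈ R.ring) : ¬ Ov i R Q := fun o =>
  o.e_pos.ne' (Trv.ord (φ := i.toRingHom) h _)

theorem ord_ov (v : Va i A T) (hR : PD A R) (o : Ov i R Q) (a : K) : R.ord (i a) = Q.ord a := by
  rcases v.dn R hR with z | ⟨Q', -, o', z⟩
  · exact (not_ov z o).elim
  · rw [z, uniq o o']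

theorem ord_F (eq : ∀ j, Eq' i A H (r j) (f j)) (m : Fin k → ℤ) (hR : PD A R) :
    ((∀ a, i a ∈ R.ring) → R.ord (∏ j, f j ^ m j) = 0) ∧
      ∀ Q, Ov i R Q → R.ord (∏ j, f j ^ m j) = cf r m Q := by
  have e : R.ord (∏ j, f j ^ m j) = ∑ j, m j * R.ord (f j) :=
    To.ord_mon R (fun j => (eq j).2.1) m
  refine ⟨fun z => e.trans (Finset.sum_eq_zero fun j _ => ?_),
    fun Q o => e.trans (Finset.sum_congr rfl fun j _ => ?_)⟩
  · rw [((eq j).2.2.2 R hR).2 (not_ov z), mul_zero]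
  · split_ifs with c
    · rw [((eq j).2.2.2 R hR).1 (c ▸ o), mul_one]
    · rw [((eq j).2.2.2 R hR).2 fun o' => c (uniq o' o), mul_zero]

/-- the sections as a space -/
def SecS (T : Set (Pl K)) (r : Fin k → Pl K) (m : Fin k → ℤ) : Submodule ℂ K :=
  ⨅ Q ∈ T, Q.sub (cf r m Q : ℝ)

theorem mem_SecS {m : Fin k → ℤ} {φ : K} : φ ∈ SecS T r m ↔ φ ∈ Sec T r m := by
  simp only [SecS, Sec, Submodule.mem_iInf, Pl.mem_sub, mem_ofPred_eq]
  refine ⟨fun h f0 P hP => ?_, fun h P hP => or_iff_not_imp_left.2 fun f0 => ?_⟩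
  · exact_mod_cast (h P hP).resolve_left f0
  · exact_mod_cast h f0 P hP

theorem cf_r (inj : Function.Injective r) (m : Fin k → ℤ) (j : Fin k) : cf r m (r j) = m j := by
  rw [cf, Finset.sum_eq_single j (fun l _ h => if_neg fun z => h (inj z)) (by simp), if_pos rfl]

theorem cf_out (m : Fin k → ℤ) (h : ¬ ∃ j, r j = Q) : cf r m Q = 0 :=
  Finset.sum_eq_zero fun j _ => if_neg fun z => h ⟨j, z⟩

end S33

open S33

/-- **STA** -/
theorem sta33 : STA := by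
  intro n b w d K L J _ _ _ _ i A Γ H D B T ab _ v Γ' fx k r f fm m
  have f0 : ∀ j, f j ≠ 0 := fun j => (fm.eq j).2.1
  have F0 : ∏ j, f j ^ m j ≠ 0 := To.mon_ne f0 m
  have i0 : ∀ {φ : K}, φ ≠ 0 → i φ ≠ 0 := fun h => (map_ne_zero _).2 h
  have h1 : ∀ φ ∈ Sec T r m, i φ * ∏ j, f j ^ m j ∈ A := fun φ h => by
    by_cases z : φ = 0
    · simp [z]
    refine (hrt n L A ab.aff ab.nor).2.1 _ fun R hR =>
      (Pl.ord_nonneg_iff _ (mul_ne_zero (i0 z) F0)).1 ?_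
    rw [Pl.ord_mul _ (i0 z) F0]
    rcases v.dn R hR with y | ⟨Q, hQ, o, y⟩
    · rw [(ord_F fm.eq m hR).1 y, show R.ord (i φ) = 0 from Trv.ord (φ := i.toRingHom) y _]
      rfl
    · rw [(ord_F fm.eq m hR).2 Q o, y]
      exact h z Q hQ
  have h2 : ∀ φ, i φ * ∏ j, f j ^ m j ∈ A → (φ ≠ 0 → ∀ Q ∈ Bd i A T, 0 ≤ Q.ord φ + cf r m Q) →
      φ ∈ Sec T r m := fun φ h h' z Q hQ => by
    by_cases c : ∃ R, PD A R ∧ Ov i R Q
    · obtain ⟨R, hR, o⟩ := c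
      obtain ⟨q, q1, -⟩ := id hR
      have := Pl.ord_nonneg_of_mem _ (q1 ⟨_, h⟩).1
      rwa [Pl.ord_mul _ (i0 z) F0, (ord_F fm.eq m hR).2 Q o, ord_ov v hR o] at this
    · exact h' z Q ⟨hQ, c⟩
  refine ⟨h1, h2, fun φ h a => ?_⟩
  obtain ⟨ψ, ψ1, ψ2⟩ := ab.lf Γ' fx.idx
    ((SecS T r m).map ((LinearMap.mulRight ℂ (∏ j, f j ^ m j)).comp i.toLinearMap)) _ (h1 φ h)
    (fun σ hσ hσ' => by
      obtain ⟨φ', e1, e2⟩ := fx.fun' σ hσ' φ
      choose c c1 c2 using fun j => fx.sec σ hσ' (f j) (fm.eq j).1 (f0 j) (fm.eq j).2.2.1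
      have c0 : ∀ j, c j ≠ 0 := fun j z => f0 j (σ.injective (by simp [c1, z]))
      have e : σ (i φ * ∏ j, f j ^ m j) = i (φ' * ∏ j, c j ^ m j) * ∏ j, f j ^ m j := by
        simp only [map_mul, map_prod, map_zpow₀, e1, c1, mul_zpow, Finset.prod_mul_distrib,
          mul_assoc]
      refine ⟨_, mem_SecS.2 (h2 _ (e ▸ ab.stΓ σ hσ _ (h1 φ h)) fun z Q hQ => ?_), e.symm⟩
      have z' := left_ne_zero_of_mul z
      have o : Q.ord (∏ j, c j ^ m j) = ∑ j, m j * Q.ord (c j) := To.ord_mon Q c0 m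
      rw [Pl.ord_mul _ z' (right_ne_zero_of_mul z), o, e2 Q hQ]
      simp only [c2 _ Q hQ, mul_zero, Finset.sum_const_zero, add_zero]
      refine h (fun y => i0 z' ?_) Q hQ.1
      rw [← e1, y]
      simp) a
  exact ⟨ψ, mem_SecS.1 ψ1, ψ2.symm⟩

/-- **CLS** -/
theorem cls33 : CLS := by
  classical
  intro n b w d K L J _ _ _ _ i A Γ H D B T ab _ v Γ' fx eqn k r f fm G hG
  have one : ∀ Q₀ ∈ T, ∃ φ : K, φ ≠ 0 ∧
      ∀ Q ∈ T, (¬ ∃ j, r j = Q) → Q.ord φ = if Q₀ = Q then 1 else 0 := fun Q₀ h₀ => by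
    obtain ⟨g, g1, g0, g2, g3⟩ := eqn Q₀ h₀
    have WA : ∀ φ ∈ Orb Γ' g, φ ∈ A := fun φ h =>
      (Submodule.span_le (p := A.toSubmodule)).2
        (by rintro _ ⟨σ, hσ, rfl⟩; exact ab.stΓ σ (fx.le hσ) g g1) h
    have om : ∀ σ ∈ Γ', σ g ∈ Orb Γ' g := fun σ h => Submodule.subset_span ⟨σ, h, rfl⟩
    have st : Stb D univ (Orb Γ' g) := fun a _ φ h =>
      (Submodule.span_le (p := (Orb Γ' g).comap (D a).toLinearMap)).2 (by
        rintro _ ⟨σ, hσ, rfl⟩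
        exact ab.lf Γ' fx.idx _ _ (ab.stΓ σ (fx.le hσ) g g1)
          (fun τ _ hτ => om (τ * σ) (mul_mem hτ hσ)) a) h
    obtain ⟨φ, φ1, φ0, φ2⟩ : ∃ φ ∈ Orb Γ' g, φ ≠ 0 ∧ Hw D B φ := by
      by_contra c
      exact g0 (ab.cr _ ⊥ WA st (fun a _ φ h => by simp [(Submodule.mem_bot ℂ).1 h])
        (fun φ h1 h2 h3 => (c ⟨φ, h1, h2, h3⟩).elim) (om 1 (one_mem _)))
    obtain ⟨a, -, rfl⟩ := (Submodule.span_le
      (p := Submodule.map ((LinearMap.mulRight ℂ g).comp i.toLinearMap) ⊤)).2 (by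
        rintro _ ⟨σ, hσ, rfl⟩
        obtain ⟨a, e, -⟩ := fx.sec σ hσ g g1 g0 g2
        exact ⟨a, trivial, e.symm⟩) φ1
    change i a * g ≠ 0 at φ0
    have a0 : a ≠ 0 := fun z => φ0 (by simp [z])
    refine ⟨a⁻¹, inv_ne_zero a0, fun Q hQ c => ?_⟩
    obtain ⟨R, hR, o⟩ : ∃ R, PD A R ∧ Ov i R Q := by_contra fun z => c (fm.bd Q ⟨hQ, z⟩)
    have z : R.ord (i a * g) = 0 := by_contra fun z => c (fm.col Q hQ R hR o _ φ0 φ2 z)
    rw [Pl.ord_mul _ (left_ne_zero_of_mul φ0) g0, ord_ov v hR o] at z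
    rw [Pl.ord_inv]
    split_ifs with e
    · rw [(g3 R hR).1 (e ▸ o)] at z
      omega
    · rw [(g3 R hR).2 fun o' => e (uniq o' o)] at z
      omega
  choose! φ φ0 hφ using one
  have m0 : ∀ Q ∈ hG.toFinset, φ Q ^ G Q ≠ 0 := fun Q h =>
    zpow_ne_zero _ (φ0 Q (hG.mem_toFinset.1 h).1)
  refine ⟨fun j => G (r j) - (r j).ord (∏ Q ∈ hG.toFinset, φ Q ^ G Q),
    ∏ Q ∈ hG.toFinset, φ Q ^ G Q, Finset.prod_ne_zero_iff.2 m0, fun Q hQ => ?_⟩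
  by_cases c : ∃ j, r j = Q
  · obtain ⟨j, rfl⟩ := c
    rw [cf_r fm.inj, add_sub_cancel]
  · rw [cf_out _ c, add_zero, Q.ord_prod _ m0, Finset.sum_congr rfl fun Q₀ h => by
      rw [Pl.ord_zpow, hφ Q₀ (hG.mem_toFinset.1 h).1 Q hQ c]]
    simp only [mul_ite, mul_one, mul_zero, Finset.sum_ite_eq', Finite.mem_toFinset, mem_ofPred_eq]
    split_ifs with e
    · rfl
    · exact by_contra fun z => e ⟨hQ, z⟩

end Vale.Agent.P283R.Sq
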