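import Vale.Agent.P283R.Sq.St

/-!
# P283R, block SQ: the Lie algebra
-/

open Set MvPolynomial
open scoped Matrix

noncomputable section

namespace Vale.Agent.P283R.Sq

open Sl

namespace T10

variable {N : ℕ}

/-- the adjoint polynomial -/
def cj (p : MvPolynomial (Fin N × Fin N) ℂ) : MvPolynomial (Fin N × Fin N) ℂ :=
  rename Prod.swap (map (starRingEnd ℂ) p)

theorem at_cj (g : Mat N) (p : MvPolynomial (Fin N × Fin N) ℂ) :
    atMat g (cj p) = starRingEnd ℂ (atMat gᴴ p) := by
  induction p using MvPolynomial.induction_on with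
  | C a => simp [atMat, cj]
  | add p q hp hq =>
    simp only [atMat, cj, map_add] at hp hq ⊢
    rw [hp, hq]
  | mul_X p e hp =>
    simp only [atMat, cj, map_mul] at hp ⊢
    rw [hp]
    simp

theorem pd_cj (e : Fin N × Fin N) (p : MvPolynomial (Fin N × Fin N) ℂ) :
    pderiv e.swap (cj p) = cj (pderiv e p) := by
  rw [cj, cj, pderiv_rename Prod.swap_injective, pderiv_map]

theorem adj {G : Set (Mat N)} (h : ∀ g ∈ G, gᴴ ∈ G) {ξ : Mat N} (t : Tangent G ξ) :
    Tangent G ξᴴ := fun p hp => by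
  have k := congrArg (starRingEnd ℂ) (t (cj p) fun g hg => by rw [at_cj, hp _ (h g hg), map_zero])
  rw [map_zero, map_sum, ← Equiv.sum_comp (Equiv.prodComm (Fin N) (Fin N))] at k
  refine Eq.trans (Finset.sum_congr rfl fun e _ => ?_) k
  rw [Equiv.prodComm_apply, pd_cj, at_cj, map_mul, Matrix.conjTranspose_one, Complex.conj_conj]
  rfl

theorem lin {S : Set (Mat N)} (c : ℂ) {ξ η : Mat N} (a : Tangent S ξ) (b : Tangent S η) :
    Tangent S (c • ξ + η) := fun p hp => by
  have := congrArg₂ (fun u v => c * u + v) (a p hp) (b p hp)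
  simp only [mul_zero, add_zero, Finset.mul_sum, ← Finset.sum_add_distrib] at this
  refine Eq.trans (Finset.sum_congr rfl fun e _ => ?_) this
  rw [Matrix.add_apply, Matrix.smul_apply, smul_eq_mul]
  ring

end T10

open T10

/-- **TAN** -/
theorem tan10 : TAN := fun N L _ _ x G l r R => by
  refine ⟨fun S h ξ t p hp => t p fun g hg => hp g (h hg), fun S c ξ η => lin c,
    fun ξ => ⟨⟨_, adj R.adjoint ξ.2⟩, rfl⟩, fun ξ => ?_⟩
  obtain ⟨β, ⟨b1, b2⟩, b3⟩ := R.gauss _ ξ.2
  obtain ⟨γ, ⟨c1, c2⟩, c3⟩ := R.gauss _ (adj R.adjoint b1)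
  have d : ∀ i j, γᴴ i j = if i = j then β i j else 0 := fun i j => by
    rw [Matrix.conjTranspose_apply]
    rcases lt_trichotomy i j with h | h | h
    · rw [c2 j i h, star_zero, if_neg h.ne]
    · rw [← c3 j i h.ge, Matrix.conjTranspose_apply, star_star, if_pos h]
    · rw [← c3 j i h.le, Matrix.conjTranspose_apply, star_star, b2 i j h, if_neg h.ne']
  refine ⟨⟨_, adj R.adjoint c1⟩, ⟨_, lin (-1) (adj R.adjoint c1) b1⟩, ⟨_, lin (-1) b1 ξ.2⟩, ?_,
    fun i j h => ?_, fun i j h => ?_, fun i j h => ?_⟩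
  · simp
  · exact by_contra fun e => h ((d i j).trans (if_neg e))
  · refine by_contra fun e => h ?_
    change (-1 : ℂ) • γᴴ i j + β i j = 0
    rcases (not_lt.1 e).lt_or_eq with k | k
    · rw [d, if_neg k.ne', b2 i j k]
      simp
    · rw [d, if_pos k.symm]
      simp
  · refine by_contra fun e => h ?_
    change (-1 : ℂ) • β i j + ξ.1 i j = 0
    rw [b3 i j (not_lt.1 e)]
    simp

end Vale.Agent.P283R.Sq
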