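import Vale.Agent.P283R.Sq.Abg32
import Vale.Agent.P283R.Sq.Mem32
import Vale.Agent.P283R.Sq.Com77
import Vale.Agent.P283R.Sq.Der4
import Vale.Agent.P283R.Sq.Dis37
import Vale.Agent.P283R.Sq.Dns19
import Vale.Agent.P283R.Sq.Fac27
import Vale.Agent.P283R.Sq.Fix59
import Vale.Agent.P283R.Sq.Geg93
import Vale.Agent.P283R.Sq.Gen38
import Vale.Agent.P283R.Sq.Ghw57
import Vale.Agent.P283R.Sq.Gwt39
import Vale.Agent.P283R.Sq.Irr56
import Vale.Agent.P283R.Sq.Lat63
import Vale.Agent.P283R.Sq.Lfr58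
import Vale.Agent.P283R.Sq.Loc84
import Vale.Agent.P283R.Sq.Mov53
import Vale.Agent.P283R.Sq.Spn6
import Vale.Agent.P283R.Sq.Sta33
import Vale.Agent.P283R.Sq.Tan10

/-!
# P283R, block SQ: the closed rows
-/

namespace Vale.Agent.P283R.Sq

theorem dis0 : DIS := dis37 spn

theorem mov0 : MOV := mov53 com77 con

theorem irr0 : IRR := irr56 ghw gcr geg tan10 com77 con dis0

theorem lat0 : LAT := lat63 gwt kil dis0 con

theorem abg_of (bas : BAS) (tra : TRA) (bnd : BND) : ABG :=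
  abg gcr geg bas der tan10 com77 lfr dns fac27 uni mov0 tra (sem com77 con tra) bnd lat0

theorem mem_of' (val : VAL) (eqn : EQN) (fam : FAM) : MEM :=
  mem_of val eqn fix59 fam (gen38 sta33) cls33 loc84

end Vale.Agent.P283R.Sq
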