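import Vale.Agent.P283R.Sq.Sb
import Vale.Agent.P283R.Sq.Pre32

/-!
# P283R, block SQ: the spherical action
-/

open Set
open scoped Matrix

noncomputable section

namespace Vale.Agent.P283R.Sq

open Vale.Agent.P287D Sl

attribute [local instance 100] LieRing.ofAssociativeRing

namespace B32

variable {K L : Type} [Field K] [Algebra ℂ K] [Field L] [Algebra ℂ L] {k : ℕ}

/-- the function which is given by a coefficient -/
def co (i : K →ₐ[ℂ] L) (f : Fin k → L) (m : Fin k → ℤ) : Laurent K k →ₗ[ℂ] L where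
  toFun F := i (F.coeff m) * ∏ j, f j ^ m j
  map_add' F F' := by simp [add_mul]
  map_smul' c F := by simp

theorem co_apply (i : K →ₐ[ℂ] L) (f : Fin k → L) (m : Fin k → ℤ) (F : Laurent K k) :
    co i f m F = i (F.coeff m) * ∏ j, f j ^ m j := rfl

theorem co_eq {i : K →ₐ[ℂ] L} {f : Fin k → L} (hf : ∀ j, f j ≠ 0) {m : Fin k → ℤ}
    {F : Laurent K k} {ψ : K} (h : co i f m F = i ψ * ∏ j, f j ^ m j) : F.coeff m = ψ :=
  i.injective (mul_right_cancel₀ (Finset.prod_ne_zero_iff.2 fun j _ => zpow_ne_zero _ (hf j)) h)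

theorem co_zero {i : K →ₐ[ℂ] L} {f : Fin k → L} (hf : ∀ j, f j ≠ 0) {m : Fin k → ℤ}
    {F : Laurent K k} (h : co i f m F = 0) : F.coeff m = 0 :=
  co_eq hf (by rw [h, map_zero, zero_mul])

theorem co_single (i : K →ₐ[ℂ] L) (f : Fin k → L) (m : Fin k → ℤ) (φ : K) :
    co i f m (.single m φ) = i φ * ∏ j, f j ^ m j := by
  simp [co_apply]

theorem co_ne (i : K →ₐ[ℂ] L) (f : Fin k → L) {m m' : Fin k → ℤ} (h : m' ≠ m) (φ : K) :
    co i f m' (.single m φ) = 0 := by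
  simp [co_apply, Finsupp.single_eq_of_ne h]

end B32

open B32 in
/-- **ACT** -/
theorem act_of (lie : LIE) (red : RED) (crs : CRS) (rho : RHO) (orb : ORB) : ACT := by
  intro N L _ _ x G l r D D' hd hb H hH hsp K _ _ i d k f A hK inv hf hA hS
  classical
  obtain ⟨g, Φ, hg, hΦ⟩ := lie N L x G l r D D' hd hb
  obtain ⟨-, -, t3, -⟩ := tan10 N L x G l r hd.red
  obtain ⟨-, -, c3, -⟩ := com77 N L x G l r D D' hd hb
  have f0 : ∀ j, f j ≠ 0 := fun j => (hf j).1
  let ng : g → Lie G := fun a => ⟨-a.1, (hg _).1 (neg_mem a.2)⟩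
  have hΦ' : ∀ a : g, Φ a = D (ng a) := fun a => by
    have := hΦ (-a) (ng a) rfl
    rw [map_neg] at this
    exact neg_injective this
  have iv : ∀ a, ∀ h ∈ H, r h (i a) = i a := fun a h hh => (inv _).1 ⟨a, rfl⟩ _ ⟨h, hh, rfl⟩
  have st : ∀ (a : g) φ, ∃ ψ, Φ a (i φ) = i ψ := fun a φ => by
    obtain ⟨ψ, e⟩ := (inv (Φ a (i φ))).2 (by
      rintro _ ⟨h, hh, rfl⟩
      rw [hΦ', ← (c3 _ h (hH hh) _).1, iv _ h hh])
    exact ⟨ψ, e.symm⟩
  have sf : ∀ (a : g) j, ∃ ψ, Φ a (f j) = i ψ * f j := fun a j => by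
    obtain ⟨ψ, e⟩ := (inv (Φ a (f j) / f j)).2 (by
      rintro _ ⟨h, hh, rfl⟩
      obtain ⟨c, hc⟩ := (hf j).2 _ ⟨h, hh, rfl⟩
      have c0 : c ≠ 0 := by
        rintro rfl
        rw [zero_smul, map_eq_zero] at hc
        exact f0 j hc
      rw [map_div₀, hΦ', ← (c3 _ h (hH hh) _).1, hc, Derivation.map_smul, Algebra.smul_def,
        Algebra.smul_def, mul_div_mul_left _ _ ((map_ne_zero _).2 c0)])
    exact ⟨ψ, by rw [e, div_mul_cancel₀ _ (f0 j)]⟩
  let n : Submodule ℂ (Mat N) :=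
    { carrier := {ν | ∃ h : ν ∈ g, ∀ φ, Φ ⟨ν, h⟩ (i φ) = 0}
      add_mem' := fun {a b} ⟨ha, ha'⟩ ⟨hb, hb'⟩ => ⟨add_mem ha hb, fun φ => by
        rw [show (⟨a + b, add_mem ha hb⟩ : g) = ⟨a, ha⟩ + ⟨b, hb⟩ from rfl, map_add,
          Derivation.add_apply, ha', hb', add_zero]⟩
      zero_mem' := ⟨zero_mem _, fun φ => by
        rw [show (⟨0, zero_mem _⟩ : g) = 0 from rfl, map_zero, Derivation.zero_apply]⟩
      smul_mem' := fun c a ⟨ha, ha'⟩ => ⟨g.smul_mem c ha, fun φ => by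
        rw [show (⟨c • a, g.smul_mem c ha⟩ : g) = c • ⟨a, ha⟩ from rfl, map_smul,
          Derivation.smul_apply, ha', smul_zero]⟩ }
  obtain ⟨g', s, b, le, adj, ss, sol, sum, fai, up⟩ := red N g n
    (fun ξ h => by
      obtain ⟨η, e⟩ := t3 ⟨ξ, (hg _).1 h⟩
      exact (hg _).2 (e ▸ η.2))
    (fun ν h => h.1)
    (fun ξ hξ ν ⟨hν, h⟩ => ⟨g.lie_mem hξ hν, fun φ => by
      obtain ⟨ψ, e⟩ := st ⟨ξ, hξ⟩ φ
      rw [show (⟨ξ * ν - ν * ξ, g.lie_mem hξ hν⟩ : g) = ⁅(⟨ξ, hξ⟩ : g), (⟨ν, hν⟩ : g)⁆ from rfl,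
        LieHom.map_lie, Derivation.commutator_apply, h, e, h, map_zero, sub_zero]⟩)
  let ι : g' → g := fun a => ⟨a.1, le a.2⟩
  obtain ⟨ρ, hρ⟩ := rho K L g' k i f (Φ.comp (LieSubalgebra.inclusion le)) f0
    (fun a => st (ι a)) fun a => sf (ι a)
  replace hρ : ∀ a F m, co i f m (ρ a F) = D (ng (ι a)) (co i f m F) := fun a F m =>
    (hρ a F m).trans (by rw [← hΦ']; rfl)
  have gr : ∀ a m φ ψ, D (ng (ι a)) (i φ * ∏ j, f j ^ m j) = i ψ * ∏ j, f j ^ m j →
      ρ a (.single m φ) = .single m ψ := fun a m φ ψ h => by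
    ext m'
    by_cases e : m' = m
    · subst e
      rw [co_eq f0 ((hρ a _ m').trans ((congrArg _ (co_single i f m' φ)).trans h))]
      simp
    · rw [co_zero f0 ((hρ a _ m').trans ((congrArg _ (co_ne i f e φ)).trans (map_zero _)))]
      simp [Finsupp.single_eq_of_ne e]
  refine ⟨g', inferInstance, inferInstance, s, b, ρ, inferInstance, ss, sol, sum, fun a m φ => ?_,
    fun a ha h => fai a ha ⟨le a.2, fun φ => ?_⟩, fun m φ hφ => ?_, fun W W' h1 h2 h3 h4 => ?_, ?_⟩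
  · by_cases hφ : φ ∈ A m
    · obtain ⟨ψ, h1, h2⟩ := hS m φ hφ (ng (ι a))
      exact ⟨ψ, gr a m φ ψ h2, fun _ => h1⟩
    · refine ⟨_, gr a m φ ((ρ a (.single m φ)).coeff m) ?_, fun h => (hφ h).elim⟩
      rw [← co_single, ← hρ]
      rfl
  · have := hρ a (.single 0 φ) 0
    rw [h, map_zero, co_single] at this
    simp only [Pi.zero_apply, zpow_zero, Finset.prod_const_one, mul_one] at this
    exact (DFunLike.congr_fun (hΦ' (ι a)) _).trans this.symm
  · obtain ⟨n', hn'⟩ := H57.rg_le (hA m φ hφ)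
    have ls := (ghw _ L (zx x) _ (fun ξ : Lie G => Lm ξ.1) D (Bu G) _ hd.hL A32.bu_l).1 n'
    let W : Submodule ℂ (Laurent K k) :=
      (Le (zx x) n').comap (co i f m) ⊓ ⨅ m' : {m' // m' ≠ m}, LinearMap.ker (co i f m'.1)
    have mW : ∀ F, F ∈ W ↔ co i f m F ∈ Le (zx x) n' ∧ ∀ m', m' ≠ m → co i f m' F = 0 :=
      fun F => by simp [W, Submodule.mem_iInf]
    refine ⟨W, fun a F hF => ?_, ?_, (mW _).2 ⟨by rwa [co_single], fun m' e => co_ne i f e φ⟩⟩
    · rw [mW] at hF ⊢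
      exact ⟨hρ a F m ▸ ls _ trivial _ hF.1, fun m' e => by rw [hρ, hF.2 m' e, map_zero]⟩
    · have : Module.Finite ℂ (Le (zx x) n') := by
        unfold Le
        infer_instance
      refine Module.Finite.of_injective ((co i f m).restrict (p := W) (q := Le (zx x) n')
        fun F hF => ((mW F).1 hF).1) ((injective_iff_map_eq_zero _).2 fun F hF => ?_)
      ext m'
      by_cases e : m' = m
      · subst e
        exact co_zero f0 (congrArg Subtype.val hF)
      · exact co_zero f0 (((mW _).1 F.2).2 m' e)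
  · refine crs _ L (zx x) g' (fun a => Lm (-a.1)) (fun a => D (ng (ι a)))
      (fun a => hd.hL (ng (ι a))) (fun a => ⟨⟨a.1ᴴ, adj _ a.2⟩, ?_⟩) (Laurent K k) (Fin k → ℤ)
      (fun a => (ρ a : Laurent K k →ₗ[ℂ] Laurent K k)) (co i f) (fun F h => ?_) (fun F => ?_) hρ
      W W' h1 h2 h3 fun F hF m => hA m _ (h4 F hF m)
    · rw [← A32.lm_adj, Matrix.conjTranspose_neg]
    · ext m
      exact co_zero f0 (h m)
    · refine F.coeff.support.finite_toSet.subset fun m hm => ?_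
      by_contra w
      exact hm (by rw [co_apply, Finsupp.notMem_support_iff.1 w, map_zero, zero_mul])
  · obtain ⟨δ, y, h1, h2⟩ := orb N L x G l r D D' hd hb H hH hsp K i d hK iv
    have ex : ∀ j, ∃ β ∈ b, ∀ φ, D (ng (ι β)) (i φ) = D (δ j) (i φ) := fun j => by
      have m1 : -(δ j).1 ∈ g := neg_mem ((hg _).2 (δ j).2)
      obtain ⟨β, hβ, m2, h⟩ := up _ m1 fun p q w => by
        rw [Matrix.neg_apply, neg_eq_zero]
        by_contra c
        exact (h1 j).elim (fun u => w.ne' (u p q c)) fun u => lt_asymm w (u p q c)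
      refine ⟨β, hβ, fun φ => ?_⟩
      have := h φ
      rw [show (⟨-(δ j).1 - β.1, m2⟩ : g) = ⟨-(δ j).1, m1⟩ - ι β from rfl, map_sub,
        Derivation.sub_apply, sub_eq_zero, hΦ', hΦ'] at this
      rw [← this]
      exact congrArg (fun ξ => D ξ (i φ)) (Subtype.ext (neg_neg _))
    choose β hβ e using ex
    choose ψ hψ using fun j j' => st (ι (β j)) (y j')
    refine ⟨β, y, hβ, ?_⟩
    have e1 : (Matrix.of fun j j' => D (δ j) (i (y j'))) = i.toRingHom.mapMatrix (Matrix.of ψ) := by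
      ext j j'
      rw [Matrix.of_apply, ← e, ← hΦ', hψ]
      rfl
    have e2 : (Matrix.of fun j j' => ρ (β j) (.single 0 (y j'))) =
        (algebraMap K (Laurent K k)).mapMatrix (Matrix.of ψ) := by
      ext1 j j'
      rw [Matrix.of_apply, gr (β j) 0 (y j') (ψ j j') (by simp [← hΦ', hψ])]
      rfl
    rw [e1, ← RingHom.map_det] at h2
    rw [e2, ← RingHom.map_det]
    exact fun c => h2 (by
      rw [(injective_iff_map_eq_zero _).1 (algebraMap K (Laurent K k)).injective _ c, map_zero])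

end Vale.Agent.P283R.Sq
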