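import Vale.Agent.P283R.Sq.Sb

/-!
# P283R, block SQ: the orthogonal complement of an ideal
-/

open Set
open scoped Matrix ComplexOrder

noncomputable section

namespace Vale.Agent.P283R.Sq

open Sl

namespace C56

variable {N : ℕ}

theorem def0 {x : Mat N} (h : (xᴴ * x).trace = 0) : x = 0 :=
  Matrix.trace_conjTranspose_mul_self_eq_zero_iff.1 h

theorem adj (x ξ y : Mat N) :
    (xᴴ * (ξ * y - y * ξ)).trace = ((ξᴴ * x - x * ξᴴ)ᴴ * y).trace := by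
  simp only [Matrix.conjTranspose_sub, Matrix.conjTranspose_mul, Matrix.conjTranspose_conjTranspose,
    Matrix.mul_sub, Matrix.sub_mul, Matrix.trace_sub, Matrix.mul_assoc]
  rw [Matrix.trace_mul_comm ξ, Matrix.mul_assoc]

/-- the matrices as a Euclidean space -/
def eu (N : ℕ) : Mat N →ₗ[ℂ] EuclideanSpace ℂ (Fin N × Fin N) where
  toFun x := WithLp.toLp 2 fun e => x e.1 e.2
  map_add' _ _ := rfl
  map_smul' _ _ := rfl

theorem eu_inner (x y : Mat N) : inner ℂ (eu N x) (eu N y) = (xᴴ * y).trace := by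
  simp only [eu, PiLp.inner_apply, Matrix.trace, Matrix.diag,
    Matrix.mul_apply, Matrix.conjTranspose_apply, Fintype.sum_prod_type, RCLike.inner_apply]
  rw [Finset.sum_comm]
  exact Finset.sum_congr rfl fun _ _ => Finset.sum_congr rfl fun _ _ => mul_comm _ _

theorem prj (I : Submodule ℂ (Mat N)) (ξ : Mat N) :
    ∃ b ∈ I, ∀ ν ∈ I, (νᴴ * (ξ - b)).trace = 0 := by
  obtain ⟨_, ⟨b, hb, rfl⟩, z, hz, h⟩ :=
    Submodule.exists_add_mem_mem_orthogonal (K := I.map (eu N)) (eu N ξ)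
  refine ⟨b, hb, fun ν hν => ?_⟩
  rw [← eu_inner, map_sub, h, add_sub_cancel_left]
  exact hz _ ⟨ν, hν, rfl⟩

end C56

attribute [local instance 100] LieRing.ofAssociativeRing

theorem cmp56 : CMP := by
  intro N g I ha hI hi hc
  let S : Submodule ℂ (Mat N) :=
    { carrier := {u | u ∈ g ∧ ∀ ν ∈ I, (νᴴ * u).trace = 0}
      add_mem' := fun {a b} h h' => ⟨g.add_mem h.1 h'.1, fun ν hν => by
        rw [Matrix.mul_add, Matrix.trace_add, h.2 ν hν, h'.2 ν hν, add_zero]⟩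
      zero_mem' := ⟨g.zero_mem, fun ν _ => by simp⟩
      smul_mem' := fun r a h => ⟨g.smul_mem r h.1, fun ν hν => by
        rw [Matrix.mul_smul, Matrix.trace_smul, h.2 ν hν, smul_zero]⟩ }
  have mS : ∀ u, u ∈ S ↔ u ∈ g ∧ ∀ ν ∈ I, (νᴴ * u).trace = 0 := fun _ => Iff.rfl
  have id : ∀ ξ ∈ g, ∀ u ∈ S, ξ * u - u * ξ ∈ S := fun ξ hξ u hu =>
    (mS _).2 ⟨g.lie_mem hξ hu.1, fun ν hν => by
      rw [C56.adj]
      exact hu.2 _ (hi _ (ha ξ hξ) ν hν)⟩
  have dj : ∀ u ∈ S, u ∈ I → u = 0 := fun u hu h => C56.def0 (hu.2 u h)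
  have sp : ∀ ξ ∈ g, ∃ u ∈ S, ξ - u ∈ I := fun ξ hξ => by
    obtain ⟨b, hb, h⟩ := C56.prj I ξ
    exact ⟨ξ - b, ⟨g.sub_mem hξ (hI b hb), h⟩, by simpa using hb⟩
  have cm : ∀ u ∈ S, ∀ ν ∈ I, u * ν - ν * u = 0 := fun u hu ν hν => by
    refine dj _ ?_ (hi u hu.1 ν hν)
    have := S.neg_mem (id ν (hI ν hν) u hu)
    rwa [neg_sub] at this
  refine ⟨S, fun u hu => ⟨hu.1, ?_⟩, id, dj, sp⟩
  obtain ⟨a, hA, hb⟩ := sp uᴴ (ha u hu.1)
  obtain ⟨b, e⟩ : ∃ b, uᴴ - a = b := ⟨_, rfl⟩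
  rw [e] at hb
  have c1 : ∀ ν ∈ I, uᴴ * ν - ν * uᴴ = 0 := fun ν hν => by
    refine C56.def0 ?_
    rw [C56.adj, Matrix.conjTranspose_conjTranspose, cm u hu _ (hi _ (ha u hu.1) ν hν)]
    simp
  have c2 : ∀ ξ ∈ g, b * ξ = ξ * b := fun ξ hξ => by
    obtain ⟨v, hv, hν⟩ := sp ξ hξ
    have h1 := sub_eq_zero.1 (c1 _ hν)
    have h2 := sub_eq_zero.1 (cm a hA _ hν)
    have h3 := sub_eq_zero.1 (cm v hv b hb)
    have h4 : b * (ξ - v) = (ξ - v) * b := by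
      rw [← e, Matrix.sub_mul, h1, h2, ← Matrix.mul_sub]
    rw [Matrix.mul_sub, Matrix.sub_mul, h3] at h4
    exact sub_left_injective h4
  have c3 : bᴴ ∈ I := hc _ (ha b (hI b hb)) fun ξ hξ => by
    have := congrArg Matrix.conjTranspose (c2 _ (ha ξ hξ))
    simpa using this.symm
  have c4 : (bᴴ * uᴴ).trace = 0 := by
    have := hu.2 _ c3
    rw [Matrix.conjTranspose_conjTranspose, Matrix.trace_mul_comm] at this
    rw [← Matrix.conjTranspose_mul, Matrix.trace_conjTranspose, this, star_zero]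
  have c5 : b = 0 := by
    refine C56.def0 ?_
    have : (bᴴ * (uᴴ - a)).trace = 0 := by
      rw [Matrix.mul_sub, Matrix.trace_sub, c4, hA.2 b hb, sub_zero]
    rwa [e] at this
  rw [c5, sub_eq_zero] at e
  rwa [e]

end Vale.Agent.P283R.Sq
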