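import Vale.Agent.P283R.Sq.Sb
import Vale.Agent.P283R.Sq.Ghw57

/-!
# P283R, block SQ: invariant complements
-/

open Set MvPolynomial
open scoped Matrix

noncomputable section

namespace Vale.Agent.P283R.Sq

open Sp.C38 (ap ap_smul ap_sum ap_self ap_mon fc)

namespace R59

variable {s F : Type} [Fintype s] [DecidableEq s] [Fintype F]

/-- the form on families of polynomials -/
def bf (q : F → MvPolynomial s ℂ) : (F → MvPolynomial s ℂ) →ₗ[ℂ] ℂ :=
  ∑ m, (ap (q m)).comp (LinearMap.proj m)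

omit [DecidableEq s] in
theorem bf_eq (q p : F → MvPolynomial s ℂ) : bf q p = ∑ m, ap (q m) (p m) := by
  simp [bf]

omit [DecidableEq s] in
theorem ap_nn (p : MvPolynomial s ℂ) : ∃ r : ℝ, 0 ≤ r ∧ ap p p = r := by
  refine ⟨∑ m ∈ p.support, (fc m : ℝ) * Complex.normSq (coeff m p), Finset.sum_nonneg fun m _ =>
    mul_nonneg (Nat.cast_nonneg _) (Complex.normSq_nonneg _), ?_⟩
  conv_lhs => rw [congrArg (ap p) p.as_sum]
  rw [map_sum]
  push_cast
  refine Finset.sum_congr rfl fun m _ => ?_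
  rw [ap_mon, ← Complex.mul_conj]
  simp only [Complex.star_def]
  ring

theorem bf_self {p : F → MvPolynomial s ℂ} (h : bf p p = 0) : p = 0 := by
  choose r r0 e using fun m => ap_nn (p m)
  rw [bf_eq] at h
  simp only [e] at h
  rw [← Complex.ofReal_sum, Complex.ofReal_eq_zero,
    Finset.sum_eq_zero_iff_of_nonneg fun m _ => r0 m] at h
  exact funext fun m => ap_self (by rw [e, h m (Finset.mem_univ m), Complex.ofReal_zero])

theorem orth (W' W : Submodule ℂ (F → MvPolynomial s ℂ)) [FiniteDimensional ℂ W] (le : W' ≤ W)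
    (ne : W' ≠ W) : ∃ v ∈ W, v ≠ 0 ∧ ∀ q ∈ W', bf q v = 0 := by
  have : FiniteDimensional ℂ W' := Submodule.finiteDimensional_of_le le
  let b := Module.finBasis ℂ W'
  let φ : W →ₗ[ℂ] Fin (Module.finrank ℂ W') → ℂ :=
    LinearMap.pi fun i => (bf (b i : F → MvPolynomial s ℂ)).comp W.subtype
  have k : LinearMap.ker φ ≠ ⊥ := fun e => by
    have := LinearMap.finrank_le_finrank_of_injective (LinearMap.ker_eq_bot.1 e)
    rw [Module.finrank_fin_fun] at this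
    exact ne (Submodule.eq_of_le_of_finrank_le le this)
  obtain ⟨v, hv, v0⟩ := (Submodule.ne_bot_iff _).1 k
  refine ⟨v, v.2, fun e => v0 (Subtype.ext e), fun q hq => ?_⟩
  have e := congrArg Subtype.val (b.sum_repr ⟨q, hq⟩)
  simp only [AddSubmonoidClass.coe_finsetSum, SetLike.val_smul] at e
  rw [← e, bf_eq]
  simp only [Finset.sum_apply, ap_sum, Pi.smul_apply, ap_smul]
  rw [Finset.sum_comm]
  refine Finset.sum_eq_zero fun i _ => ?_
  have := congrFun (LinearMap.mem_ker.1 hv) i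
  simp only [φ, LinearMap.pi_apply, LinearMap.comp_apply, Submodule.subtype_apply,
    Pi.zero_apply, bf_eq] at this
  rw [← Finset.mul_sum, this, mul_zero]

end R59

open R59 in
/-- **CRS** -/
theorem crs59 : CRS := by
  intro s L _ _ _ z J M D hl ad V ι _ _ θ c inj fin cm W W' sW sW' le rg
  classical
  let St : Submodule ℂ V → Prop := fun Y => ∀ a, ∀ v ∈ Y, θ a v ∈ Y
  have sup : ∀ Y Y', St Y → St Y' → St (Y ⊔ Y') := fun Y Y' h h' a v hv => by
    obtain ⟨x, hx, y, hy, rfl⟩ := Submodule.mem_sup.1 hv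
    rw [map_add]
    exact Submodule.add_mem_sup (h a x hx) (h' a y hy)
  have step : ∀ U, St U → U ≤ W' → ∀ v ∈ W', v ∉ U →
      ∃ Y, St Y ∧ Y ≤ W' ∧ Disjoint U Y ∧ Y ≠ ⊥ := fun U sU uW v hv vU => by
    let F := (fin v).toFinset
    choose p hp using rg v hv
    let n := F.sup fun m => (p m).totalDegree
    let Rp : Submodule ℂ ((F → MvPolynomial s ℂ) × V) :=
      { carrier := {x | (∀ m, x.1 m ∈ restrictTotalDegree s ℂ n) ∧
          (∀ m : F, aeval z (x.1 m) = c m x.2) ∧ ∀ m ∉ F, c m x.2 = 0}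
        add_mem' := fun a b => ⟨fun m => add_mem (a.1 m) (b.1 m), fun m => by
          simp [a.2.1 m, b.2.1 m], fun m h => by simp [a.2.2 m h, b.2.2 m h]⟩
        zero_mem' := ⟨fun _ => zero_mem _, fun _ => by simp, fun _ _ => by simp⟩
        smul_mem' := fun r _ a => ⟨fun m => Submodule.smul_mem _ r (a.1 m), fun m => by
          simp [a.2.1 m], fun m h => by simp [a.2.2 m h]⟩ }
    let T : J → (F → MvPolynomial s ℂ) → F → MvPolynomial s ℂ := fun a q m => C57.op (M a)ᵀ (q m)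
    have rT : ∀ a q w, (q, w) ∈ Rp → (T a q, θ a w) ∈ Rp := fun a q w h =>
      ⟨fun m => C57.deg _ (h.1 m), fun m => (H57.lift (hl a) _).symm.trans
        ((congrArg (D a) (h.2.1 m)).trans (cm a w m).symm),
        fun m x => (cm a w m).trans ((congrArg (D a) (h.2.2 m x)).trans (map_zero _))⟩
    have uq : ∀ q w w', (q, w) ∈ Rp → (q, w') ∈ Rp → w = w' := fun q w w' h h' =>
      sub_eq_zero.1 (inj _ fun m => by
        rw [map_sub, sub_eq_zero]
        by_cases x : m ∈ F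
        · exact (h.2.1 ⟨m, x⟩).symm.trans (h'.2.1 ⟨m, x⟩)
        · exact (h.2.2 m x).trans (h'.2.2 m x).symm)
    let pl : Submodule ℂ V → Submodule ℂ (F → MvPolynomial s ℂ) := fun Y =>
      (Rp ⊓ Y.comap (LinearMap.snd ℂ _ _)).map (LinearMap.fst ℂ _ _)
    have mp : ∀ Y q, q ∈ pl Y ↔ ∃ w ∈ Y, (q, w) ∈ Rp := fun Y q =>
      ⟨fun ⟨x, h, e⟩ => ⟨x.2, h.2, e ▸ h.1⟩, fun ⟨w, h, r⟩ => ⟨(q, w), ⟨r, h⟩, rfl⟩⟩
    have sp : ∀ Y, St Y → ∀ a, ∀ q ∈ pl Y, T a q ∈ pl Y := fun Y sY a q h =>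
      let ⟨w, h, r⟩ := (mp Y q).1 h
      (mp Y _).2 ⟨_, sY a w h, rT a q w r⟩
    have fd : FiniteDimensional ℂ (pl W') :=
      have : FiniteDimensional ℂ (Submodule.pi univ fun _ : F => restrictTotalDegree s ℂ n) :=
        Module.Finite.iff_fg.2 (Submodule.fg_pi fun _ => Module.Finite.iff_fg.1 inferInstance)
      Submodule.finiteDimensional_of_le (S₂ := Submodule.pi univ fun _ : F =>
        restrictTotalDegree s ℂ n) fun q h m _ => let ⟨_, _, r⟩ := (mp _ q).1 h; r.1 m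
    have rv : (fun m : F => p m, v) ∈ Rp := ⟨fun m => (mem_restrictTotalDegree _ _ _).2
      (Finset.le_sup (f := fun m => (p m).totalDegree) m.2), fun m => hp m,
      fun m x => by_contra fun e => x ((fin v).mem_toFinset.2 e)⟩
    obtain ⟨u, hu, u0, o⟩ := orth (pl U) (pl W')
      (fun q h => let ⟨w, h, r⟩ := (mp _ q).1 h; (mp _ q).2 ⟨w, uW h, r⟩) fun e => by
        obtain ⟨w, h, r⟩ := (mp U _).1 (e ▸ (mp W' _).2 ⟨v, hv, rv⟩)
        exact vU (uq _ _ _ r rv ▸ h)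
    let O : Submodule ℂ (F → MvPolynomial s ℂ) := ⨅ (q) (_ : q ∈ pl U), LinearMap.ker (bf q)
    have mO : ∀ x, x ∈ O ↔ ∀ q ∈ pl U, bf q x = 0 := fun x => by
      simp only [O, Submodule.mem_iInf, LinearMap.mem_ker]
    let Y := ((Rp ⊓ O.comap (LinearMap.fst ℂ _ _)).map (LinearMap.snd ℂ _ _)) ⊓ W'
    have mY : ∀ w, w ∈ Y ↔ (∃ q ∈ O, (q, w) ∈ Rp) ∧ w ∈ W' := fun w => and_congr_left'
      ⟨fun ⟨x, h, e⟩ => ⟨x.1, h.2, e ▸ h.1⟩, fun ⟨q, h, r⟩ => ⟨(q, w), ⟨r, h⟩, rfl⟩⟩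
    refine ⟨Y, fun a w h => ?_, inf_le_right, Submodule.disjoint_def.2 fun w h h' => ?_, ?_⟩
    · obtain ⟨⟨q, hq, r⟩, h⟩ := (mY w).1 h
      refine (mY _).2 ⟨⟨_, (mO _).2 fun x hx => ?_, rT a q w r⟩, sW' a w h⟩
      obtain ⟨a', e⟩ := ad a
      rw [← (mO q).1 hq _ (sp U sU a' x hx), bf_eq, bf_eq]
      refine Finset.sum_congr rfl fun m _ => (C57.adj _ _ _).trans ?_
      simp only [T, e]
      rfl
    · obtain ⟨⟨q, hq, r⟩, -⟩ := (mY w).1 h'
      obtain rfl := bf_self ((mO q).1 hq q ((mp U q).2 ⟨w, h, r⟩))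
      exact uq _ _ _ r Rp.zero_mem
    · obtain ⟨w, h, r⟩ := (mp _ u).1 hu
      refine (Submodule.ne_bot_iff _).2 ⟨w, (mY w).2 ⟨⟨u, (mO u).2 o, r⟩, h⟩, ?_⟩
      rintro rfl
      exact u0 (bf_self (o u ((mp U u).2 ⟨0, U.zero_mem, r⟩)))
  obtain ⟨W₁, -, mx⟩ := zorn_le_nonempty₀ {Y | St Y ∧ Y ≤ W' ∧ Disjoint W Y}
    (fun C hC ch y hy => by
      have mem : ∀ {v}, v ∈ sSup C ↔ ∃ Y ∈ C, v ∈ Y :=
        Submodule.mem_sSup_of_directed ⟨y, hy⟩ ch.directedOn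
      refine ⟨sSup C, ⟨fun a v h => ?_, sSup_le fun Y h => (hC h).2.1,
        Submodule.disjoint_def.2 fun v h h' => ?_⟩, fun Y h => le_sSup h⟩
      · obtain ⟨Y, h, e⟩ := mem.1 h
        exact mem.2 ⟨Y, h, (hC h).1 a v e⟩
      · obtain ⟨Y, h', e⟩ := mem.1 h'
        exact Submodule.disjoint_def.1 (hC h').2.2 v h e)
    ⊥ ⟨fun a v h => by rw [(Submodule.mem_bot ℂ).1 h, map_zero]; exact zero_mem _, bot_le,
      disjoint_bot_right⟩
  obtain ⟨s1, l1, d1⟩ := mx.prop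
  refine ⟨W₁, s1, d1, le_antisymm (sup_le le l1) fun v hv => by_contra fun h => ?_⟩
  obtain ⟨Y, sY, lY, dY, nY⟩ := step _ (sup _ _ sW s1) (sup_le le l1) v hv h
  have := mx.le_of_ge ⟨sup _ _ s1 sY, sup_le l1 lY,
    d1.disjoint_sup_right_of_disjoint_sup_left dY⟩ le_sup_left
  exact nY (dY.symm.eq_bot_of_le ((le_sup_right.trans this).trans le_sup_right))

end Vale.Agent.P283R.Sq
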