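import Vale.Agent.P283R.Sq.Sb

/-!
# P283R, block SB: self-adjoint with trivial centre is semisimple
-/

open Set
open scoped Matrix ComplexOrder

noncomputable section

namespace Vale.Agent.P283R.Sq

open Vale.Agent.P287D Sl

attribute [local instance 100] LieRing.ofAssociativeRing

namespace K63

theorem tr_cyc {N : ℕ} (X A Y : Mat N) :
    ((X * A - A * X) * Y).trace = (X * (A * Y - Y * A)).trace := by
  rw [sub_mul, mul_sub, Matrix.trace_sub, Matrix.trace_sub, mul_assoc X A Y, mul_assoc A X Y,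
    Matrix.trace_mul_comm A (X * Y), mul_assoc X Y A]

theorem key {N : ℕ} (A B C W : Mat N) (hC : C = A * B - B * A) (hW : W = Aᴴ * C - C * Aᴴ)
    (h : A * W - W * A = 0) : C = 0 := by
  have hs : Wᴴ = Cᴴ * A - A * Cᴴ := by
    rw [hW, Matrix.conjTranspose_sub, Matrix.conjTranspose_mul, Matrix.conjTranspose_mul,
      Matrix.conjTranspose_conjTranspose]
  have h0 : W = 0 := by
    rw [← Matrix.trace_conjTranspose_mul_self_eq_zero_iff, hs, tr_cyc, h, mul_zero,
      Matrix.trace_zero]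
  have h1 : Cᴴ * A - A * Cᴴ = 0 := by rw [← hs, h0, Matrix.conjTranspose_zero]
  have h2 := tr_cyc Cᴴ A B
  rw [h1, zero_mul, Matrix.trace_zero, ← hC] at h2
  exact Matrix.trace_conjTranspose_mul_self_eq_zero_iff.1 h2.symm

end K63

theorem klg63 : KLG := by
  intro N S _ _ φ hinj hstar hcen
  have : Module.Finite ℂ S := Module.Finite.of_injective φ.toLinearMap hinj
  have hbr : ∀ a b : S, φ ⁅a, b⁆ = φ a * φ b - φ b * φ a := fun a b => by
    rw [LieHom.map_lie, LieRing.of_associative_ring_bracket]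
  let Φ : LinearMap.BilinForm ℂ S := LinearMap.mk₂ ℂ (fun a b => (φ a * φ b).trace)
    (fun a b c => by rw [map_add, add_mul, Matrix.trace_add])
    (fun c a b => by rw [map_smul, smul_mul_assoc, Matrix.trace_smul])
    (fun a b c => by rw [map_add, mul_add, Matrix.trace_add])
    (fun c a b => by rw [map_smul, mul_smul_comm, Matrix.trace_smul])
  have hΦ : ∀ a b, Φ a b = (φ a * φ b).trace := fun a b => rfl
  have hsym : ∀ a b, Φ a b = Φ b a := fun a b => by rw [hΦ, hΦ, Matrix.trace_mul_comm]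
  have hsep : ∀ a, (∀ b, Φ a b = 0) → a = 0 := by
    intro a ha
    obtain ⟨a', h'⟩ := hstar a
    have h1 := ha a'
    rw [hΦ, h', Matrix.trace_mul_conjTranspose_self_eq_zero_iff] at h1
    exact hinj (by rw [h1, map_zero])
  refine LieAlgebra.InvariantForm.isSemisimple_of_nondegenerate Φ
    ⟨hsep, fun b hb => hsep b fun a => by rw [hsym]; exact hb a⟩ ?_
    (fun a b h => by rw [hsym]; exact h) ?_
  · intro x y z
    rw [hΦ, hΦ, hbr, hbr, ← K63.tr_cyc, ← Matrix.trace_neg, ← neg_mul, neg_sub]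
  · intro I hI hab
    apply hI.1
    rw [eq_bot_iff]
    intro a ha
    rw [LieSubmodule.mem_bot]
    refine hcen a fun b => ?_
    obtain ⟨a', h'⟩ := hstar a
    have hc : ⁅a, b⁆ ∈ I := lie_mem_left ℂ S I a b ha
    have hw : ⁅a', ⁅a, b⁆⁆ ∈ I := lie_mem_right ℂ S I a' _ hc
    have h0 : ⁅a, ⁅a', ⁅a, b⁆⁆⁆ = 0 := by
      have h1 := hab.trivial (⟨a, ha⟩ : I) ⟨_, hw⟩
      exact congrArg Subtype.val h1
    have h2 : φ ⁅a, b⁆ = 0 :=
      K63.key (φ a) (φ b) (φ ⁅a, b⁆) (φ ⁅a', ⁅a, b⁆⁆) (hbr a b) (by rw [hbr a', h'])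
        (by rw [← hbr, h0, map_zero])
    exact hinj (by rw [h2, map_zero])

end Vale.Agent.P283R.Sq
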