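import Vale.Agent.P283R.Sq.Sb
import Vale.Agent.P283R.Sq.Spn6

/-!
# P283R, block SQ: the tangent space is a Lie algebra, which acts by the vector fields
-/

open Set

noncomputable section

namespace Vale.Agent.P283R.Sq

open Vale.Agent.P287D Sl C6

attribute [local instance 100] LieRing.ofAssociativeRing

namespace L6

variable {N : ℕ} {L : Type} [Field L] [Algebra ℂ L] {x : Matrix (Fin N) (Fin N) L}
  {G : Set (Mat N)} {l r : Mat N → L ≃ₐ[ℂ] L} {D D' : Lie G → Derivation ℂ L L}

/-- the bracket of two left fields -/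
theorem br (g : Gd x G l r D D') (ξ η : Lie G) (a b : Fin N) : ⁅D ξ, D η⁆ (x a b) =
    ((η.1 * ξ.1 - ξ.1 * η.1).map (algebraMap ℂ L) * x) a b := by
  have k : ∀ ξ η : Lie G, D ξ (D η (x a b)) = ((η.1 * ξ.1).map (algebraMap ℂ L) * x) a b :=
    fun ξ η => by
      rw [lin_l (g.hL η), Matrix.map_mul, mul_assoc, Matrix.mul_apply, Matrix.mul_apply, map_sum]
      refine Finset.sum_congr rfl fun c _ => ?_
      rw [Derivation.leibniz, Matrix.map_apply, Derivation.map_algebraMap, smul_zero, add_zero,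
        lin_l (g.hL ξ), smul_eq_mul]
  rw [Derivation.commutator_apply, k, k, Matrix.map_sub _ (map_sub _), sub_mul]
  rfl

/-- the tangent space is closed under the bracket -/
theorem tg (g : Gd x G l r D D') (b : Bas x G l r) (ξ η : Lie G) :
    Tangent G (η.1 * ξ.1 - ξ.1 * η.1) := by
  obtain ⟨Λ, hΛ⟩ := (Algebra.linearMap ℂ L).exists_leftInverse_of_injective
    (LinearMap.ker_eq_bot.2 (algebraMap ℂ L).injective)
  have := (spn N L x G l r g.red b ⁅D ξ, D η⁆ Λ).2
  have e : x.map (⁅D ξ, D η⁆ : Derivation ℂ L L) =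
      (η.1 * ξ.1 - ξ.1 * η.1).map (algebraMap ℂ L) * x :=
    Matrix.ext (br g ξ η)
  rw [e, mul_assoc, Matrix.mul_adjugate, g.red.det, one_smul, mul_one] at this
  have e' : ((η.1 * ξ.1 - ξ.1 * η.1).map (algebraMap ℂ L)).map Λ = η.1 * ξ.1 - ξ.1 * η.1 :=
    Matrix.ext fun a b => LinearMap.congr_fun hΛ _
  rwa [e'] at this

end L6

open L6

/-- **LIE** -/
theorem lie6 : LIE := fun N L _ _ x G l r D D' g b => by
  let W : LieSubalgebra ℂ (Mat N) :=
    { carrier := {ξ | Tangent G ξ}
      zero_mem' := fun p _ => by simp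
      add_mem' := fun {a b} ha hb p hp => by
        simp only [Matrix.add_apply, add_mul, Finset.sum_add_distrib, ha p hp, hb p hp, add_zero]
      smul_mem' := fun c a ha p hp => by
        simp only [Matrix.smul_apply, smul_eq_mul, mul_assoc, ← Finset.mul_sum, ha p hp,
          mul_zero]
      lie_mem' := fun {ξ η} hξ hη => tg g b ⟨η, hη⟩ ⟨ξ, hξ⟩ }
  let Φ : W →ₗ⁅ℂ⁆ Derivation ℂ L L :=
    { toFun := fun ξ => -D ⟨ξ.1, ξ.2⟩
      map_add' := fun ξ η => b.exd _ _ fun e => by
        simp only [zx, Derivation.add_apply, Derivation.neg_apply, lin_l (g.hL _)]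
        rw [← neg_add, ← Matrix.add_apply, ← add_mul, ← Matrix.map_add _ (map_add _)]
        rfl
      map_smul' := fun c ξ => b.exd _ _ fun e => by
        simp only [zx, Derivation.smul_apply, Derivation.neg_apply, lin_l (g.hL _),
          RingHom.id_apply, smul_neg, Matrix.mul_apply, Finset.smul_sum, Matrix.map_apply]
        refine congrArg _ (Finset.sum_congr rfl fun j _ => ?_)
        rw [Algebra.smul_def, ← mul_assoc, ← map_mul]
        rfl
      map_lie' := fun {ξ η} => b.exd _ _ fun e => by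
        rw [neg_lie, lie_neg, neg_neg]
        refine Eq.trans ?_ (br g ⟨ξ.1, ξ.2⟩ ⟨η.1, η.2⟩ e.1 e.2).symm
        rw [Derivation.neg_apply, zx, lin_l (g.hL _), ← Matrix.neg_apply, ← neg_mul,
          ← Matrix.map_neg _ (map_neg _), ← neg_sub (ξ.1 * η.1)]
        rfl }
  refine ⟨W, Φ, fun _ => Iff.rfl, fun ξ ξ' h => ?_⟩
  have : ξ' = ⟨ξ.1, ξ.2⟩ := Subtype.ext h
  rw [this]
  rfl

end Vale.Agent.P283R.Sq
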