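import Vale.Agent.P283R.Sq.Sb
import Vale.Agent.P283R.Sg.All2

/-!
# P283R, block SQ: no bound for the size of the group
-/

open CategoryTheory AlgebraicGeometry

namespace Vale.Agent.P283R.Sl

open Var

theorem on_sqb_of (h : Sq.BRG) : On fun _ _ _ f ω B z => FanoType f ω ∧
    NefOver f (-logCan ω B) ∧ ∃ W N, z.In W ∧ IsSpherical N (pre f W) := by
  intro d hd ε hε R hR
  obtain ⟨n, hn, H⟩ := on_sg2 d hd ε hε R hR
  refine ⟨n, hn, fun X Z f ω B z a b c e s t ⟨u, v, W, N, p, q⟩ =>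
    H X Z f ω B z a b c e s t ⟨u, v, W, p, h N d X _ hd a ?_ q⟩⟩
  obtain ⟨x₀, hx₀⟩ := s.2.2.1.surj z
  exact ⟨x₀, show f x₀ ∈ W from hx₀ ▸ p⟩

end Vale.Agent.P283R.Sl
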