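import Vale.Agent.P283R.Sq.St

/-!
# P283R, block SQ: from the group to the Lie algebra (rows LFR and KIL)
-/

open Set MvPolynomial

noncomputable section

namespace Vale.Agent.P283R.Sq

open Vale.Agent.P287D Sl

namespace L58

variable {N : ℕ} {L : Type} [Field L] [Algebra ℂ L]

/-- the value at a complex matrix -/
def ev (g : Mat N) : MvPolynomial (Fin N × Fin N) L →+* L :=
  eval fun e => algebraMap ℂ L (g e.1 e.2)

/-- the derivative at the unit matrix -/
def dr (ξ : Mat N) (P : MvPolynomial (Fin N × Fin N) L) : L :=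
  ∑ e : Fin N × Fin N, ξ e.1 e.2 • ev 1 (pderiv e P)

theorem ev_C (g : Mat N) (c : L) : ev g (C c) = c := by simp [ev]

theorem ev_X (g : Mat N) (e : Fin N × Fin N) :
    ev g (X e : MvPolynomial _ L) = algebraMap ℂ L (g e.1 e.2) := by simp [ev]

theorem ev_map (g : Mat N) (p : MvPolynomial (Fin N × Fin N) ℂ) :
    ev g (map (algebraMap ℂ L) p) = algebraMap ℂ L (atMat g p) := by
  induction p using MvPolynomial.induction_on with
  | C a => simp [ev, atMat]
  | add p q hp hq => simp only [atMat, map_add] at *; rw [hp, hq]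
  | mul_X p e hp =>
    simp only [atMat, map_mul, map_X, ev_X, aeval_X] at *
    rw [hp]

theorem dr_add (ξ : Mat N) (P Q : MvPolynomial (Fin N × Fin N) L) :
    dr ξ (P + Q) = dr ξ P + dr ξ Q := by
  simp only [dr, map_add, smul_add, Finset.sum_add_distrib]

theorem dr_sub (ξ : Mat N) (P Q : MvPolynomial (Fin N × Fin N) L) :
    dr ξ (P - Q) = dr ξ P - dr ξ Q := by
  simp only [dr, map_sub, smul_sub, Finset.sum_sub_distrib]

theorem dr_mul (ξ : Mat N) (P Q : MvPolynomial (Fin N × Fin N) L) :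
    dr ξ (P * Q) = ev 1 P * dr ξ Q + ev 1 Q * dr ξ P := by
  simp only [dr, Derivation.leibniz, smul_eq_mul, map_add, map_mul, smul_add,
    Finset.sum_add_distrib, Finset.mul_sum, mul_smul_comm]

theorem dr_C (ξ : Mat N) (c : L) : dr ξ (C c) = 0 := by simp [dr]

theorem dr_X (ξ : Mat N) (e : Fin N × Fin N) :
    dr ξ (X e : MvPolynomial _ L) = algebraMap ℂ L (ξ e.1 e.2) := by
  classical
  unfold dr
  rw [Finset.sum_eq_single e]
  · simp [Algebra.smul_def]
  · intro b _ hb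
    rw [pderiv_X_of_ne (Ne.symm hb)]
    simp
  · simp

theorem dr_sum {ι : Type} (ξ : Mat N) (T : Finset ι) (P : ι → MvPolynomial (Fin N × Fin N) L) :
    dr ξ (∑ i ∈ T, P i) = ∑ i ∈ T, dr ξ (P i) := by
  simp only [dr, map_sum, Finset.smul_sum]
  exact Finset.sum_comm

theorem fn (ξ : Mat N) (Λ : L →ₗ[ℂ] ℂ) (P : MvPolynomial (Fin N × Fin N) L) :
    ∃ q : MvPolynomial (Fin N × Fin N) ℂ, (∀ g : Mat N, atMat g q = Λ (ev g P)) ∧
      ∑ e : Fin N × Fin N, ξ e.1 e.2 * atMat (1 : Mat N) (pderiv e q) = Λ (dr ξ P) := by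
  induction P using MvPolynomial.induction_on' with
  | monomial m c =>
    have e1 : (monomial m c : MvPolynomial (Fin N × Fin N) L) =
        C c * map (algebraMap ℂ L) (monomial m 1) := by
      simp [C_mul_monomial]
    refine ⟨C (Λ c) * monomial m 1, fun g => ?_, ?_⟩
    · rw [e1, map_mul, ev_C, ev_map, mul_comm c, ← Algebra.smul_def, map_smul]
      simp [atMat, mul_comm]
    · rw [e1, dr, map_sum]
      refine Finset.sum_congr rfl fun e _ => ?_
      rw [pderiv_C_mul, pderiv_C_mul, pderiv_map, map_mul, ev_C, ev_map, mul_comm c,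
        ← Algebra.smul_def, map_smul, map_smul]
      simp [atMat, mul_comm]
  | add P Q hP hQ =>
    obtain ⟨p, p1, p2⟩ := hP
    obtain ⟨q, q1, q2⟩ := hQ
    refine ⟨p + q, fun g => ?_, ?_⟩
    · rw [map_add, map_add, ← p1, ← q1]; simp [atMat]
    · rw [dr_add, map_add, ← p2, ← q2, ← Finset.sum_add_distrib]
      refine Finset.sum_congr rfl fun e _ => ?_
      simp [atMat, mul_add]

theorem key {S : Set (Mat N)} {ξ : Mat N} (h : Tangent S ξ) (W : Submodule ℂ L)
    (P : MvPolynomial (Fin N × Fin N) L) (hW : ∀ g ∈ S, ev g P ∈ W) : dr ξ P ∈ W := by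
  by_contra hn
  obtain ⟨Λ, h1, h2⟩ := W.exists_le_ker_of_notMem hn
  obtain ⟨q, q1, q2⟩ := fn ξ Λ P
  exact h1 (q2 ▸ h q fun g hg => (q1 g).trans (h2 (hW g hg)))

/-- the translates of a polynomial function -/
theorem good {z : Fin N × Fin N → L} {G : Set (Mat N)} {σ : Mat N → L ≃ₐ[ℂ] L} {ξ : Mat N}
    {D : Derivation ℂ L L}
    (hz : ∀ u, ∃ P, (∀ g ∈ G, σ g (z u) = ev g P) ∧ ev 1 P = z u ∧ D (z u) = dr ξ P)
    {a : L} (ha : a ∈ Rg z) : ∃ P, (∀ g ∈ G, σ g a = ev g P) ∧ ev 1 P = a ∧ D a = dr ξ P := by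
  obtain ⟨p, rfl⟩ := ha
  change ∃ P, (∀ g ∈ G, σ g (aeval z p) = ev g P) ∧ ev 1 P = aeval z p ∧ D (aeval z p) = dr ξ P
  induction p using MvPolynomial.induction_on with
  | C c =>
    refine ⟨C (algebraMap ℂ L c), fun g _ => ?_, ?_, ?_⟩ <;> simp [ev_C, dr_C]
  | add p q hp hq =>
    obtain ⟨P, p1, p2, p3⟩ := hp
    obtain ⟨Q, q1, q2, q3⟩ := hq
    refine ⟨P + Q, fun g hg => ?_, ?_, ?_⟩
    · rw [map_add, map_add, map_add, p1 g hg, q1 g hg]
    · rw [map_add, map_add, p2, q2]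
    · rw [map_add, map_add, dr_add, p3, q3]
  | mul_X p u hp =>
    obtain ⟨P, p1, p2, p3⟩ := hp
    obtain ⟨Q, q1, q2, q3⟩ := hz u
    refine ⟨P * Q, fun g hg => ?_, ?_, ?_⟩
    · rw [map_mul, aeval_X, map_mul, map_mul, p1 g hg, q1 g hg]
    · rw [map_mul, map_mul, aeval_X, p2, q2]
    · rw [map_mul, aeval_X, Derivation.leibniz, dr_mul, p2, q2, p3, q3, smul_eq_mul, smul_eq_mul]

variable {x : Matrix (Fin N) (Fin N) L} {G : Set (Mat N)} {l r : Mat N → L ≃ₐ[ℂ] L}
  {D D' : Lie G → Derivation ℂ L L}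

theorem left (h : Gd x G l r D D') (ξ : Lie G) (u : Fin N × Fin N) :
    ∃ P, (∀ g ∈ G, l g (zx x u) = ev g P) ∧ ev 1 P = zx x u ∧ D ξ (zx x u) = dr ξ.1 P := by
  refine ⟨∑ k, X (u.1, k) * C (x k u.2), fun g hg => ?_, ?_, ?_⟩
  · rw [zx, h.red.left g hg]
    simp [ev_X, ev_C, Algebra.smul_def]
  · simp [ev_X, ev_C, zx, Matrix.one_apply]
  · rw [h.hL ξ u, dr_sum, Fintype.sum_prod_type]
    refine Finset.sum_congr rfl fun k _ => ?_
    simp [dr_mul, dr_C, dr_X, ev_C, Lm, zx, Matrix.one_apply, Algebra.smul_def, mul_comm,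
      apply_ite (algebraMap ℂ L)]

theorem right (h : Gd x G l r D D') (ξ : Lie G) (u : Fin N × Fin N) :
    ∃ P, (∀ g ∈ G, r g (zx x u) = ev g P) ∧ ev 1 P = zx x u ∧ D' ξ (zx x u) = dr ξ.1 P := by
  refine ⟨∑ k, X (k, u.2) * C (x u.1 k), fun g hg => ?_, ?_, ?_⟩
  · rw [zx, h.red.right g hg]
    simp [ev_X, ev_C, Algebra.smul_def]
  · simp [ev_X, ev_C, zx, Matrix.one_apply]
  · rw [h.hR ξ u, dr_sum, Fintype.sum_prod_type, Finset.sum_comm]
    refine Finset.sum_congr rfl fun k _ => ?_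
    simp [dr_mul, dr_C, dr_X, ev_C, Rm, zx, Matrix.one_apply, Algebra.smul_def, mul_comm,
      apply_ite (algebraMap ℂ L)]

end L58

open L58

theorem lfr : LFR := by
  intro N L _ _ x G l r D D' h _ S W hS a ha ξ hξ
  constructor
  · intro hW
    obtain ⟨P, p1, -, p3⟩ := good (left h ξ) ha
    exact p3 ▸ key hξ W P fun g hg => p1 g (hS hg) ▸ hW g hg
  · intro hW
    obtain ⟨P, p1, -, p3⟩ := good (right h ξ) ha
    exact p3 ▸ key hξ W P fun g hg => p1 g (hS hg) ▸ hW g hg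

theorem kil : KIL := by
  intro N L _ _ x G l r D D' h _ S hS a η ha hη
  obtain ⟨p, q, rfl⟩ := h.red.frac a
  have hp : atMat x p ∈ Rg (zx x) := ⟨p, rfl⟩
  have hq : atMat x q ∈ Rg (zx x) := ⟨q, rfl⟩
  generalize atMat x p = u at *
  generalize atMat x q = v at *
  rcases eq_or_ne v 0 with rfl | v0
  · simp
  obtain ⟨P, p1, -, p3⟩ := good (right h η) hp
  obtain ⟨Q, q1, -, q3⟩ := good (right h η) hq
  have k := key hη ⊥ (C v * P - C u * Q) fun g hg => by
    have e := ha g hg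
    have w : r g v ≠ 0 := by simpa using v0
    rw [map_div₀, div_eq_div_iff w v0] at e
    rw [map_sub, map_mul, map_mul, ev_C, ev_C, ← p1 g (hS hg), ← q1 g (hS hg), Submodule.mem_bot]
    linear_combination e
  rw [Submodule.mem_bot, dr_sub, dr_mul, dr_mul, dr_C, dr_C, ev_C, ev_C, ← p3, ← q3] at k
  rw [Derivation.leibniz_div]
  simp only [smul_eq_mul]
  linear_combination (v⁻¹ ^ 2) * k

end Vale.Agent.P283R.Sq
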