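import Vale.Agent.P283R.Sq.Sb
import Vale.Agent.P283R.Sq.Lfr58
import Vale.Agent.P297.H927.Der

/-!
# P283R, block SQ: the open orbit of the Borel algebra
-/

set_option linter.all false

open Set

noncomputable section

namespace Vale.Agent.P283R.Sq

open Vale.Agent.P287D Sl

namespace O38

/-- dual derivations of an independent family -/
theorem dual {L ι : Type} [Field L] [Algebra ℂ L] {v : ι → L} (hv : AlgebraicIndependent ℂ v)
    (f : ι → L) : ∃ δ : Derivation ℂ L L, ∀ j, δ (v j) = f j := by
  classical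
  obtain ⟨t, h, ht⟩ := exists_isTranscendenceBasis_superset (R := ℂ) (s := range v)
    hv.to_subtype_range
  obtain ⟨δ, hδ⟩ := P297.H927.exists_derivation_of_basis ht
    fun a => Function.extend v f 0 (a : L)
  exact ⟨δ, fun j => (hδ ⟨v j, h ⟨j, rfl⟩⟩).trans (hv.injective.extend_apply _ _ j)⟩

/-- a spanning family of vectors contains an invertible matrix -/
theorem sub_det {L J : Type} [Field L] {d : ℕ} (B : Set J) (v : J → Fin d → L)
    (h : ∀ w, w ∈ Submodule.span L (v '' B)) :
    ∃ δ : Fin d → J, (∀ j, δ j ∈ B) ∧ (Matrix.of fun j j' => v (δ j) j').det ≠ 0 := by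
  have e : Module.finrank L (Submodule.span L (v '' B)) = d := by
    rw [Submodule.eq_top_iff'.2 h, finrank_top, Module.finrank_fin_fun]
  have k := Submodule.exists_fun_fin_finrank_span_eq L (v '' B)
  rw [e] at k
  obtain ⟨f, a, -, l⟩ := k
  choose δ hδ hv using a
  refine ⟨δ, hδ, ?_⟩
  have : IsUnit (Matrix.of fun j j' => v (δ j) j') := by
    refine Matrix.linearIndependent_rows_iff_isUnit.1 ?_
    have : (Matrix.of fun j j' => v (δ j) j').row = f := funext fun j => hv j
    rwa [this]
  exact ((Matrix.isUnit_iff_isUnit_det _).1 this).ne_zero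

end O38

theorem orb38 (udi : UDI) : ORB := by
  intro N L _ _ x G l r D D' gd bas H hH sp K _ _ i d ⟨y, hy, _⟩ inv
  obtain ⟨δ, a, b⟩ := O38.sub_det (Bu G) (fun z j => D z (i (y j))) fun w => by
    obtain ⟨δ, hδ⟩ := O38.dual (hy.map' (f := i) i.toRingHom.injective) w
    obtain ⟨k, z, c, hz, e⟩ := udi N L x G l r D D' gd bas H hH sp δ
    have : w = ∑ j, c j • fun j' => D (z j) (i (y j')) := by
      funext j'
      rw [← hδ j', Finset.sum_apply]
      exact e _ fun η hη => kil N L x G l r D D' gd bas H hH _ η (inv _) hη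
    rw [this]
    exact sum_mem fun j _ => Submodule.smul_mem _ _ (Submodule.subset_span ⟨z j, hz j, rfl⟩)
  exact ⟨δ, y, a, b⟩

end Vale.Agent.P283R.Sq
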