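import Vale.Agent.P283R.Sq.Sb

/-!
# P283R, block SB: the part of a self-adjoint algebra which is seen modulo an ideal
-/

set_option linter.all false

open Set
open scoped Matrix

noncomputable section

namespace Vale.Agent.P283R.Sq

open Vale.Agent.P287D Sl

attribute [local instance 100] LieRing.ofAssociativeRing

namespace R33

variable {N : ℕ}

/-- the matrices which vanish below the diagonal number `k` -/
def Up (N k : ℕ) : Submodule ℂ (Mat N) where
  carrier := {β | ∀ i j : Fin N, (j : ℕ) < i + k → β i j = 0}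
  add_mem' := fun {a b} ha hb i j h => by rw [Matrix.add_apply, ha i j h, hb i j h, add_zero]
  zero_mem' := fun _ _ _ => rfl
  smul_mem' := fun c a ha i j h => by rw [Matrix.smul_apply, ha i j h, smul_zero]

theorem up_mul {k l m : ℕ} {a b : Mat N} (ha : a ∈ Up N k) (hb : b ∈ Up N l) (h : m ≤ k + l) :
    a * b ∈ Up N m := by
  intro i j hij
  rw [Matrix.mul_apply]
  refine Finset.sum_eq_zero fun r _ => ?_
  by_cases x : (r : ℕ) < i + k
  · rw [ha i r x, zero_mul]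
  · rw [hb r j (by omega), mul_zero]

theorem up_dia {a b : Mat N} (ha : a ∈ Up N 0) (hb : b ∈ Up N 0) (i : Fin N) :
    (a * b) i i = a i i * b i i := by
  rw [Matrix.mul_apply]
  refine Finset.sum_eq_single i (fun r _ hr => ?_) (fun h => (h (Finset.mem_univ _)).elim)
  have : (r : ℕ) ≠ i := fun e => hr (Fin.ext e)
  by_cases x : (r : ℕ) < i + 0
  · rw [ha i r x, zero_mul]
  · rw [hb r i (by omega), mul_zero]

theorem up_lie {k : ℕ} {a b : Mat N} (ha : a ∈ Up N k) (hb : b ∈ Up N k) :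
    a * b - b * a ∈ Up N (k + 1) := by
  rcases Nat.eq_zero_or_pos k with rfl | h
  · intro i j hij
    rw [Matrix.sub_apply]
    by_cases e : j = i
    · subst e
      rw [up_dia ha hb, up_dia hb ha, mul_comm, sub_self]
    · have : (j : ℕ) ≠ i := fun x => e (Fin.ext x)
      rw [up_mul ha hb (le_refl _) i j (by omega), up_mul hb ha (le_refl _) i j (by omega),
        sub_zero]
  · exact sub_mem (up_mul ha hb (by omega)) (up_mul hb ha (by omega))

theorem up_mono {k : ℕ} {a : Mat N} (ha : a ∈ Up N (k + 1)) : a ∈ Up N k :=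
  fun i j h => ha i j (by omega)

theorem up_top {a : Mat N} (ha : a ∈ Up N N) : a = 0 := by
  ext i j
  exact ha i j (by have := j.2; omega)

/-- the centre -/
def Ce (g : LieSubalgebra ℂ (Mat N)) : Submodule ℂ (Mat N) where
  carrier := {c | c ∈ g ∧ ∀ ξ ∈ g, c * ξ = ξ * c}
  add_mem' := fun {a b} ha hb => ⟨add_mem ha.1 hb.1, fun ξ h => by
    rw [add_mul, mul_add, ha.2 ξ h, hb.2 ξ h]⟩
  zero_mem' := ⟨zero_mem _, fun ξ _ => by rw [zero_mul, mul_zero]⟩
  smul_mem' := fun c a ha => ⟨g.smul_mem c ha.1, fun ξ h => by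
    rw [smul_mul_assoc, mul_smul_comm, ha.2 ξ h]⟩

/-- triangular modulo `I` -/
def Pk (g : LieSubalgebra ℂ (Mat N)) (I : Submodule ℂ (Mat N)) (k : ℕ) : Submodule ℂ (Mat N) :=
  (g.toSubmodule ⊓ Up N k) ⊔ I

theorem pk_lie {g : LieSubalgebra ℂ (Mat N)} {I : Submodule ℂ (Mat N)} (hI : ∀ ν ∈ I, ν ∈ g)
    (hL : ∀ ξ ∈ g, ∀ ν ∈ I, ξ * ν - ν * ξ ∈ I) {k : ℕ} {a b : Mat N} (ha : a ∈ Pk g I k)
    (hb : b ∈ Pk g I k) : a * b - b * a ∈ Pk g I (k + 1) := by
  obtain ⟨β, hβ, ι, hι, rfl⟩ := Submodule.mem_sup.1 ha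
  obtain ⟨β', hβ', ι', hι', rfl⟩ := Submodule.mem_sup.1 hb
  have e : (β + ι) * (β' + ι') - (β' + ι') * (β + ι) = (β * β' - β' * β) +
      (((β + ι) * ι' - ι' * (β + ι)) - (β' * ι - ι * β')) := by noncomm_ring
  rw [e]
  exact Submodule.add_mem_sup ⟨g.lie_mem hβ.1 hβ'.1, up_lie hβ.2 hβ'.2⟩
    (sub_mem (hL _ (add_mem hβ.1 (hI _ hι)) _ hι') (hL _ hβ'.1 _ hι))

theorem pk_mono {g : LieSubalgebra ℂ (Mat N)} {I : Submodule ℂ (Mat N)} {k : ℕ} :
    Pk g I (k + 1) ≤ Pk g I k :=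
  sup_le_sup_right (inf_le_inf_left _ fun _ h => up_mono h) _

end R33

open R33

/-- **RED** -/
theorem red33 (klg : KLG) (cmp : CMP) : RED := by
  intro N g n hs hn hl
  set I : Submodule ℂ (Mat N) := Ce g ⊔ n with hIdef
  have hI : ∀ ν ∈ I, ν ∈ g := fun ν h => by
    obtain ⟨c, hc, x, hx, rfl⟩ := Submodule.mem_sup.1 h
    exact add_mem hc.1 (hn x hx)
  have hL : ∀ ξ ∈ g, ∀ ν ∈ I, ξ * ν - ν * ξ ∈ I := fun ξ hξ ν h => by
    obtain ⟨c, hc, x, hx, rfl⟩ := Submodule.mem_sup.1 h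
    have e : ξ * (c + x) - (c + x) * ξ = ξ * x - x * ξ := by
      rw [mul_add, add_mul, hc.2 ξ hξ]; abel
    rw [e]
    exact Submodule.mem_sup_right (hl ξ hξ x hx)
  have hz : ∀ c ∈ Ce g, c ∈ I := fun c h => Submodule.mem_sup_left h
  obtain ⟨S, S1, S2, S3, S4⟩ := cmp N g I hs hI hL fun c h h' => hz c ⟨h, h'⟩
  have hg : ∀ a ∈ S ⊔ Ce g, a ∈ g := fun a h => by
    obtain ⟨u, hu, c, hc, rfl⟩ := Submodule.mem_sup.1 h
    exact add_mem (S1 u hu).1 hc.1
  let g' : LieSubalgebra ℂ (Mat N) :=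
    { (S ⊔ Ce g : Submodule ℂ (Mat N)) with
      lie_mem' := fun {a b} ha hb => by
        obtain ⟨u, hu, c, hc, rfl⟩ := Submodule.mem_sup.1 hb
        have e : ⁅a, u + c⁆ = a * u - u * a := by
          rw [Ring.lie_def, mul_add, add_mul, hc.2 a (hg a ha)]; abel
        show ⁅a, u + c⁆ ∈ S ⊔ Ce g
        rw [e]
        exact Submodule.mem_sup_left (S2 a (hg a ha) u hu) }
  have mg : ∀ a, a ∈ g' ↔ a ∈ S ⊔ Ce g := fun a => Iff.rfl
  let s : LieIdeal ℂ g' :=
    { S.comap g'.toSubmodule.subtype with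
      lie_mem := fun {a u} hu => S2 a.1 (hg _ a.2) u.1 hu }
  have ms : ∀ a : g', a ∈ s ↔ a.1 ∈ S := fun a => Iff.rfl
  let b : LieSubalgebra ℂ g' :=
    { (Pk g I 0).comap g'.toSubmodule.subtype with
      lie_mem' := fun {a u} ha hu => pk_mono (pk_lie hI hL ha hu) }
  have mb : ∀ a : g', a ∈ b ↔ a.1 ∈ Pk g I 0 := fun a => Iff.rfl
  refine ⟨g', s, b, fun a h => hg a h, fun a h => ?_, ?_, ?_, fun δ => ?_,
    fun δ h h' => Subtype.ext (S3 _ h (Submodule.mem_sup_right h')), fun β hβ hu => ?_⟩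
  · obtain ⟨u, hu, c, hc, rfl⟩ := Submodule.mem_sup.1 h
    rw [Matrix.conjTranspose_add]
    refine Submodule.add_mem_sup (S1 u hu).2 ⟨hs c hc.1, fun ξ hξ => ?_⟩
    have := congrArg Matrix.conjTranspose (hc.2 _ (hs ξ hξ))
    rw [Matrix.conjTranspose_mul, Matrix.conjTranspose_mul, Matrix.conjTranspose_conjTranspose]
      at this
    exact this.symm
  · refine klg N s (g'.incl.comp s.incl) (fun a a' h => Subtype.ext (Subtype.ext h))
      (fun a => ⟨⟨⟨a.1.1ᴴ, Submodule.mem_sup_left (S1 _ a.2).2⟩, (S1 _ a.2).2⟩, rfl⟩)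
      fun a h => Subtype.ext (Subtype.ext (S3 _ a.2 (hz _ ⟨(S1 _ a.2).1, fun ξ hξ => ?_⟩)))
    obtain ⟨u, hu, hι⟩ := S4 ξ hξ
    have e1 : a.1.1 * u - u * a.1.1 = 0 :=
      congrArg (fun x : s => x.1.1) (h ⟨⟨u, Submodule.mem_sup_left hu⟩, hu⟩)
    have e2 : (ξ - u) * a.1.1 - a.1.1 * (ξ - u) = 0 := by
      refine S3 _ (S2 _ (hI _ hι) _ a.2) ?_
      rw [← neg_sub]
      exact neg_mem (hL _ (S1 _ a.2).1 _ hι)
    have e : a.1.1 * ξ - ξ * a.1.1 =
        (a.1.1 * u - u * a.1.1) - ((ξ - u) * a.1.1 - a.1.1 * (ξ - u)) := by noncomm_ring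
    rw [e1, e2, sub_zero] at e
    exact sub_eq_zero.1 e
  · have key : ∀ k, ∀ x ∈ LieAlgebra.derivedSeries ℂ b k, x.1.1 ∈ Pk g I k := by
      intro k
      induction k with
      | zero => exact fun x _ => x.2
      | succ k ih =>
        intro x hx
        rw [LieAlgebra.derivedSeries_def, LieAlgebra.derivedSeriesOfIdeal_succ,
          ← LieSubmodule.mem_toSubmodule, LieSubmodule.lieIdeal_oper_eq_linear_span'] at hx
        induction hx using Submodule.span_induction with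
        | mem x h =>
          obtain ⟨p, hp, q, hq, rfl⟩ := h
          exact pk_lie hI hL (ih p hp) (ih q hq)
        | zero => exact zero_mem _
        | add x y _ _ h h' => exact add_mem h h'
        | smul c x _ h => exact Submodule.smul_mem _ c h
    have cen : ∀ x ∈ LieAlgebra.derivedSeries ℂ b N, x.1.1 ∈ Ce g := fun x hx => by
      obtain ⟨β, hβ, ι, hι, e⟩ := Submodule.mem_sup.1 (key N x hx)
      obtain ⟨u, hu, c, hc, e'⟩ := Submodule.mem_sup.1 x.1.2
      rw [up_top hβ.2, zero_add] at e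
      have : u = 0 := S3 u hu (by
        rw [show u = ι - c by rw [e, ← e', add_sub_cancel_right]]
        exact sub_mem hι (hz c hc))
      rw [← e', this, zero_add]
      exact hc
    refine LieAlgebra.IsSolvable.mk (R := ℂ) (k := N + 1) ?_
    rw [LieAlgebra.derivedSeries_def, LieAlgebra.derivedSeriesOfIdeal_succ,
      LieSubmodule.lie_eq_bot_iff]
    intro p hp q _
    exact Subtype.ext (Subtype.ext (sub_eq_zero.2 ((cen p hp).2 _ (hg _ q.1.2))))
  · obtain ⟨u, hu, c, hc, e⟩ := Submodule.mem_sup.1 δ.2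
    refine ⟨⟨u, Submodule.mem_sup_left hu⟩, hu, Submodule.mem_sup_right ?_⟩
    show δ.1 - u ∈ I
    rw [← e, add_sub_cancel_left]
    exact hz c hc
  · obtain ⟨u, hu', hι⟩ := S4 β hβ
    obtain ⟨c, hc, ν, hν, e⟩ := Submodule.mem_sup.1 hι
    have e' : β - (u + c) = ν := by rw [← sub_sub, ← e, add_sub_cancel_left]
    refine ⟨⟨u + c, Submodule.add_mem_sup hu' hc⟩, ?_, by rw [e']; exact hν⟩
    show u + c ∈ Pk g I 0
    rw [show u + c = β + -ν by rw [← e']; abel]
    exact Submodule.add_mem_sup ⟨hβ, fun i j h => hu i j (by simpa using h)⟩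
      (neg_mem (Submodule.mem_sup_right hν))

end Vale.Agent.P283R.Sq
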