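import Vale.Agent.P283R.Sq.Sb

/-!
# P283R, block SQ: the action on the Laurent polynomials
-/

open Set

noncomputable section

namespace Vale.Agent.P283R.Sq

open Sl

namespace R60

variable {K L : Type} [Field K] [Algebra ℂ K] [Field L] [Algebra ℂ L] {k : ℕ} {i : K →ₐ[ℂ] L}
  {f : Fin k → L}

theorem ex (δ : Derivation ℂ L L) (f0 : ∀ j, f j ≠ 0) (h1 : ∀ φ, ∃ ψ, δ (i φ) = i ψ)
    (h2 : ∀ j, ∃ ψ, δ (f j) = i ψ * f j) (m : Fin k → ℤ) (φ : K) :
    ∃ ψ, i ψ * ∏ j, f j ^ m j = δ (i φ * ∏ j, f j ^ m j) := by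
  choose ψ hψ using h2
  obtain ⟨χ, hχ⟩ := h1 φ
  have e : ∀ s : Finset (Fin k),
      δ (∏ j ∈ s, f j ^ m j) = i (∑ j ∈ s, m j * ψ j) * ∏ j ∈ s, f j ^ m j := fun s => by
    induction s using Finset.induction_on with
    | empty => simp
    | insert j s h ih =>
      have := f0 j
      rw [Finset.prod_insert h, Finset.sum_insert h, Derivation.leibniz, ih,
        Derivation.leibniz_zpow, hψ, zpow_sub_one₀ this]
      simp only [smul_eq_mul, map_add, map_mul, map_intCast, zsmul_eq_mul]
      field_simp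
      ring
  refine ⟨φ * ∑ j, m j * ψ j + χ, ?_⟩
  rw [Derivation.leibniz, e, hχ, map_add, map_mul, smul_eq_mul, smul_eq_mul]
  ring

omit [Algebra ℂ L] in
theorem ne (f0 : ∀ j, f j ≠ 0) (m : Fin k → ℤ) : ∏ j, f j ^ m j ≠ 0 :=
  Finset.prod_ne_zero_iff.2 fun j _ => zpow_ne_zero _ (f0 j)

theorem ext (f0 : ∀ j, f j ≠ 0) {F G : Laurent K k}
    (h : ∀ m, i (F.coeff m) * ∏ j, f j ^ m j = i (G.coeff m) * ∏ j, f j ^ m j) : F = G := by
  ext m
  exact i.toRingHom.injective (mul_right_cancel₀ (ne f0 m) (h m))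

theorem lift (δ : Derivation ℂ L L) (f0 : ∀ j, f j ≠ 0) (h1 : ∀ φ, ∃ ψ, δ (i φ) = i ψ)
    (h2 : ∀ j, ∃ ψ, δ (f j) = i ψ * f j) : ∃ ρ : Derivation ℂ (Laurent K k) (Laurent K k),
      ∀ F m, i ((ρ F).coeff m) * ∏ j, f j ^ m j = δ (i (F.coeff m) * ∏ j, f j ^ m j) := by
  classical
  choose τ hτ using ex δ f0 h1 h2
  have inj : ∀ (m : Fin k → ℤ) {a b : K}, i a * ∏ j, f j ^ m j = i b * ∏ j, f j ^ m j → a = b :=
    fun m _ _ h => i.toRingHom.injective (mul_right_cancel₀ (ne f0 m) h)
  have t0 : ∀ m, τ m 0 = 0 := fun m => inj m (by rw [hτ]; simp)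
  let r : Laurent K k → Laurent K k := fun F => .ofCoeff (Finsupp.onFinset F.coeff.support
    (fun m => τ m (F.coeff m)) fun m h => Finsupp.mem_support_iff.2 fun z => h (by rw [z, t0]))
  have hr : ∀ F m, i ((r F).coeff m) * ∏ j, f j ^ m j = δ (i (F.coeff m) * ∏ j, f j ^ m j) :=
    fun F m => hτ m _
  have rs : ∀ m φ, r (.single m φ) = .single m (τ m φ) := fun m φ => by
    ext n
    show τ n (Finsupp.single m φ n) = Finsupp.single m (τ m φ) n
    by_cases c : m = n
    · subst c
      simp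
    · simp [c, t0]
  let l : Laurent K k →ₗ[ℂ] Laurent K k :=
    { toFun := r
      map_add' := fun x y => ext (i := i) f0 fun m => by
        simp only [hr, AddMonoidAlgebra.coeff_add, Finsupp.add_apply, map_add, add_mul]
      map_smul' := fun c x => ext (i := i) f0 fun m => by
        simp only [hr, AddMonoidAlgebra.coeff_smul, Finsupp.smul_apply, map_smul, smul_mul_assoc,
          RingHom.id_apply, Derivation.map_smul] }
  have ls : ∀ m φ, l (.single m φ) = .single m (τ m φ) := rs
  refine ⟨Derivation.mk' l fun x y => ?_, hr⟩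
  induction x using AddMonoidAlgebra.induction_linear with
  | zero => simp
  | add a b ha hb => simp only [add_mul, map_add, ha, hb, smul_eq_mul]; ring
  | single m φ =>
    induction y using AddMonoidAlgebra.induction_linear with
    | zero => simp
    | add a b ha hb => simp only [mul_add, map_add, ha, hb, smul_eq_mul]; ring
    | single m' ψ =>
      have p : ∏ j, f j ^ (m + m') j = (∏ j, f j ^ m j) * ∏ j, f j ^ m' j := by
        rw [← Finset.prod_mul_distrib]
        exact Finset.prod_congr rfl fun j _ => zpow_add₀ (f0 j) _ _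
      have e : τ (m + m') (φ * ψ) = φ * τ m' ψ + ψ * τ m φ := inj (m + m') (by
        rw [hτ, p, map_mul i φ ψ, mul_mul_mul_comm, Derivation.leibniz, ← hτ, ← hτ]
        simp only [smul_eq_mul, map_add, map_mul]
        ring)
      simp only [AddMonoidAlgebra.single_mul_single, ls, smul_eq_mul, e,
        AddMonoidAlgebra.single_add, add_comm m']

end R60

open R60 in
/-- **RHO** -/
theorem rho60 : RHO := by
  intro K L S _ _ _ _ _ _ k i f Φ f0 h1 h2
  choose ρ hρ using fun a => lift (Φ a) f0 (h1 a) (h2 a)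
  refine ⟨{ toFun := ρ, map_add' := fun a b => ?_, map_smul' := fun c a => ?_, map_lie' := ?_ }, hρ⟩
  · refine Derivation.ext fun F => R60.ext (i := i) f0 fun m => ?_
    simp only [hρ, Derivation.add_apply, AddMonoidAlgebra.coeff_add, Finsupp.add_apply, map_add,
      add_mul]
  · refine Derivation.ext fun F => R60.ext (i := i) f0 fun m => ?_
    simp only [hρ, Derivation.smul_apply, AddMonoidAlgebra.coeff_smul, Finsupp.smul_apply, map_smul,
      smul_mul_assoc, RingHom.id_apply]
  · intro a b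
    refine Derivation.ext fun F => R60.ext (i := i) f0 fun m => ?_
    simp only [hρ, LieHom.map_lie, Derivation.commutator_apply, AddMonoidAlgebra.coeff_sub,
      Finsupp.sub_apply, map_sub, sub_mul]

end Vale.Agent.P283R.Sq
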