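import Vale.Agent.P283R.Sq.St
import Vale.Agent.P283R.Sl.Sg2

/-!
# P283R, block SQ: spherical varieties carry a spherical action of a Lie algebra (statements)
-/

open Set
open scoped Matrix

noncomputable section

namespace Vale.Agent.P283R.Sq

open Vale.Agent.P287D Sl

attribute [local instance 100] LieRing.ofAssociativeRing

/-- **LIE**: the tangent space is a Lie algebra, which acts by the vector fields -/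
def LIE : Prop := ForD fun N L _ _ _ G _ _ D _ => ∃ (g : LieSubalgebra ℂ (Mat N))
  (Φ : g →ₗ⁅ℂ⁆ Derivation ℂ L L), (∀ ξ, ξ ∈ g ↔ Tangent G ξ) ∧
    ∀ (ξ : g) (ξ' : Lie G), ξ'.1 = ξ.1 → Φ ξ = -D ξ'

/-- **KLG**: self-adjoint with trivial centre is semisimple -/
def KLG : Prop := ∀ (N : ℕ) (S : Type) [LieRing S] [LieAlgebra ℂ S] (φ : S →ₗ⁅ℂ⁆ Mat N),
  Function.Injective φ → (∀ a, ∃ a', φ a' = (φ a)ᴴ) → (∀ a : S, (∀ b : S, ⁅a, b⁆ = 0) → a = 0) →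
    LieAlgebra.IsSemisimple ℂ S

/-- **CMP**: an ideal which contains the centre has a self-adjoint complement -/
def CMP : Prop := ∀ (N : ℕ) (g : LieSubalgebra ℂ (Mat N)) (I : Submodule ℂ (Mat N)),
  (∀ ξ ∈ g, ξᴴ ∈ g) → (∀ ν ∈ I, ν ∈ g) → (∀ ξ ∈ g, ∀ ν ∈ I, ξ * ν - ν * ξ ∈ I) →
  (∀ c ∈ g, (∀ ξ ∈ g, c * ξ = ξ * c) → c ∈ I) →
    ∃ S : Submodule ℂ (Mat N), (∀ u ∈ S, u ∈ g ∧ uᴴ ∈ S) ∧
      (∀ ξ ∈ g, ∀ u ∈ S, ξ * u - u * ξ ∈ S) ∧ (∀ u ∈ S, u ∈ I → u = 0) ∧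
      ∀ ξ ∈ g, ∃ u ∈ S, ξ - u ∈ I

/-- **RED**: the part of a self-adjoint Lie algebra which is seen modulo the ideal `n` -/
def RED : Prop := ∀ (N : ℕ) (g : LieSubalgebra ℂ (Mat N)) (n : Submodule ℂ (Mat N)),
  (∀ ξ ∈ g, ξᴴ ∈ g) → (∀ ν ∈ n, ν ∈ g) → (∀ ξ ∈ g, ∀ ν ∈ n, ξ * ν - ν * ξ ∈ n) →
    ∃ (g' : LieSubalgebra ℂ (Mat N)) (s : LieIdeal ℂ g') (b : LieSubalgebra ℂ g'), g' ≤ g ∧
      (∀ ξ ∈ g', ξᴴ ∈ g') ∧ LieAlgebra.IsSemisimple ℂ s ∧ LieAlgebra.IsSolvable b ∧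
      (∀ δ, ∃ u ∈ s, δ - u ∈ b) ∧ (∀ δ ∈ s, δ.1 ∈ n → δ = 0) ∧
      ∀ β ∈ g, (∀ i j, j < i → β i j = 0) → ∃ β' ∈ b, β - β'.1 ∈ n

/-- **CRS**: invariant complements -/
def CRS : Prop := ∀ (s L : Type) [Fintype s] [Field L] [Algebra ℂ L] (z : s → L) (J : Type)
  (M : J → Matrix s s ℂ) (D : J → Derivation ℂ L L), (∀ a, Lin z (M a) (D a)) →
  (∀ a, ∃ a', M a' = (M a)ᴴ) → ∀ (V ι : Type) [AddCommGroup V] [Module ℂ V]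
    (θ : J → V →ₗ[ℂ] V) (c : ι → V →ₗ[ℂ] L), (∀ v, (∀ m, c m v = 0) → v = 0) →
    (∀ v, {m | c m v ≠ 0}.Finite) → (∀ a v m, c m (θ a v) = D a (c m v)) →
    ∀ W W' : Submodule ℂ V, (∀ a, ∀ v ∈ W, θ a v ∈ W) → (∀ a, ∀ v ∈ W', θ a v ∈ W') → W ≤ W' →
      (∀ v ∈ W', ∀ m, c m v ∈ Rg z) →
      ∃ W₁ : Submodule ℂ V, (∀ a, ∀ v ∈ W₁, θ a v ∈ W₁) ∧ Disjoint W W₁ ∧ W ⊔ W₁ = W'

/-- **RHO**: the action on the Laurent polynomials -/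
def RHO : Prop := ∀ (K L S : Type) [Field K] [Algebra ℂ K] [Field L] [Algebra ℂ L] [LieRing S]
  [LieAlgebra ℂ S] (k : ℕ) (i : K →ₐ[ℂ] L) (f : Fin k → L) (Φ : S →ₗ⁅ℂ⁆ Derivation ℂ L L),
    (∀ j, f j ≠ 0) → (∀ a φ, ∃ ψ, Φ a (i φ) = i ψ) → (∀ a j, ∃ ψ, Φ a (f j) = i ψ * f j) →
    ∃ ρ : S →ₗ⁅ℂ⁆ Derivation ℂ (Laurent K k) (Laurent K k), ∀ a F m,
      i ((ρ a F).coeff m) * ∏ j, f j ^ m j = Φ a (i (F.coeff m) * ∏ j, f j ^ m j)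

/-- **UDI**: on the invariant functions the Borel algebra spans the derivations -/
def UDI : Prop := ForH fun _ L _ _ _ G H _ _ D D' => ∀ δ : Derivation ℂ L L,
  ∃ (k : ℕ) (z : Fin k → Lie G) (c : Fin k → L), (∀ j, z j ∈ Bu G) ∧
    ∀ a, (∀ η : Lie G, Tangent H η.1 → D' η a = 0) → δ a = ∑ j, c j * D (z j) a

/-- **ORB**: the open orbit -/
def ORB : Prop := ForH fun _ L _ _ _ G H _ r D _ => ∀ (K : Type) [Field K] [Algebra ℂ K]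
  (i : K →ₐ[ℂ] L) (d : ℕ), FF K d → (∀ a, ∀ h ∈ H, r h (i a) = i a) →
    ∃ (δ : Fin d → Lie G) (y : Fin d → K), (∀ j, δ j ∈ Bu G) ∧
      (Matrix.of fun j j' => D (δ j) (i (y j'))).det ≠ 0

/-- **ACT**: the spherical action -/
def ACT : Prop := ForH fun _ L _ _ x _ H _ r D _ => ∀ (K : Type) [Field K] [Algebra ℂ K]
  (i : K →ₐ[ℂ] L) (d k : ℕ) (f : Fin k → L) (A : (Fin k → ℤ) → Set K), FF K d →
    (∀ a, (∃ b, i b = a) ↔ ∀ h ∈ r '' H, h a = a) → (∀ j, f j ≠ 0 ∧ Sm (r '' H) (f j)) →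
    (∀ m, ∀ φ ∈ A m, i φ * ∏ j, f j ^ m j ∈ Rg (zx x)) →
    (∀ m, ∀ φ ∈ A m, ∀ a, ∃ ψ ∈ A m, D a (i φ * ∏ j, f j ^ m j) = i ψ * ∏ j, f j ^ m j) →
    ∃ (S : Type) (_ : LieRing S) (_ : LieAlgebra ℂ S) (s : LieIdeal ℂ S) (b : LieSubalgebra ℂ S)
      (ρ : S →ₗ⁅ℂ⁆ Derivation ℂ (Laurent K k) (Laurent K k)), SphericalAction d A s b ρ

/-- **ABD**: the first part for given vector fields -/
def ABD : Prop := ForH fun N _ _ _ x G H l r D _ =>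
  ∃ n, Ab n (bd N) (N * N) (Rg (zx x)) (Ga G l) (r '' H) D (Bu G)

/-- **BRG**: the end product -/
def BRG : Prop := ∀ (N d : ℕ) (X : Var) (U : X.X.Opens), 1 ≤ d → dimension X.str = d →
  (∃ y : Pt X.X, y.In U) → IsSpherical N U → SphericalOpen U d

/-- **TOPB** -/
def TOPB : Prop := ABD → ACT → BRG

end Vale.Agent.P283R.Sq
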