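import Vale.Agent.P283R.Sq.All
import Vale.Agent.P283R.Sq.Sb

/-!
# P283R, block SQ: the bridge on the schemes
-/

open Set CategoryTheory AlgebraicGeometry

noncomputable section

namespace Vale.Agent.P283R.Sq

open Sl Sl.Var

/-- **TOPB** -/
theorem topb29 : TOPB := by
  intro abd act' N d X U hd a hU ⟨L, _, _, x, G, H, l, r, i, red, HG, inv, sph, act⟩
  obtain ⟨n, rfl⟩ : ∃ n, d = n + 1 := ⟨d - 1, by omega⟩
  obtain ⟨bs, ga⟩ := bas19 N L x G l r red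
  obtain ⟨D, D', gd⟩ := der N L x G l r red bs
  have hsp := A32.span tan10 red HG sph
  obtain ⟨n', ab⟩ := abd N L x G l r D D' gd bs H HG hsp
  have inv' : ∀ c, (∃ b, i b = c) ↔ ∀ h ∈ r '' H, h c = c := fun c => (inv c).trans
    ⟨fun h _ ⟨g, hg, e⟩ => e ▸ h g hg, fun h g hg => h _ ⟨g, hg, rfl⟩⟩
  have ge := ger X n U L i (Ga G l) (r '' H) a hU inv'
    (fun σ hσ c => by
      obtain ⟨g, hg, rfl⟩ := (ga σ).1 hσ
      obtain ⟨c', e⟩ := (inv (l g (i c))).2 fun h hh => by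
        rw [← bs.com g hg h (HG hh), (inv _).1 ⟨c, rfl⟩ h hh]
      exact ⟨c', e.symm⟩)
    fun σ hσ => by
      obtain ⟨g, hg, rfl⟩ := (ga σ).1 hσ
      exact act g hg
  have va := val61 n' _ _ n X.K L _ i _ _ _ D _ _ ab ge
  have eq := eqn n' _ _ n X.K L _ i _ _ _ D _ _ ab ge va
  obtain ⟨Γ', fx⟩ := fix59 n' _ _ n X.K L _ i _ _ _ D _ _ ab ge va
  obtain ⟨k, ρ, f, fm⟩ := fam78 n' _ _ n X.K L _ i _ _ _ D _ _ ab ge va eq
  have st := sta33 n' _ _ n X.K L _ i _ _ _ D _ _ ab ge va Γ' fx k ρ f fm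
  have g := gen38 sta33 n' _ _ n X.K L _ i _ _ _ D _ _ ab ge va Γ' fx k ρ f fm
  have spn := cls33 n' _ _ n X.K L _ i _ _ _ D _ _ ab ge va Γ' fx eq k ρ f fm
  obtain ⟨S, _, _, s, b, θ, sa⟩ := act' N L x G l r D D' gd bs H HG hsp X.K i (n + 1) k f
    (Sec (Tu U) ρ) ge.ff inv' (fun j => ⟨(fm.eq j).2.1, (fm.eq j).2.2.1⟩) (fun m => (st m).1)
    fun m => (st m).2.2
  choose E _ hE using fun j => tu29.1 (fm.mem j)
  obtain rfl : (fun j => pz29 (E j)) = ρ := funext hE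
  refine ⟨k, _, fun j => Finsupp.single (E j) 1, S, _, _, s, b, θ, fun E₀ => ?_, sec29 E _ ▸ g,
    sec29 E _ ▸ sa⟩
  obtain ⟨m, φ, φ0, e⟩ := spn (Function.extend pz29 (Finsupp.single E₀ (1 : ℤ)) 0)
    (((Finsupp.single E₀ (1 : ℤ)).support.finite_toSet.image pz29).subset fun Q ⟨u, w⟩ => by
      obtain ⟨E, -, rfl⟩ := tu29.1 u
      rw [pi29.extend_apply] at w
      exact ⟨E, Finsupp.mem_support_iff.2 w, rfl⟩)
  refine ⟨m, φ, φ0, fun E' w => ?_⟩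
  have := e (pz29 E') ⟨E', w, rfl⟩
  rw [pi29.extend_apply, ← cf29, ← po29] at this
  rw [← this]
  by_cases h : E' = E₀
  · subst h
    simp [QDiv.coeff]
  · simp [QDiv.coeff, Finsupp.single_eq_of_ne h]

end Vale.Agent.P283R.Sq
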