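import Vale.Agent.P283R.Sq.Sb
import Vale.Agent.P283R.Sq.Dis37
import Vale.Agent.P283R.Sq.Spn6

/-!
# P283R, block SB: the Borel algebra spans the derivations of the invariant functions
-/

open MvPolynomial Set
open scoped Kronecker Matrix

noncomputable section

namespace Vale.Agent.P283R.Sq

open Vale.Agent.P287D Sl

open B37 in
theorem udi27 : UDI := by
  intro N L _ _ x G l r D D' gd bas H _ hC δ
  classical
  have hs := spn
  set Cc : Set (Lie G) := {η | Tangent H η.1}
  obtain ⟨b, hb, sp, li⟩ := exists_linearIndependent ℂ (Subtype.val '' (Bu G ∪ Cc))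
  have : Finite b := li.finite
  let _ : Fintype b := Fintype.ofFinite b
  choose ξ hξ e using fun i : b => hb i.2
  have gx : (gm N).map (aeval (R := ℂ) (zx x)) = x := by
    ext a b
    simp [gm, zx]
  have px : ∀ a b, aeval (R := ℂ) (zx x) (X (a, b)) = x a b := fun a b => by simp [zx]
  have rg : ∀ ζ : Lie G, ζ.1 ∈ Submodule.span ℂ (range (Subtype.val : b → Mat N)) := fun ζ => by
    rw [Subtype.range_coe, sp]
    exact hC ζ
  obtain ⟨del, ee, h1, h2, h3⟩ := disc' (aeval (zx x)) (fr_of gd.red) (by rw [gx]; exact gd.red.det)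
    (Subtype.val : b → Mat N) li (fun i => if ξ i ∈ Bu G then D (ξ i) else D' (ξ i))
    (fun i => D' (ξ i)) (fun i => ξ i ∈ Bu G)
    (fun j a c => by rw [gx, px, ← e j]; exact lin_right (gd.hR _) a c)
    (fun j hj a c => by rw [gx, px, ← e j, if_pos hj]; exact lin_left (gd.hL _) a c)
    (fun j hj => if_neg hj) (fun i _ => by
      rw [gx]
      have e1 : x.map (D (ξ i)) = (i : Mat N).map (algebraMap ℂ L) * x := by
        ext a c
        rw [← e i]
        exact lin_left (gd.hL _) a c
      obtain ⟨c, -, hc⟩ := C6.tens (fun (j : b) (v : Fin N × Fin N) => (j : Mat N) v.1 v.2)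
        (fun v => (x.adjugate * x.map (D (ξ i)) : Matrix _ _ L) v.1 v.2) fun Λ => by
          obtain ⟨t, ht⟩ := (Submodule.mem_span_range_iff_exists_fun ℂ).1
            (rg ⟨_, (hs N L x G l r gd.red bas (D (ξ i)) Λ).1⟩)
          refine (Submodule.mem_span_range_iff_exists_fun ℂ).2 ⟨t, funext fun v => ?_⟩
          have := congrFun (congrFun ht v.1) v.2
          rw [Matrix.sum_apply] at this
          rw [Finset.sum_apply]
          exact this
      refine ⟨c, ?_⟩
      rw [mul_assoc, ← e1]
      ext a d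
      rw [Matrix.sum_apply]
      exact hc (a, d))
  have d0 : aeval (R := ℂ) (zx x) del ≠ 0 := fun h0 =>
    one_ne_zero (h2.symm.trans ((gd.red.points 1).1 gd.red.one del h0))
  let V := {a : L // ∀ η : Lie G, Tangent H η.1 → D' η a = 0}
  let W := Submodule.span L ((fun (z : Lie G) (a : V) => D z a) '' Bu G)
  have k1 : ∀ j, (fun a : V => D' (ξ j) a) ∈ W := fun j => by
    have e1 : (fun a : V => D' (ξ j) a) = ∑ i, (aeval (zx x) (ee j i) / aeval (zx x) del) •
        fun a : V => (if ξ i ∈ Bu G then D (ξ i) else D' (ξ i)) a := funext fun a => by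
      rw [Finset.sum_apply, ← mul_right_inj' d0, h3, Finset.mul_sum]
      refine Finset.sum_congr rfl fun i _ => ?_
      rw [Pi.smul_apply, smul_eq_mul, ← mul_assoc, mul_div_cancel₀ _ d0]
    rw [e1]
    refine W.sum_mem fun i _ => W.smul_mem _ ?_
    split_ifs with hi
    · exact Submodule.subset_span ⟨_, hi, rfl⟩
    · rw [show (fun a : V => D' (ξ i) a) = 0 from
        funext fun a => a.2 _ ((hξ i).resolve_left hi)]
      exact zero_mem _
  have k2 : ∀ ζ, (fun a : V => D' ζ a) ∈ W := fun ζ => by
    obtain ⟨t, ht⟩ := (Submodule.mem_span_range_iff_exists_fun ℂ).1 (rg ζ)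
    have e1 : D' ζ = ∑ j, t j • D' (ξ j) := by
      refine bas.exd _ _ fun v => ?_
      have h4 := congrFun (map_sum (Derivation.coeFnAddMonoidHom (R := ℂ) (A := L) (M := L))
        (fun j => t j • D' (ξ j)) Finset.univ) (zx x v)
      rw [Finset.sum_apply] at h4
      refine Eq.trans ?_ h4.symm
      change D' ζ (x v.1 v.2) = ∑ j, t j • D' (ξ j) (x v.1 v.2)
      simp only [lin_right (gd.hR _), e, ← ht, Matrix.mul_apply, Matrix.map_apply, Matrix.sum_apply,
        Matrix.smul_apply, map_sum, Finset.mul_sum, Finset.smul_sum, smul_eq_mul, map_mul]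
      rw [Finset.sum_comm]
      refine Finset.sum_congr rfl fun j _ => Finset.sum_congr rfl fun k _ => ?_
      rw [Algebra.smul_def]
      ring
    have e2 : ∀ a, D' ζ a = ∑ j, t j • D' (ξ j) a := fun a => by
      have h4 := congrFun (map_sum (Derivation.coeFnAddMonoidHom (R := ℂ) (A := L) (M := L))
        (fun j => t j • D' (ξ j)) Finset.univ) a
      rw [Finset.sum_apply] at h4
      rw [e1]
      exact h4
    rw [show (fun a : V => D' ζ a) = ∑ j, algebraMap ℂ L (t j) • fun a : V => D' (ξ j) a from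
      funext fun a => by simp [e2]]
    exact W.sum_mem fun j _ => W.smul_mem _ (k1 j)
  obtain ⟨k, z, c, -, hc⟩ := C6.sp_r gd bas δ
  have k3 : (fun a : V => δ a) ∈ W := by
    rw [show (fun a : V => δ a) = ∑ j, c j • fun a : V => D' (z j) a from
      funext fun a => by simp [hc]]
    exact W.sum_mem fun j _ => W.smul_mem _ (k2 _)
  obtain ⟨n, f, g, hg⟩ := Submodule.mem_span_set'.1 k3
  choose y y1 y2 using fun j => (g j).2
  refine ⟨n, y, f, y1, fun a ha => ?_⟩
  simpa [← y2] using (congrFun hg ⟨a, ha⟩).symm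

end Vale.Agent.P283R.Sq
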