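import Vale.Agent.P283R.Sq.Abd32
import Vale.Agent.P283R.Sq.Act32
import Vale.Agent.P283R.Sq.Cmp56
import Vale.Agent.P283R.Sq.Crs59
import Vale.Agent.P283R.Sq.Klg63
import Vale.Agent.P283R.Sq.Lie6
import Vale.Agent.P283R.Sq.Onb32
import Vale.Agent.P283R.Sq.Orb38
import Vale.Agent.P283R.Sq.Red33
import Vale.Agent.P283R.Sq.Rho60
import Vale.Agent.P283R.Sq.Topb29
import Vale.Agent.P283R.Sq.Udi27

/-!
# P283R, block SQ: spherical varieties, groups of any size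
-/

namespace Vale.Agent.P283R

theorem Sq.act : Sq.ACT :=
  Sq.act_of Sq.lie6 (Sq.red33 Sq.klg63 Sq.cmp56) Sq.crs59 Sq.rho60 (Sq.orb38 Sq.udi27)

theorem Sq.brg : Sq.BRG := Sq.topb29 Sq.abd Sq.act

open Sl.Var in
theorem Sl.on_sqb : Sl.On fun _ _ _ f ω B z => FanoType f ω ∧
    NefOver f (-logCan ω B) ∧ ∃ W N, z.In W ∧ Sl.IsSpherical N (Sl.pre f W) :=
  Sl.on_sqb_of Sq.brg

end Vale.Agent.P283R
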