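import Vale.Agent.P283R.Sq.All
import Vale.Agent.P283R.Sq.Sb

/-!
# P283R, block SQ: the first part for given vector fields
-/

open Set
open scoped Kronecker Matrix

noncomputable section

namespace Vale.Agent.P283R.Sq

open Vale.Agent.P287D Sl

open A32 in
theorem abd_of (gcr : GCR) (geg : GEG) (bas : BAS) (tan : TAN) (com : COM) (lfr : LFR)
    (dns : DNS) (fac : FAC) (uni : UNI) (mov : MOV) (tra : TRA) (sem : SEM) (bnd : BND)
    (lat : LAT) : ABD := by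
  intro N L _ _ x G l r D D' hd hb H hH hsp
  have hR := hd.red
  obtain ⟨-, hΓ⟩ := bas N L x G l r hR
  obtain ⟨⟨n, hn⟩, hnor, hfac⟩ := fac N L x G l r hR
  obtain ⟨-, c2, c3, -⟩ := com N L x G l r D D' hd hb
  obtain ⟨t1, t2, -⟩ := tra N L x G l r hR hb
  refine ⟨n, hn, hnor, hfac, ?_, ?_, fun j a ha => (c2 j a ha).1, ?_, ?_, ?_,
    fun a ha => (t1 a ha).1, ?_, ?_, ?_, ?_, ?_, ?_,
    bnd N L x G l r D D' hd hb H hH hsp, lat N L x G l r D D' hd hb H hH hsp⟩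
  · intro σ hσ a ha
    obtain ⟨g, hg, rfl⟩ := (hΓ σ).1 hσ
    exact hb.lA g hg a ha
  · rintro _ ⟨g, hg, rfl⟩ a
    refine ⟨hb.rA g (hH hg) a, fun h => ?_⟩
    obtain ⟨h1, h2⟩ := hb.inv g (hH hg)
    have h3 := hb.rA _ h2 _ h
    have h4 : r g.adjugate (r g a) = a := by
      have := hb.rmul _ h2 g (hH hg)
      rw [Matrix.adjugate_mul, h1, one_smul] at this
      have h5 := r_one hR hb a
      rw [this] at h5
      exact h5
    rwa [h4] at h3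
  · rintro σ hσ _ ⟨h, hh, rfl⟩ a
    obtain ⟨g, hg, rfl⟩ := (hΓ σ).1 hσ
    exact hb.com g hg h (hH hh) a
  · rintro j _ ⟨h, hh, rfl⟩ a
    exact (c3 j h (hH hh) a).1
  · intro Γ' hΓ' W a ha hW j
    refine (lfr N L x G l r D D' hd hb {g ∈ G | l g ∈ Γ'} W (fun g hg => hg.1) a ha j
      (dns N L x G l r hR hb Γ' hΓ' j.1 j.2)).1 fun g hg => ?_
    exact hW _ ((hΓ _).2 ⟨g, hg.1, rfl⟩) hg.2
  · refine gcr _ L (zx x) _ (fun ξ : Lie G => Lm ξ.1) D (Bu G) _ hd.hL bu_l fun a => ?_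
    obtain ⟨η, hη⟩ := (tan N L x G l r hR).2.2.1 a
    exact ⟨η, (congrArg Lm hη).trans (lm_adj _)⟩
  · intro j hj φ hφ q hq h
    exact (geg _ L (zx x) _ (fun ξ : Lie G => Lm ξ.1) D (Bu G) _ hd.hL bu_l j hj φ hφ q hq h).1
  · intro u hu hu'
    refine (uni N L x G l r D D' hd hb u hu).1 fun ξ => ?_
    rw [div_eq_mul_inv]
    exact mul_mem (c2 ξ u hu).1 hu'
  · intro p hp hp'
    by_contra hn
    push Not at hn
    exact hp' (mov N L x G l r D D' hd hb p hp (Or.inl ((uni N L x G l r D D' hd hb p hp).1 hn)))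
  · intro c hc hc0 R hP
    obtain ⟨g, hg, h⟩ := t2 c hc hc0 R hP
    exact ⟨l g, (hΓ _).2 ⟨g, hg, rfl⟩, h⟩
  · rintro f hf hf0 h _ ⟨g, hg, rfl⟩
    exact sem N L x G l r D D' hd hb f hf hf0 g (hH hg) (h _ ⟨g, hg, rfl⟩).1 (h _ ⟨g, hg, rfl⟩).2

/-- **ABD** -/
theorem abd : ABD := abd_of gcr geg bas19 tan10 com77 lfr dns fac27 uni mov0 tra
  (sem com77 con tra) (bnd15 com77 fac27 uni mov0 tra irr0
    (dvd37 ghw lfr dis0 fac27 uni mov0 com77)) lat0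

end Vale.Agent.P283R.Sq
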