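import Vale.Agent.P283R.Sq.St

/-!
# P283R, block SQ: assembly of the first part
-/

open Set
open scoped Kronecker Matrix

noncomputable section

namespace Vale.Agent.P283R.Sq

open Vale.Agent.P287D Sl

namespace A32

variable {N : ℕ} {L : Type} [Field L] [Algebra ℂ L]

theorem lm_ne {g : Mat N} {u v : Fin N × Fin N} (h : Lm g u v ≠ 0) :
    g u.1 v.1 ≠ 0 ∧ u.2 = v.2 := by
  have e : Lm g u v = g u.1 v.1 * (1 : Mat N) u.2 v.2 := rfl
  rw [e] at h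
  refine ⟨left_ne_zero_of_mul h, ?_⟩
  by_contra hn
  exact right_ne_zero_of_mul h (Matrix.one_apply_ne hn)

theorem rm_ne {g : Mat N} {u v : Fin N × Fin N} (h : Rm g u v ≠ 0) :
    u.1 = v.1 ∧ g v.2 u.2 ≠ 0 := by
  have e : Rm g u v = (1 : Mat N) u.1 v.1 * g v.2 u.2 := rfl
  rw [e] at h
  refine ⟨?_, right_ne_zero_of_mul h⟩
  by_contra hn
  exact left_ne_zero_of_mul h (Matrix.one_apply_ne hn)

/-- the upper Borel algebra raises the row index -/
theorem bu_l {G : Set (Mat N)} (a : Lie G) (ha : a ∈ Bu G) :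
    Dia (Lm a.1) ∨ Rai (fun e : Fin N × Fin N => (e.1 : ℕ)) (Lm a.1) := by
  rcases ha with ha | ha
  · exact Or.inl fun u v h => Prod.ext (ha _ _ (lm_ne h).1) (lm_ne h).2
  · exact Or.inr fun u v h => ha _ _ (lm_ne h).1

theorem lm_adj (g : Mat N) : Lm gᴴ = (Lm g)ᴴ := by
  simp only [Lm, Matrix.conjTranspose_kronecker, Matrix.conjTranspose_one]

theorem r_one {x : Matrix (Fin N) (Fin N) L} {G : Set (Mat N)} {l r : Mat N → L ≃ₐ[ℂ] L}
    (hR : Reductive x G l r) (hb : Bas x G l r) (a : L) : r 1 a = a := by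
  have h := hb.ext (r 1 : L →ₐ[ℂ] L) (AlgHom.id ℂ L) fun e => by
    have := hR.right 1 hR.one e.1 e.2
    simp only [Matrix.one_apply, ite_smul, one_smul, zero_smul, Finset.sum_ite_eq',
      Finset.mem_univ, if_true] at this
    exact this
  exact DFunLike.congr_fun h a

theorem span {x : Matrix (Fin N) (Fin N) L} {G H : Set (Mat N)} {l r : Mat N → L ≃ₐ[ℂ] L}
    (tan : TAN) (hR : Reductive x G l r) (hH : H ⊆ G)
    (hs : ∀ ξ, Tangent G ξ → ∃ β, Borel G β ∧ Tangent H (ξ - β)) (ξ : Lie G) :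
    ξ.1 ∈ Submodule.span ℂ (Subtype.val '' (Bu G ∪ {η | Tangent H η.1})) := by
  obtain ⟨t1, -, -, t4⟩ := tan N L x G l r hR
  obtain ⟨β, ⟨hβ, hu⟩, hη⟩ := hs ξ.1 ξ.2
  obtain ⟨τ, ν, μ, e, hτ, hν, hμ⟩ := t4 ⟨β, hβ⟩
  have hμ0 : μ.1 = 0 := by
    ext i j
    by_contra hn
    have hji := hμ i j hn
    have h1 : τ.1 i j = 0 := by
      by_contra h
      exact hji.ne' (hτ i j h)
    have h2 : ν.1 i j = 0 := by
      by_contra h
      exact lt_asymm hji (hν i j h)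
    have h3 := congrFun (congrFun e i) j
    have h4 : β i j = 0 := hu i j hji
    simp only [Matrix.add_apply, h1, h2, h4, zero_add] at h3
    exact hn h3.symm
  have e' : ξ.1 = τ.1 + ν.1 + (ξ.1 - β) := by
    have : β = τ.1 + ν.1 := by simpa [hμ0] using e
    rw [← this]
    abel
  rw [e']
  refine add_mem (add_mem ?_ ?_) ?_
  · exact Submodule.subset_span ⟨τ, Or.inl (Or.inl hτ), rfl⟩
  · exact Submodule.subset_span ⟨ν, Or.inl (Or.inr hν), rfl⟩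
  · exact Submodule.subset_span ⟨⟨ξ.1 - β, t1 H hH _ hη⟩, Or.inr hη, rfl⟩

end A32

open A32 in
/-- **ABG** -/
theorem abg (gcr : GCR) (geg : GEG) (bas : BAS) (der : DER) (tan : TAN) (com : COM) (lfr : LFR)
    (dns : DNS) (fac : FAC) (uni : UNI) (mov : MOV) (tra : TRA) (sem : SEM) (bnd : BND)
    (lat : LAT) : ABG := by
  intro N L _ _ x G l r hR H hH hs
  obtain ⟨hb, hΓ⟩ := bas N L x G l r hR
  obtain ⟨D, D', hd⟩ := der N L x G l r hR hb
  obtain ⟨⟨n, hn⟩, hnor, hfac⟩ := fac N L x G l r hR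
  obtain ⟨-, c2, c3, -⟩ := com N L x G l r D D' hd hb
  obtain ⟨t1, t2, -⟩ := tra N L x G l r hR hb
  have hsp := span tan hR hH hs
  refine ⟨n, D, hn, hnor, hfac, ?_, ?_, fun j a ha => (c2 j a ha).1, ?_, ?_, ?_,
    fun a ha => (t1 a ha).1, ?_, ?_, ?_, ?_, ?_, ?_,
    bnd N L x G l r D D' hd hb H hH hsp, lat N L x G l r D D' hd hb H hH hsp⟩
  · intro σ hσ a ha
    obtain ⟨g, hg, rfl⟩ := (hΓ σ).1 hσ
    exact hb.lA g hg a ha
  · rintro _ ⟨g, hg, rfl⟩ a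
    refine ⟨hb.rA g (hH hg) a, fun h => ?_⟩
    obtain ⟨h1, h2⟩ := hb.inv g (hH hg)
    have h3 := hb.rA _ h2 _ h
    have h4 : r g.adjugate (r g a) = a := by
      have := hb.rmul _ h2 g (hH hg)
      rw [Matrix.adjugate_mul, h1, one_smul] at this
      have h5 := r_one hR hb a
      rw [this] at h5
      exact h5
    rwa [h4] at h3
  · rintro σ hσ _ ⟨h, hh, rfl⟩ a
    obtain ⟨g, hg, rfl⟩ := (hΓ σ).1 hσ
    exact hb.com g hg h (hH hh) a
  · rintro j _ ⟨h, hh, rfl⟩ a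
    exact (c3 j h (hH hh) a).1
  · intro Γ' hΓ' W a ha hW j
    refine (lfr N L x G l r D D' hd hb {g ∈ G | l g ∈ Γ'} W (fun g hg => hg.1) a ha j
      (dns N L x G l r hR hb Γ' hΓ' j.1 j.2)).1 fun g hg => ?_
    exact hW _ ((hΓ _).2 ⟨g, hg.1, rfl⟩) hg.2
  · refine gcr _ L (zx x) _ (fun ξ : Lie G => Lm ξ.1) D (Bu G) _ hd.hL bu_l fun a => ?_
    obtain ⟨η, hη⟩ := (tan N L x G l r hR).2.2.1 a
    exact ⟨η, (congrArg Lm hη).trans (lm_adj _)⟩
  · intro j hj φ hφ q hq h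
    exact (geg _ L (zx x) _ (fun ξ : Lie G => Lm ξ.1) D (Bu G) _ hd.hL bu_l j hj φ hφ q hq h).1
  · intro u hu hu'
    refine (uni N L x G l r D D' hd hb u hu).1 fun ξ => ?_
    rw [div_eq_mul_inv]
    exact mul_mem (c2 ξ u hu).1 hu'
  · intro p hp hp'
    by_contra hn
    push Not at hn
    exact hp' (mov N L x G l r D D' hd hb p hp (Or.inl ((uni N L x G l r D D' hd hb p hp).1 hn)))
  · intro c hc hc0 R hP
    obtain ⟨g, hg, h⟩ := t2 c hc hc0 R hP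
    exact ⟨l g, (hΓ _).2 ⟨g, hg, rfl⟩, h⟩
  · rintro f hf hf0 h _ ⟨g, hg, rfl⟩
    exact sem N L x G l r D D' hd hb f hf hf0 g (hH hg) (h _ ⟨g, hg, rfl⟩).1 (h _ ⟨g, hg, rfl⟩).2

end Vale.Agent.P283R.Sq
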