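import Vale.Agent.P283R.Sq.Dns19

/-!
# P283R, block SQ: the elementary facts on the group
-/

open MvPolynomial

noncomputable section

namespace Vale.Agent.P283R.Sq

open Sl

namespace B19

variable {N : ℕ}

/-- the generic matrix -/
def gx (N : ℕ) : Matrix (Fin N) (Fin N) (MvPolynomial (Fin N × Fin N) ℂ) := fun i j => X (i, j)

section ring

variable {R S : Type} [CommRing R] [Algebra ℂ R] [CommRing S] [Algebra ℂ S]

theorem map_at (φ : R →ₐ[ℂ] S) (y : Matrix (Fin N) (Fin N) R) (p : MvPolynomial (Fin N × Fin N) ℂ) :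
    φ (atMat y p) = atMat (y.map φ) p := by
  rw [atMat, atMat, ← AlgHom.comp_apply, comp_aeval]
  rfl

/-- the evaluation -/
def ev (y : Matrix (Fin N) (Fin N) R) : MvPolynomial (Fin N × Fin N) ℂ →ₐ[ℂ] R :=
  aeval fun e => y e.1 e.2

theorem ev_gx (y : Matrix (Fin N) (Fin N) R) : (gx N).map (ev y) = y := by
  ext i j
  simp [gx, ev]

/-- constant matrices -/
def cs (R : Type) [CommRing R] [Algebra ℂ R] (g : Mat N) : Matrix (Fin N) (Fin N) R :=
  g.map (algebraMap ℂ R)

theorem map_cs (φ : R →ₐ[ℂ] S) (g : Mat N) : (cs R g).map φ = cs S g := by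
  ext i j
  simp [cs]

theorem cs_mul (g h : Mat N) : cs R (g * h) = cs R g * cs R h := Matrix.map_mul

theorem cs_one : cs R (1 : Mat N) = 1 := Matrix.map_one _ (map_zero _) (map_one _)

theorem cs_self (g : Mat N) : cs ℂ g = g := by
  ext i j
  simp [cs]

theorem mm (φ : R →ₐ[ℂ] S) (a b : Matrix (Fin N) (Fin N) R) :
    (a * b).map φ = a.map φ * b.map φ := Matrix.map_mul

theorem at_l (y : Matrix (Fin N) (Fin N) R) (g : Mat N) (p : MvPolynomial (Fin N × Fin N) ℂ) :
    atMat y (atMat (cs _ g * gx N) p) = atMat (cs R g * y) p := by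
  have := map_at (ev y) (cs _ g * gx N) p
  rwa [mm, map_cs, ev_gx] at this

theorem at_r (y : Matrix (Fin N) (Fin N) R) (g : Mat N) (p : MvPolynomial (Fin N × Fin N) ℂ) :
    atMat y (atMat (gx N * cs _ g) p) = atMat (y * cs R g) p := by
  have := map_at (ev y) (gx N * cs _ g) p
  rwa [mm, map_cs, ev_gx] at this

theorem at_det (y : Matrix (Fin N) (Fin N) R) : atMat y ((gx N).det - 1) = y.det - 1 := by
  show ev y _ = _
  rw [map_sub, map_one, AlgHom.map_det]
  exact congrArg (fun m : Matrix _ _ R => m.det - 1) (ev_gx y)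

end ring

variable {L : Type} [Field L] [Algebra ℂ L] {x : Matrix (Fin N) (Fin N) L}
  {G : Set (Mat N)} {l r : Mat N → L ≃ₐ[ℂ] L} (h : Reductive x G l r)

include h

theorem lx {g : Mat N} (hg : g ∈ G) : x.map (l g : L →ₐ[ℂ] L) = cs L g * x := by
  ext i j
  simp [h.left g hg, Matrix.mul_apply, cs, Algebra.smul_def]

theorem rx {g : Mat N} (hg : g ∈ G) : x.map (r g : L →ₐ[ℂ] L) = x * cs L g := by
  ext i j
  simp [h.right g hg, Matrix.mul_apply, cs, Algebra.smul_def, mul_comm]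

theorem l_at {g : Mat N} (hg : g ∈ G) (p : MvPolynomial (Fin N × Fin N) ℂ) :
    l g (atMat x p) = atMat x (atMat (cs _ g * gx N) p) := by
  rw [at_l, ← lx h hg, ← map_at]
  rfl

theorem r_at {g : Mat N} (hg : g ∈ G) (p : MvPolynomial (Fin N × Fin N) ℂ) :
    r g (atMat x p) = atMat x (atMat (gx N * cs _ g) p) := by
  rw [at_r, ← rx h hg, ← map_at]
  rfl

theorem same {p q : MvPolynomial (Fin N × Fin N) ℂ} (e : atMat x p = atMat x q) {g : Mat N}
    (hg : g ∈ G) : atMat g p = atMat g q := by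
  have := (h.points g).1 hg (p - q) (by
    show ev x _ = 0
    rw [map_sub]
    exact sub_eq_zero.2 e)
  change ev g _ = 0 at this
  rw [map_sub] at this
  exact sub_eq_zero.1 this

theorem lv {g k : Mat N} (hg : g ∈ G) (hk : k ∈ G) {p q : MvPolynomial (Fin N × Fin N) ℂ}
    (e : l g (atMat x p) = atMat x q) : atMat k q = atMat (g * k) p := by
  rw [l_at h hg] at e
  rw [← same h e hk, at_l, cs_self]

theorem rv {g k : Mat N} (hg : g ∈ G) (hk : k ∈ G) {p q : MvPolynomial (Fin N × Fin N) ℂ}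
    (e : r g (atMat x p) = atMat x q) : atMat k q = atMat (k * g) p := by
  rw [r_at h hg] at e
  rw [← same h e hk, at_r, cs_self]

theorem mul {g k : Mat N} (hg : g ∈ G) (hk : k ∈ G) : g * k ∈ G := (h.points _).2 fun p e => by
  rw [← lv h hg hk (q := 0) (by rw [e, map_zero]; exact (map_zero (ev x)).symm)]
  exact map_zero (ev k)

theorem det {g : Mat N} (hg : g ∈ G) : g.det = 1 := by
  have := (h.points g).1 hg _ (by rw [at_det, h.det, sub_self])
  rw [at_det] at this
  exact sub_eq_zero.1 this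

theorem adj {g : Mat N} (hg : g ∈ G) : g.adjugate ∈ G := (h.points _).2 fun p e => by
  have k : atMat x (atMat (cs _ g.adjugate * gx N) p) = 0 := (l g).injective (by
    rw [at_l, map_zero]
    refine (map_at (l g : L →ₐ[ℂ] L) _ p).trans ?_
    rw [mm, map_cs, lx h hg, ← mul_assoc, ← cs_mul, Matrix.adjugate_mul, det h hg, one_smul,
      cs_one, one_mul, e])
  have := (h.points 1).1 h.one _ k
  rwa [at_l, cs_self, mul_one] at this

theorem ext (σ τ : L →ₐ[ℂ] L) (e : x.map σ = x.map τ) : σ = τ := AlgHom.ext fun a => by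
  obtain ⟨p, q, rfl⟩ := h.frac a
  rw [map_div₀, map_div₀, map_at, map_at, map_at, map_at, e]

theorem exd (δ δ' : Derivation ℂ L L) (e : ∀ u, δ (zx x u) = δ' (zx x u)) : δ = δ' := by
  have k : ∀ p, δ (ev x p) = δ' (ev x p) := fun p => by
    induction p using MvPolynomial.induction_on with
    | C c => simp [ev]
    | add p q hp hq => simp only [map_add, hp, hq]
    | mul_X p u hp =>
      have : ev x (X u) = zx x u := aeval_X _ _
      rw [map_mul, Derivation.leibniz, Derivation.leibniz, hp, this, e]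
  refine Derivation.ext fun a => ?_
  obtain ⟨p, q, rfl⟩ := h.frac a
  rw [Derivation.leibniz_div, Derivation.leibniz_div]
  exact congrArg₂ (fun u v => (atMat x q)⁻¹ ^ 2 • (atMat x q • u - atMat x p • v)) (k p) (k q)

theorem nul (p : MvPolynomial (Fin N × Fin N) ℂ) (e : ∀ g ∈ G, atMat g p = 0) :
    atMat x p = 0 := by
  have : (RingHom.ker (ev x)).IsPrime := RingHom.ker_isPrime _
  have k : p ∈ vanishingIdeal ℂ (zeroLocus ℂ (RingHom.ker (ev x))) :=
    mem_vanishingIdeal_iff.2 fun P hP =>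
      e (Matrix.of fun i j => P (i, j)) ((h.points _).2 fun q hq => hP q hq)
  rwa [IsPrime.vanishingIdeal_zeroLocus] at k

theorem pt (I : Ideal (Rg (zx x))) (hI : I ≠ ⊤) : ∃ g ∈ G, ∀ p (a : Rg (zx x)), a ∈ I →
    (a : L) = atMat x p → atMat g p = 0 := by
  let π : MvPolynomial (Fin N × Fin N) ℂ →ₐ[ℂ] Rg (zx x) :=
    (aeval (zx x) : MvPolynomial (Fin N × Fin N) ℂ →ₐ[ℂ] L).rangeRestrict
  obtain ⟨m, hm, le⟩ := Ideal.exists_le_maximal (I.comap π) (Ideal.comap_ne_top _ hI)
  obtain ⟨P, rfl⟩ := isMaximal_iff_eq_vanishingIdeal_singleton.1 hm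
  have k : ∀ p (a : Rg (zx x)), a ∈ I → (a : L) = atMat x p →
      atMat (Matrix.of fun i j => P (i, j) : Mat N) p = 0 := fun p a ha e => by
    have : p ∈ I.comap π := by
      rw [Ideal.mem_comap, show π p = a from Subtype.ext e.symm]
      exact ha
    exact mem_vanishingIdeal_iff.1 (le this) P rfl
  exact ⟨_, (h.points _).2 fun p e => k p 0 I.zero_mem e.symm, k⟩

theorem bas : Bas x G l r where
  nul := nul h
  mul _ hg _ hk := mul h hg hk
  inv _ hg := ⟨det h hg, adj h hg⟩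
  ll g hg u := by
    simp [zx, Lm, h.left g hg, Fintype.sum_prod_type, Matrix.one_apply]
  rl g hg u := by
    simp [zx, Rm, h.right g hg, Fintype.sum_prod_type, Matrix.one_apply]
  ext σ τ e := ext h σ τ (Matrix.ext fun i j => e (i, j))
  exd := exd h
  lmul g hg k hk := AlgEquiv.coe_toAlgHom_injective (ext h _ _ (by
    rw [lx h (mul h hg hk), cs_mul, mul_assoc, ← lx h hk, ← map_cs (l k : L →ₐ[ℂ] L) g, ← mm,
      ← lx h hg]
    rfl))
  rmul g hg k hk := AlgEquiv.coe_toAlgHom_injective (ext h _ _ (by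
    rw [rx h (mul h hg hk), cs_mul, ← mul_assoc, ← rx h hg, ← map_cs (r g : L →ₐ[ℂ] L) k, ← mm,
      ← rx h hk]
    rfl))
  com g hg k hk a := by
    refine AlgHom.congr_fun (ext h ((l g : L →ₐ[ℂ] L).comp (r k)) ((r k : L →ₐ[ℂ] L).comp (l g))
      ?_) a
    show (x.map (r k : L →ₐ[ℂ] L)).map (l g : L →ₐ[ℂ] L) =
      (x.map (l g : L →ₐ[ℂ] L)).map (r k : L →ₐ[ℂ] L)
    rw [rx h hk, mm, lx h hg, mm, rx h hk, map_cs, map_cs, mul_assoc]
  lA g hg := by
    rintro _ ⟨p, rfl⟩
    exact ⟨_, (l_at h hg p).symm⟩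
  rA g hg := by
    rintro _ ⟨p, rfl⟩
    exact ⟨_, (r_at h hg p).symm⟩
  lv _ hg _ hk _ _ e := lv h hg hk e
  rv _ hg _ hk _ _ e := rv h hg hk e
  pt := pt h

end B19

/-- **BAS** -/
theorem bas19 : BAS := fun _ _ _ _ _ G l _ h => by
  have b := B19.bas h
  refine ⟨b, fun σ => ⟨fun m => ?_, fun ⟨g, hg, e⟩ => Subgroup.subset_closure ⟨g, hg, e⟩⟩⟩
  induction m using Subgroup.closure_induction with
  | mem σ m => exact m
  | one => exact ⟨1, h.one, N19.l_one h b⟩
  | mul σ τ _ _ a c =>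
    obtain ⟨g, hg, rfl⟩ := a
    obtain ⟨k, hk, rfl⟩ := c
    exact ⟨k * g, b.mul k hk g hg, b.lmul k hk g hg⟩
  | inv σ _ a =>
    obtain ⟨g, hg, rfl⟩ := a
    exact ⟨_, (b.inv g hg).2, N19.l_adj h b hg⟩

end Vale.Agent.P283R.Sq
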