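import Mathlib

/-!
# P283R, block SQ: spaces of left eigenfunctions, their dimension and the number of colours
-/

noncomputable section

namespace Vale.Agent.P283R.Sq.B37

variable {L B J : Type*} [Field L] [Algebra ℂ L]

/-- the elements of `A` of left weight `ν` -/
def Wt (A : Subalgebra ℂ L) (Dl : B → Derivation ℂ L L) (ν : B → ℂ) : Submodule ℂ L where
  carrier := {a | a ∈ A ∧ ∀ b, Dl b a = ν b • a}
  add_mem' := fun h h' => ⟨A.add_mem h.1 h'.1, fun b => by rw [map_add, h.2, h'.2, smul_add]⟩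
  zero_mem' := ⟨A.zero_mem, fun b => by simp⟩
  smul_mem' := fun c a h => ⟨A.smul_mem h.1 c, fun b => by
    rw [Derivation.map_smul, h.2, smul_comm]⟩

/-- left operators `Dl` (Borel), right operators `Dr` (all of the Lie algebra), lowest weight
vectors `Lw` for the right action -/
structure Two (A : Subalgebra ℂ L) (Dl : B → Derivation ℂ L L) (Dr : J → Derivation ℂ L L)
    (Lw : L → Prop) : Prop where
  com : ∀ b j a, Dl b (Dr j a) = Dr j (Dl b a)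
  stl : ∀ b, ∀ a ∈ A, Dl b a ∈ A
  str : ∀ j, ∀ a ∈ A, Dr j a ∈ A
  con : ∃ J0 : Set J, (∀ a, Lw a → ∀ j ∈ J0, Dr j a = 0) ∧
    ∀ a, (∀ b, Dl b a = 0) → (∀ j ∈ J0, Dr j a = 0) → ∃ c : ℂ, a = algebraMap ℂ L c
  crr : ∀ W' W : Submodule ℂ L, W' ≤ W → (∀ a ∈ W, a ∈ A) → (∀ j, ∀ a ∈ W', Dr j a ∈ W') →
    (∀ j, ∀ a ∈ W, Dr j a ∈ W) → (∀ a ∈ W, a ≠ 0 → Lw a → a ∈ W') → W ≤ W'
  hwl : ∀ W : Submodule ℂ L, W ≠ ⊥ → (∀ a ∈ W, a ∈ A) → (∀ b, ∀ a ∈ W, Dl b a ∈ W) →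
    ∃ a ∈ W, a ≠ 0 ∧ ∀ b, ∃ c : ℂ, Dl b a = c • a

variable {A : Subalgebra ℂ L} {Dl : B → Derivation ℂ L L} {Dr : J → Derivation ℂ L L}
  {Lw : L → Prop}

theorem wt_mul {ν ν' : B → ℂ} {a a' : L} (h : a ∈ Wt A Dl ν) (h' : a' ∈ Wt A Dl ν') :
    a * a' ∈ Wt A Dl (ν + ν') := by
  refine ⟨A.mul_mem h.1 h'.1, fun b => ?_⟩
  rw [Derivation.leibniz, h.2, h'.2]
  simp only [Algebra.smul_def, Pi.add_apply, map_add, Algebra.algebraMap_self, RingHom.id_apply]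
  ring

theorem wt_one : (1 : L) ∈ Wt A Dl 0 := ⟨A.one_mem, fun b => by simp⟩

theorem wt_prod {ι : Type*} (s : Finset ι) (f : ι → L) (ν : ι → B → ℂ)
    (h : ∀ i ∈ s, f i ∈ Wt A Dl (ν i)) : ∏ i ∈ s, f i ∈ Wt A Dl (∑ i ∈ s, ν i) := by
  classical
  induction s using Finset.induction_on with
  | empty => simpa using wt_one
  | insert i s hi ih =>
    rw [Finset.prod_insert hi, Finset.sum_insert hi]
    exact wt_mul (h i (Finset.mem_insert_self _ _))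
      (ih fun k hk => h k (Finset.mem_insert_of_mem hk))

theorem Two.wt_st (h : Two A Dl Dr Lw) (ν : B → ℂ) (j : J) :
    ∀ a ∈ Wt A Dl ν, Dr j a ∈ Wt A Dl ν := fun a ha =>
  ⟨h.str j a ha.1, fun b => by rw [h.com, ha.2, Derivation.map_smul]⟩

/-- the spaces of left eigenfunctions are irreducible for the right action -/
theorem Two.irr (h : Two A Dl Dr Lw) (ν : B → ℂ) (W : Submodule ℂ L) (hW : W ≠ ⊥)
    (le : W ≤ Wt A Dl ν) (st : ∀ j, ∀ a ∈ W, Dr j a ∈ W) : Wt A Dl ν ≤ W := by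
  obtain ⟨J0, h0, h1⟩ := h.con
  have ex : ∃ a ∈ W, a ≠ 0 ∧ Lw a := by
    by_contra hn
    refine hW (le_bot_iff.1 (h.crr ⊥ W bot_le (fun a ha => (le ha).1) ?_ st ?_))
    · intro j a ha
      rw [(Submodule.mem_bot ℂ).1 ha, map_zero]
      exact Submodule.zero_mem _
    · exact fun a ha a0 hl => (hn ⟨a, ha, a0, hl⟩).elim
  obtain ⟨a0, m0, n0, l0⟩ := ex
  refine h.crr W _ le (fun a ha => ha.1) st (h.wt_st ν) fun a ha _ hl => ?_
  have e1 : ∀ b, Dl b (a / a0) = 0 := fun b => by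
    rw [Derivation.leibniz_div, ha.2, (le m0).2]
    simp only [Algebra.smul_def, Algebra.algebraMap_self, RingHom.id_apply]
    ring
  have e2 : ∀ j ∈ J0, Dr j (a / a0) = 0 := fun j hj => by
    rw [Derivation.leibniz_div, h0 a hl j hj, h0 a0 l0 j hj]
    simp
  obtain ⟨c, hc⟩ := h1 (a / a0) e1 e2
  rw [div_eq_iff n0, ← Algebra.smul_def] at hc
  rw [hc]
  exact W.smul_mem c m0

/-- multiplication by a nonzero eigenfunction embeds the spaces -/
theorem fin_le {ν ν' : B → ℂ} {g : L} (hg : g ∈ Wt A Dl ν') (g0 : g ≠ 0) (V : Submodule ℂ L)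
    [FiniteDimensional ℂ V] (le : Wt A Dl (ν + ν') ≤ V) :
    FiniteDimensional ℂ (Wt A Dl ν) ∧ Module.finrank ℂ (Wt A Dl ν) ≤ Module.finrank ℂ V := by
  let T : Wt A Dl ν →ₗ[ℂ] V :=
    ((LinearMap.mulRight ℂ g).domRestrict _).codRestrict V fun a => le (wt_mul a.2 hg)
  have hT : Function.Injective T := fun a a' e =>
    Subtype.ext (mul_right_cancel₀ g0 (congrArg Subtype.val e))
  exact ⟨Module.Finite.of_injective T hT, LinearMap.finrank_le_finrank_of_injective hT⟩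

/-- an eigenfunction that divides a nonzero element of a finite dimensional stable space -/
theorem Two.top (h : Two A Dl Dr Lw) (V : Submodule ℂ L) (vA : ∀ a ∈ V, a ∈ A)
    (vl : ∀ b, ∀ a ∈ V, Dl b a ∈ V) (vr : ∀ j, ∀ a ∈ V, Dr j a ∈ V) {ν : B → ℂ} {F g : L}
    (hF : F ∈ Wt A Dl ν) (hg : g ∈ A) (m : F * g ∈ V) (n : F * g ≠ 0) :
    ∃ ν' g', g' ∈ Wt A Dl ν' ∧ g' ≠ 0 ∧ Wt A Dl (ν + ν') ≤ V := by
  have F0 : F ≠ 0 := left_ne_zero_of_mul n
  let W : Submodule ℂ L := V ⊓ A.toSubmodule.map (LinearMap.mulLeft ℂ F)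
  have lb : ∀ b a, Dl b (F * a) = F * (Dl b a + ν b • a) := fun b a => by
    rw [Derivation.leibniz, hF.2]
    simp only [Algebra.smul_def, Algebra.algebraMap_self, RingHom.id_apply]
    ring
  obtain ⟨a, ⟨ha, g', hg', rfl⟩, a0, ea⟩ := h.hwl W
    ((Submodule.ne_bot_iff _).2 ⟨F * g, ⟨m, g, hg, rfl⟩, n⟩) (fun a ha => vA a ha.1) (by
      rintro b a ⟨ha, g', hg', rfl⟩
      exact ⟨vl b _ ha, Dl b g' + ν b • g', A.add_mem (h.stl b g' hg') (A.smul_mem hg' _),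
        (lb b g').symm⟩)
  choose μ hμ using ea
  have e : ∀ b, Dl b g' = (μ - ν) b • g' := fun b => by
    have h1 : Dl b (F * g') = μ b • (F * g') := hμ b
    rw [lb, ← mul_smul_comm] at h1
    rw [Pi.sub_apply, sub_smul, ← mul_left_cancel₀ F0 h1, add_sub_cancel_right]
  have w : g' ∈ Wt A Dl (μ - ν) := ⟨hg', e⟩
  refine ⟨μ - ν, g', w, right_ne_zero_of_mul (show F * g' ≠ 0 from a0), ?_⟩
  refine (h.irr _ (V ⊓ Wt A Dl (ν + (μ - ν))) ?_ inf_le_right ?_).trans inf_le_left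
  · exact (Submodule.ne_bot_iff _).2 ⟨F * g', ⟨ha, wt_mul hF w⟩, a0⟩
  · exact fun j a ha => ⟨vr j a ha.1, h.wt_st _ j a ha.2⟩

/-- the dimension bound: every factor of the product has a small space of eigenfunctions -/
theorem Two.dim (h : Two A Dl Dr Lw) (V : Submodule ℂ L) [FiniteDimensional ℂ V]
    (vA : ∀ a ∈ V, a ∈ A) (vl : ∀ b, ∀ a ∈ V, Dl b a ∈ V) (vr : ∀ j, ∀ a ∈ V, Dr j a ∈ V)
    {ν : B → ℂ} {F g : L} (hF : F ∈ Wt A Dl ν) (hg : g ∈ A) (m : F * g ∈ V) (n : F * g ≠ 0) :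
    FiniteDimensional ℂ (Wt A Dl ν) ∧ Module.finrank ℂ (Wt A Dl ν) ≤ Module.finrank ℂ V := by
  obtain ⟨ν', g', w, g0, le⟩ := h.top V vA vl vr hF hg m n
  exact fin_le w g0 V le

/-- the strict chain: the number of factors is smaller than the dimension -/
theorem Two.chain (h : Two A Dl Dr Lw) {ι : Type*} (f : ι → L) (ν : ι → B → ℂ) (s : Finset ι)
    (hf : ∀ i ∈ s, f i ∈ Wt A Dl (ν i)) (f0 : ∀ i ∈ s, f i ≠ 0)
    (nd : ∀ i ∈ s, ∀ t ⊆ s, i ∉ t → ∃ j, ∀ a ∈ A, (∏ k ∈ t, f k) * Dr j (f i) ≠ f i * a)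
    (fd : FiniteDimensional ℂ (Wt A Dl (∑ i ∈ s, ν i))) :
    s.card < Module.finrank ℂ (Wt A Dl (∑ i ∈ s, ν i)) := by
  classical
  induction s using Finset.induction_on with
  | empty =>
    rw [Finset.card_empty, Module.finrank_pos_iff, Submodule.nontrivial_iff_ne_bot]
    exact (Submodule.ne_bot_iff _).2 ⟨1, by simpa using wt_one, one_ne_zero⟩
  | insert i s hi ih =>
    have mi := Finset.mem_insert_self i s
    have sb : ∀ k ∈ s, k ∈ insert i s := fun k hk => Finset.mem_insert_of_mem hk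
    rw [Finset.sum_insert hi, add_comm] at fd ⊢
    rw [Finset.card_insert_of_notMem hi]
    have fs := (fin_le (hf i mi) (f0 i mi) _ (le_refl (Wt A Dl (∑ k ∈ s, ν k + ν i)))).1
    have h1 := ih (fun k hk => hf k (sb k hk)) (fun k hk => f0 k (sb k hk))
      (fun k hk t ht => nd k (sb k hk) t (ht.trans (Finset.subset_insert _ _))) fs
    let U := (Wt A Dl (∑ k ∈ s, ν k)).map (LinearMap.mulRight ℂ (f i))
    have ule : U ≤ Wt A Dl (∑ k ∈ s, ν k + ν i) := by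
      rintro _ ⟨a, ha, rfl⟩
      exact wt_mul ha (hf i mi)
    have ud : Module.finrank ℂ U = Module.finrank ℂ (Wt A Dl (∑ k ∈ s, ν k)) :=
      (Submodule.equivMapOfInjective _ (fun a a' e => mul_right_cancel₀ (f0 i mi) e)
        _).finrank_eq.symm
    have lt : U < Wt A Dl (∑ k ∈ s, ν k + ν i) := by
      refine lt_of_le_of_ne ule fun e => ?_
      obtain ⟨j, hj⟩ := nd i mi s (Finset.subset_insert _ _) hi
      have w := wt_prod s f ν fun k hk => hf k (sb k hk)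
      have w1 := h.wt_st _ j _ (wt_mul w (hf i mi))
      rw [← e] at w1
      obtain ⟨a, ha, ea⟩ := w1
      refine hj (a - Dr j (∏ k ∈ s, f k)) (A.sub_mem ha.1 (h.str j _ w.1)) ?_
      rw [Derivation.leibniz, LinearMap.mulRight_apply, smul_eq_mul, smul_eq_mul] at ea
      linear_combination -ea
    have h2 := Submodule.finrank_lt_finrank_of_lt lt
    omega

/-- the two bounds for a family of eigenfunctions whose product divides a nonzero element of `V` -/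
theorem Two.bnd (h : Two A Dl Dr Lw) (V : Submodule ℂ L) [FiniteDimensional ℂ V]
    (vA : ∀ a ∈ V, a ∈ A) (vl : ∀ b, ∀ a ∈ V, Dl b a ∈ V) (vr : ∀ j, ∀ a ∈ V, Dr j a ∈ V)
    {ι : Type*} (f : ι → L) (ν : ι → B → ℂ) (s : Finset ι) (hf : ∀ i ∈ s, f i ∈ Wt A Dl (ν i))
    (nd : ∀ i ∈ s, ∀ t ⊆ s, i ∉ t → ∃ j, ∀ a ∈ A, (∏ k ∈ t, f k) * Dr j (f i) ≠ f i * a)
    {g : L} (hg : g ∈ A) (m : (∏ i ∈ s, f i) * g ∈ V) (n : (∏ i ∈ s, f i) * g ≠ 0) :
    s.card < Module.finrank ℂ V ∧ ∀ i ∈ s, FiniteDimensional ℂ (Wt A Dl (ν i)) ∧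
      Module.finrank ℂ (Wt A Dl (ν i)) ≤ Module.finrank ℂ V := by
  classical
  have f0 : ∀ i ∈ s, f i ≠ 0 := Finset.prod_ne_zero_iff.1 (left_ne_zero_of_mul n)
  obtain ⟨fd, le⟩ := h.dim V vA vl vr (wt_prod s f ν hf) hg m n
  refine ⟨(h.chain f ν s hf f0 nd fd).trans_le le, fun i hi => ?_⟩
  have e : (∏ k ∈ s, f k) * g = f i * ((∏ k ∈ s.erase i, f k) * g) := by
    rw [← Finset.mul_prod_erase s f hi, mul_assoc]
  rw [e] at m n
  exact h.dim V vA vl vr (hf i hi) (A.mul_mem (A.prod_mem fun k hk =>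
    (hf k (Finset.mem_of_mem_erase hk)).1) hg) m n

end Vale.Agent.P283R.Sq.B37
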