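import Vale.Agent.P283R.Sq.St
import Vale.Agent.P283R.Sq.Bn37
import Vale.Agent.P283R.Tp.Hrt

/-!
# P283R, block SQ: the number of the colours and the dimension of their orbits
-/

open Set

noncomputable section

namespace Vale.Agent.P283R.Sq

open Vale.Agent.P287D Vale.Agent.P297Z Sl B37

namespace B15

variable {L B J : Type} [Field L] [Algebra ℂ L] {A : Subalgebra ℂ L} {Dl : B → Derivation ℂ L L}
  {Dr : J → Derivation ℂ L L}

/-- the strict chain -/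
theorem chain (com : ∀ b j a, Dl b (Dr j a) = Dr j (Dl b a)) (str : ∀ j, ∀ a ∈ A, Dr j a ∈ A)
    {ι : Type} (f : ι → L) (ν : ι → B → ℂ) (s : Finset ι) (hf : ∀ i, f i ∈ Wt A Dl (ν i))
    (f0 : ∀ i, f i ≠ 0)
    (nd : ∀ (i) (t : Finset ι), i ∉ t → ∃ j, ∀ a ∈ A, (∏ k ∈ t, f k) * Dr j (f i) ≠ f i * a)
    (fd : FiniteDimensional ℂ (Wt A Dl (∑ i ∈ s, ν i))) :
    s.card ≤ Module.finrank ℂ (Wt A Dl (∑ i ∈ s, ν i)) := by
  classical
  induction s using Finset.induction_on with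
  | empty => exact Nat.zero_le _
  | insert i s hi ih =>
    rw [Finset.sum_insert hi, add_comm] at fd ⊢
    rw [Finset.card_insert_of_notMem hi]
    have h1 := ih (fin_le (hf i) (f0 i) _ (le_refl (Wt A Dl (∑ k ∈ s, ν k + ν i)))).1
    let U := (Wt A Dl (∑ k ∈ s, ν k)).map (LinearMap.mulRight ℂ (f i))
    have ule : U ≤ Wt A Dl (∑ k ∈ s, ν k + ν i) := by
      rintro _ ⟨a, ha, rfl⟩
      exact wt_mul ha (hf i)
    have ud : Module.finrank ℂ U = Module.finrank ℂ (Wt A Dl (∑ k ∈ s, ν k)) :=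
      (Submodule.equivMapOfInjective _ (fun a a' e => mul_right_cancel₀ (f0 i) e)
        _).finrank_eq.symm
    have lt : U < Wt A Dl (∑ k ∈ s, ν k + ν i) := by
      refine lt_of_le_of_ne ule fun e => ?_
      obtain ⟨j, hj⟩ := nd i s hi
      have w := wt_prod s f ν fun k _ => hf k
      have w0 := wt_mul w (hf i)
      have w1 : Dr j _ ∈ Wt A Dl (∑ k ∈ s, ν k + ν i) :=
        ⟨str j _ w0.1, fun b => by rw [com, w0.2, Derivation.map_smul]⟩
      rw [← e] at w1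
      obtain ⟨a, ha, ea⟩ := w1
      refine hj (a - Dr j (∏ k ∈ s, f k)) (A.sub_mem ha.1 (str j _ w.1)) ?_
      rw [Derivation.leibniz, LinearMap.mulRight_apply, smul_eq_mul, smul_eq_mul] at ea
      linear_combination -ea
    have h2 := Submodule.finrank_lt_finrank_of_lt lt
    omega

/-- a squarefree product -/
theorem dvd {n : ℕ} (h : Aff n A) (hn : IsIntegrallyClosed A) {P f u a : L} (hP : P ∈ A)
    (P0 : P ≠ 0) (hf : f ∈ A) (f0 : f ≠ 0) (hu : u ∈ A) (ha : a ∈ A) (e : P * u = f * a)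
    (sq : ∀ R, PD A R → R.ord (P * f) ≤ 1) : u / f ∈ A := by
  refine Hr.mem_of h hn fun R d => ?_
  have m : ∀ x ∈ A, x ∈ R.ring := fun x hx => let ⟨_, c, _⟩ := d; (c ⟨x, hx⟩).1
  have o1 : 0 ≤ R.ord P := Pl.ord_nonneg_of_mem _ (m P hP)
  have o2 : 0 ≤ R.ord f := Pl.ord_nonneg_of_mem _ (m f hf)
  have o3 := sq R d
  rw [Pl.ord_mul _ P0 f0] at o3
  by_cases z : R.ord f = 0
  · rw [div_eq_mul_inv]
    exact mul_mem (m u hu) ((Pl.ord_eq_zero_iff _ f0).1 z).2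
  · rw [show u / f = a * P⁻¹ by field_simp; linear_combination e]
    exact mul_mem (m a ha) ((Pl.ord_eq_zero_iff _ P0).1 (by omega)).2

end B15

open B15 in
/-- **BND** -/
theorem bnd15 (com : COM) (fac : FAC) (uni : UNI) (mov : MOV) (tra : TRA) (irr : IRR) (dvd' : DVD) :
    BND := by
  classical
  intro N L _ _ x G l r D D' g b H hH sp ι _ f hf sq
  obtain ⟨-, c2, c3, c4⟩ := com N L x G l r D D' g b
  obtain ⟨⟨n, af⟩, nor, -⟩ := fac N L x G l r g.red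
  have f0 : ∀ i, f i ≠ 0 := fun i e => (hf i).2.1 (by rw [e, inv_zero]; exact zero_mem _)
  let Dl : Bu G → Derivation ℂ L L := fun ξ => D ξ
  have wt : ∀ φ ∈ Rg (zx x), Hw D (Bu G) φ → ∃ ν, φ ∈ Wt (Rg (zx x)) Dl ν := fun φ h1 h2 => by
    choose ν hν using fun ξ : Bu G => h2 ξ ξ.2
    exact ⟨ν, h1, hν⟩
  choose ν hν using fun i => wt _ (hf i).1 (hf i).2.2.1
  have w := wt_prod Finset.univ f ν fun i _ => hν i
  have F0 : ∏ i, f i ≠ 0 := Finset.prod_ne_zero_iff.2 fun i _ => f0 i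
  obtain ⟨F', h1, h2, h3, h4⟩ := dvd' N L x G l r D D' g b H hH sp _ w.1 F0
    (fun ξ hξ => ⟨_, w.2 ⟨ξ, hξ⟩⟩) (fun h hh => by
      choose c hc using fun i => (hf i).2.2.2 h hh
      exact ⟨∏ i, c i, by simp only [map_prod, hc, Finset.prod_smul]⟩) sq
  obtain ⟨μ, hμ⟩ := wt _ h1 h3
  have le : Wt (Rg (zx x)) Dl (∑ i, ν i + μ) ≤ Le (zx x) (N ^ 3) := fun ψ hψ =>
    irr N L x G l r D D' g b _ _ h4 (mul_ne_zero F0 h2)
      (fun ξ => if h : ξ ∈ Bu G then (∑ i, ν i + μ) ⟨ξ, h⟩ else 0)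
      (fun ξ h => by rw [dif_pos h]; exact (wt_mul w hμ).2 ⟨ξ, h⟩) ψ hψ.1
      fun ξ h => by rw [dif_pos h]; exact hψ.2 ⟨ξ, h⟩
  have fd : FiniteDimensional ℂ (Le (zx x) (N ^ 3)) := by unfold Le; infer_instance
  have bV : Module.finrank ℂ (Le (zx x) (N ^ 3)) ≤ bd N := Submodule.finrank_map_le _ _
  obtain ⟨k1, k2⟩ := fin_le hμ h2 _ le
  refine ⟨((chain (Dl := Dl) (fun ξ => c4 ξ) (fun ξ a h => (c2 ξ a h).2) f ν .univ hν f0
    (fun i t hi => ?_) k1).trans k2).trans bV, fun i => ?_⟩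
  · by_contra c
    refine (hf i).2.1 (mov N L x G l r D D' g b _ (hf i).1 (.inr
      ((uni N L x G l r D D' g b _ (hf i).1).2 fun ξ => ?_)))
    obtain ⟨a, ha, e⟩ : ∃ a ∈ Rg (zx x), (∏ k ∈ t, f k) * D' ξ (f i) = f i * a := by
      by_contra z
      exact c ⟨ξ, fun a ha e => z ⟨a, ha, e⟩⟩
    refine dvd af nor (prod_mem fun k _ => (hf k).1) (Finset.prod_ne_zero_iff.2 fun k _ => f0 k)
      (hf i).1 (f0 i) (c2 ξ _ (hf i).1).2 ha e fun R d => le_trans ?_ (sq R d)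
    rw [mul_comm, ← Finset.prod_insert hi, R.ord_prod _ fun k _ => f0 k,
      R.ord_prod _ fun k _ => f0 k]
    exact Finset.sum_le_sum_of_subset_of_nonneg (Finset.subset_univ _) fun k _ _ =>
      let ⟨_, c, _⟩ := d; Pl.ord_nonneg_of_mem _ (c ⟨_, (hf k).1⟩).1
  · obtain ⟨k3, k4⟩ := fin_le (ν := ν i)
      (wt_mul (wt_prod (Finset.univ.erase i) f ν fun k _ => hν k) hμ)
      (mul_ne_zero (Finset.prod_ne_zero_iff.2 fun k _ => f0 k) h2) (Le (zx x) (N ^ 3))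
      (by rw [← add_assoc, Finset.add_sum_erase _ _ (Finset.mem_univ i)]; exact le)
    refine ((tra N L x G l r g.red b).2.2 _ (hf i).1 _ k3 fun h hh =>
      ⟨b.rA h hh _ (hf i).1, fun ξ => ?_⟩).trans (k4.trans bV)
    exact (c3 ξ h hh _).1.trans ((congrArg _ ((hν i).2 ξ)).trans (map_smul _ _ _))

end Vale.Agent.P283R.Sq
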