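import Vale.Agent.P283R.Sq.St
import Vale.Agent.P283R.Tp.Hrt

/-!
# P283R, block SQ: the row DVD
-/

open Set
open Vale.Agent.P297Z.Pl

noncomputable section

namespace Vale.Agent.P283R.Sq

open Vale.Agent.P287D Sl

theorem dvd37 (ghw : GHW) (lfr : LFR) (dis : DIS) (fac : FAC) (uni : UNI) (mov : MOV) (com : COM) :
    DVD := by
  intro N L _ _ x G l r D D' gd bas H hH sp F hF F0 hw sm sq
  obtain ⟨⟨n, aff⟩, nor, gn⟩ := fac N L x G l r gd.red
  have har := (hrt n L _ aff nor).2.1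
  have sub : ∀ R, PD (Rg (zx x)) R → ∀ a ∈ Rg (zx x), a ∈ R.ring :=
    fun R ⟨_, c, _⟩ a ha => (c ⟨a, ha⟩).1
  have stb := (com N L x G l r D D' gd bas).2.1
  obtain ⟨Δ, hΔ, Δ0, k⟩ := dis N L x G l r D D' gd bas _ sp
  have ΔA : Δ ∈ Rg (zx x) := let ⟨p, _, e⟩ := hΔ; ⟨p, e⟩
  have cs : ∀ c : ℂ, c • F ∈ Submodule.span (Rg (zx x)) {F} := fun c =>
    Submodule.mem_span_singleton.2 ⟨algebraMap ℂ _ c, algebraMap_smul _ c F⟩
  have key : ∀ ζ, ∃ a ∈ Rg (zx x), a * F = Δ * D' ζ F := fun ζ => by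
    obtain ⟨a, ha⟩ := Submodule.mem_span_singleton.1 (k ζ (Submodule.span _ {F}) F
      (fun ξ hξ => by obtain ⟨c, e⟩ := hw ξ hξ; rw [e]; exact cs c) fun η hη => by
        obtain ⟨c, e⟩ := Submodule.mem_span_singleton.1
          ((lfr N L x G l r D D' gd bas H (Submodule.span ℂ {F}) hH F hF η hη).2 fun g hg => by
            obtain ⟨c, e⟩ := sm _ ⟨g, hg, rfl⟩
            exact Submodule.mem_span_singleton.2 ⟨c, e.symm⟩)
        rw [← e]
        exact cs c)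
    exact ⟨a, a.2, ha⟩
  have dv : Δ / F ∈ Rg (zx x) := har _ fun R hR => by
    rw [← ord_nonneg_iff _ (div_ne_zero Δ0 F0), ord_div _ Δ0 F0]
    have h1 := sq R hR
    have h2 := ord_nonneg_of_mem R.toPlace (sub R hR Δ ΔA)
    by_contra hn
    have oF : R.ord F = 1 := by omega
    have oΔ : R.ord Δ = 0 := by omega
    obtain ⟨p, pA, p0, op, oq⟩ := gn R hR
    have g0 : F / p ≠ 0 := div_ne_zero F0 p0
    have gA : F / p ∈ Rg (zx x) := har _ fun R' hR' => by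
      rw [← ord_nonneg_iff _ g0, ord_div _ F0 p0]
      by_cases e : R' = R
      · rw [e, oF, op, sub_self]
      · rw [oq R' hR' e, sub_zero]
        exact ord_nonneg_of_mem R'.toPlace (sub R' hR' F hF)
    have og : R.ord (F / p) = 0 := by rw [ord_div _ F0 p0, oF, op, sub_self]
    have h3 : ∀ ζ, D' ζ p / p ∈ Rg (zx x) := fun ζ => har _ fun R' hR' => by
      by_cases e : R' = R
      · obtain ⟨a, aA, ea⟩ := key ζ
        have e1 : D' ζ F = p * D' ζ (F / p) + F / p * D' ζ p := by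
          conv_lhs => rw [← mul_div_cancel₀ F p0]
          rw [Derivation.leibniz, smul_eq_mul, smul_eq_mul]
        have e2 : D' ζ p / p = a * Δ⁻¹ - D' ζ (F / p) * (F / p)⁻¹ := by
          rw [e1] at ea
          field_simp at ea ⊢
          linear_combination -ea
        rw [e2, e]
        exact R.ring.sub_mem
          (R.ring.mul_mem _ _ (sub R hR a aA) ((ord_eq_zero_iff _ Δ0).1 oΔ).2)
          (R.ring.mul_mem _ _ (sub R hR _ (stb ζ _ gA).2) ((ord_eq_zero_iff _ g0).1 og).2)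
      · rw [div_eq_mul_inv]
        exact R'.ring.mul_mem _ _ (sub R' hR' _ (stb ζ p pA).2)
          ((ord_eq_zero_iff _ p0).1 (oq R' hR' e)).2
    have h4 := mov N L x G l r D D' gd bas p pA
      (Or.inr ((uni N L x G l r D D' gd bas p pA).2 h3))
    have h5 := (ord_eq_zero_iff R.toPlace p0).2 ⟨sub R hR p pA, sub R hR _ h4⟩
    omega
  obtain ⟨s1, s2⟩ := ghw _ L (zx x) _ (fun ξ : Lie G => Lm ξ.1) D (Bu G) (fun e => e.1) gd.hL
    fun ξ hξ => hξ.imp (fun h u v e => by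
      obtain ⟨e1, e2⟩ := mul_ne_zero_iff.1 (show ξ.1 u.1 v.1 * (1 : Mat N) u.2 v.2 ≠ 0 from e)
      exact Prod.ext (h _ _ e1) (by_contra fun q => e2 (Matrix.one_apply_ne q)))
      fun h u v e => h _ _ (left_ne_zero_of_mul
        (show ξ.1 u.1 v.1 * (1 : Mat N) u.2 v.2 ≠ 0 from e))
  have lb : ∀ ξ (c : ℂ), D ξ F = c • F → ∀ a, D ξ (F * a) = F * (D ξ a + c • a) := fun ξ c e a => by
    rw [Derivation.leibniz, e]
    simp only [Algebra.smul_def, Algebra.algebraMap_self, RingHom.id_apply]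
    ring
  obtain ⟨_, ⟨ha, g, hg, rfl⟩, a0, ea⟩ := s2 (N ^ 3)
    (Le (zx x) (N ^ 3) ⊓ (Rg (zx x)).toSubmodule.map (LinearMap.mulLeft ℂ F)) inf_le_left
    ((Submodule.ne_bot_iff _).2 ⟨Δ, ⟨hΔ, Δ / F, dv, mul_div_cancel₀ Δ F0⟩, Δ0⟩) (by
      rintro ξ hξ _ ⟨ha, g, hg, rfl⟩
      obtain ⟨c, e⟩ := hw ξ hξ
      exact ⟨s1 _ ξ (mem_univ _) _ ha, D ξ g + c • g,
        (Rg (zx x)).add_mem (stb ξ g hg).1 ((Rg (zx x)).smul_mem hg _), (lb ξ c e g).symm⟩)
  refine ⟨g, hg, right_ne_zero_of_mul (show F * g ≠ 0 from a0), fun ξ hξ => ?_, ha⟩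
  obtain ⟨c, e⟩ := hw ξ hξ
  obtain ⟨c', e'⟩ := ea ξ hξ
  have h1 : D ξ (F * g) = c' • (F * g) := e'
  rw [lb ξ c e, ← mul_smul_comm] at h1
  exact ⟨c' - c, by rw [sub_smul, ← mul_left_cancel₀ F0 h1, add_sub_cancel_right]⟩

end Vale.Agent.P283R.Sq
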