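import Vale.Agent.P283R.Sq.St
import Vale.Agent.P283R.Tp.Hrt
import Vale.Agent.P287D.Iso.Bas
import Vale.Agent.P287D.Pb.Up

/-!
# P283R, block SQ: the equations of the inverse images of the prime divisors
-/

open Set

noncomputable section

namespace Vale.Agent.P283R.Sq

open Vale.Agent.P287D Vale.Agent.P297Z

namespace E69

variable {L : Type} [Field L] [Algebra ℂ L] {A : Subalgebra ℂ L}

/-- the conjugate of a prime divisor -/
theorem cj (σ : L ≃ₐ[ℂ] L) (hσ : ∀ a, a ∈ A ↔ σ a ∈ A) {R : Pl L} (hR : PD A R) :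
    ∃ P : Pl L, PD A P ∧ (∀ g, g ∈ P.ring ↔ σ g ∈ R.ring) ∧ ∀ g, P.ord g = R.ord (σ g) := by
  have h := Semi.of_alg σ
  obtain ⟨P, rfl⟩ := h.pl.surjective R
  have m : ∀ g, g ∈ P.ring ↔ σ g ∈ (h.pl P).ring := fun g => h.mem_pl.symm
  have o : ∀ g, P.ord g = (h.pl P).ord (σ g) := fun g => (h.ord_pl P g).symm
  refine ⟨P, ?_, m, o⟩
  obtain ⟨q, c, lo⟩ := hR
  let φ : A →+* A := (σ.toRingEquiv.toRingHom.comp A.val.toRingHom).codRestrict A.toSubring
    fun a => (hσ a).1 a.2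
  have e : ∀ a : A, (φ a : L) = σ a := fun _ => rfl
  refine ⟨q.comap φ, fun a => ?_, fun a ha => ?_⟩
  · have k : (a : L) ∈ P.ring := (m a).2 (c (φ a)).1
    refine ⟨k, ?_⟩
    rw [Bm.rd_zero_iff P k, Ideal.mem_comap, Hr.cen_iff c, e, o, map_eq_zero_iff σ σ.injective]
  · obtain ⟨s, t, ht, e'⟩ := lo _ ((m a).1 ha)
    have s1 : σ.symm s ∈ A := (hσ _).2 (by rw [σ.apply_symm_apply]; exact s.2)
    have t1 : σ.symm t ∈ A := (hσ _).2 (by rw [σ.apply_symm_apply]; exact t.2)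
    refine ⟨⟨_, s1⟩, ⟨_, t1⟩, fun k => ht ?_, σ.injective ?_⟩
    · have : φ ⟨_, t1⟩ = t := Subtype.ext (σ.apply_symm_apply _)
      exact this ▸ Ideal.mem_comap.1 k
    · rw [e', map_div₀, σ.apply_symm_apply, σ.apply_symm_apply]

end E69

/-- **EQN** -/
theorem eqn : EQN := by
  classical
  intro n b w d K L J _ _ _ _ i A Γ H D B T ab ge _ Q _
  have fin : {R | PD A R ∧ Ov i R Q}.Finite :=
    (Hr.fin_ord ab.aff (i Q.t)).subset fun R h => ⟨h.1, h.2.e_pos.ne'⟩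
  choose! p hp using ab.fac
  have ms : ∀ R, R ∈ fin.toFinset ↔ PD A R ∧ Ov i R Q := fun R => fin.mem_toFinset
  have f0 : ∀ R ∈ fin.toFinset, p R ≠ 0 := fun R h => (hp R ((ms R).1 h).1).2.1
  have fA : ∏ R ∈ fin.toFinset, p R ∈ A := prod_mem fun R h => (hp R ((ms R).1 h).1).1
  have f1 : ∏ R ∈ fin.toFinset, p R ≠ 0 := Finset.prod_ne_zero_iff.2 f0
  have o : ∀ R, PD A R → R.ord (∏ R ∈ fin.toFinset, p R) = if Ov i R Q then 1 else 0 :=
    fun R hR => by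
      have z : ∀ R' ∈ fin.toFinset, R' ≠ R → R.ord (p R') = 0 := fun R' h ne =>
        (hp R' ((ms R').1 h).1).2.2.2 R hR ne.symm
      rw [P287D.Pl.ord_prod R _ f0]
      split_ifs with k
      · rw [Finset.sum_eq_single_of_mem R ((ms R).2 ⟨hR, k⟩) z]
        exact (hp R hR).2.2.1
      · exact Finset.sum_eq_zero fun R' h => z R' h fun e => k (e ▸ ((ms R').1 h).2)
  refine ⟨_, fA, f1, ab.sem _ fA f1 fun h hh => ?_, fun R hR => ⟨fun k => ?_, fun k => ?_⟩⟩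
  · have h0 := (map_ne_zero h).2 f1
    have e : ∀ R, PD A R → R.ord (h (∏ R ∈ fin.toFinset, p R)) =
        R.ord (∏ R ∈ fin.toFinset, p R) := fun R hR => by
      obtain ⟨P, hP, m, e⟩ := E69.cj h (ab.stH h hh) hR
      have : Ov i P Q ↔ Ov i R Q := forall_congr' fun a => iff_congr .rfl ((m (i a)).trans (by
        rw [(ge.inv _).1 ⟨a, rfl⟩ h hh]; rfl))
      rw [← e, o P hP, o R hR, if_congr this rfl rfl]
    exact ⟨Hr.mem_of ab.aff ab.nor fun R hR => (Pl.ord_nonneg_iff _ (div_ne_zero h0 f1)).1 (by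
      rw [Pl.ord_div _ h0 f1, e R hR, sub_self]), Hr.mem_of ab.aff ab.nor fun R hR =>
      (Pl.ord_nonneg_iff _ (div_ne_zero f1 h0)).1 (by rw [Pl.ord_div _ f1 h0, e R hR, sub_self])⟩
  · rw [o R hR, if_pos k]
  · rw [o R hR, if_neg k]

end Vale.Agent.P283R.Sq
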