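import Vale.Agent.P283R.Sq.St
import Vale.Agent.P283R.Tp.Hrt

/-!
# P283R, block SQ: the colours and the boundary
-/

open Set

noncomputable section

namespace Vale.Agent.P283R.Sq

open Vale.Agent.P287D Sl Vale.Agent.P297Z

namespace F78

variable {L : Type} [Field L] [Algebra ℂ L] {A : Subalgebra ℂ L} {R : Pl L}

theorem reg (p : PD A R) {a : L} (h : a ∈ A) : a ∈ R.ring := (p.choose_spec.1 ⟨a, h⟩).1

theorem der (p : PD A R) (δ : Derivation ℂ L L) (st : ∀ a ∈ A, δ a ∈ A) {w : L}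
    (h : w ∈ R.ring) : δ w ∈ R.ring := by
  obtain ⟨q, c, k⟩ := id p
  obtain ⟨s, t, ht, rfl⟩ := k w h
  have i := ((Pl.ord_eq_zero_iff R.toPlace (Hr.ne_of_notMem ht)).1 (Hr.cen_ord c ht)).2
  rw [Derivation.leibniz_div, smul_eq_mul, smul_eq_mul, smul_eq_mul]
  exact mul_mem (pow_mem i 2) (sub_mem (mul_mem (reg p t.2) (reg p (st _ s.2)))
    (mul_mem (reg p s.2) (reg p (st _ t.2))))

theorem lg (p : PD A R) (δ : Derivation ℂ L L) (st : ∀ a ∈ A, δ a ∈ A) {f φ : L} (f0 : f ≠ 0)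
    (f1 : R.ord f = 1) (φ0 : φ ≠ 0) (o : R.ord φ ≠ 0) {c : ℂ} (e : δ φ = c • φ) :
    δ f / f ∈ R.ring := by
  obtain ⟨n, hn⟩ : ∃ n, n = R.ord φ := ⟨_, rfl⟩
  have z : f ^ n ≠ 0 := zpow_ne_zero _ f0
  obtain ⟨w, hw⟩ : ∃ w, w = φ / f ^ n := ⟨_, rfl⟩
  have w0 : w ≠ 0 := hw ▸ div_ne_zero φ0 z
  obtain ⟨w1, w2⟩ := (Pl.ord_eq_zero_iff R.toPlace w0).1 (by
    rw [hw, Pl.ord_div _ φ0 z, Pl.ord_zpow, f1, hn]
    ring)
  have k : φ = w * f ^ n := by rw [hw, div_mul_cancel₀ _ z]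
  have n0 : (n : ℂ) ≠ 0 := Int.cast_ne_zero.2 (hn ▸ o)
  have n1 : (n : L) ≠ 0 := by simpa using (map_ne_zero (algebraMap ℂ L)).2 n0
  have : δ f / f = algebraMap ℂ L (n : ℂ)⁻¹ * (algebraMap ℂ L c - δ w * w⁻¹) := by
    rw [k, Derivation.leibniz, Derivation.leibniz_zpow, Algebra.smul_def c, zpow_sub_one₀ f0] at e
    simp only [smul_eq_mul, zsmul_eq_mul] at e
    rw [map_inv₀, map_intCast]
    field_simp
    field_simp at e
    linear_combination e
  rw [this]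
  exact mul_mem (R.con _) (sub_mem (R.con _) (mul_mem (der p δ st w1) w2))

end F78

open F78 in
theorem fam78 : FAM := fun n b w d K L J _ _ _ _ i A Γ H D B T ab ge va ex => by
  classical
  have ex' : ∀ Q : Pl K, ∃ f, Q ∈ T → Eq' i A H Q f ∧ (Q ∈ Bd i A T → f = 1) := fun Q => by
    by_cases t : Q ∈ T
    · by_cases c : Q ∈ Bd i A T
      · exact ⟨1, fun _ => ⟨⟨one_mem _, one_ne_zero, fun h _ => ⟨1, by simp⟩, fun R p =>
          ⟨fun o => (c.2 ⟨R, p, o⟩).elim, fun _ => by simp⟩⟩, fun _ => rfl⟩⟩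
      · obtain ⟨f, hf⟩ := ex Q t
        exact ⟨f, fun _ => ⟨hf, fun k => (c k).elim⟩⟩
    · exact ⟨0, fun k => (t k).elim⟩
  choose f hf using ex'
  let C : Set (Pl K) := {Q | Q ∈ T ∧ Q ∉ Bd i A T ∧ Hw D B (f Q)}
  have bn : ∀ S : Finset (Pl K), (∀ Q ∈ S, Q ∈ C) →
      S.card ≤ b ∧ ∀ Q ∈ S, Module.finrank ℂ (Orb Γ (f Q)) ≤ b := fun S hS => by
    obtain ⟨k1, k2⟩ := ab.bnd S (fun Q => f Q) (fun Q => by
      obtain ⟨t, c, h⟩ := hS _ Q.2
      obtain ⟨R, p, o⟩ : ∃ R, PD A R ∧ Ov i R Q.1 := by_contra fun k => c ⟨t, k⟩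
      obtain ⟨e1, -, e3, e4⟩ := (hf _ t).1
      refine ⟨e1, fun k => ?_, h, e3⟩
      have := Pl.ord_nonneg_of_mem R.toPlace (reg p k)
      rw [Pl.ord_inv, (e4 R p).1 o] at this
      omega) fun R p => by
        rw [R.ord_prod _ fun Q _ => (hf _ (hS _ Q.2).1).1.2.1]
        by_cases c : ∃ Q : S, Ov i R Q.1
        · obtain ⟨Q, o⟩ := c
          rw [Finset.sum_eq_single Q (fun Q' _ ne => ((hf _ (hS _ Q'.2).1).1.2.2.2 R p).2
            fun o' => ne (Subtype.ext (o'.uniq o))) (by simp)]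
          exact (((hf _ (hS _ Q.2).1).1.2.2.2 R p).1 o).le
        · rw [Finset.sum_eq_zero fun Q _ => ((hf _ (hS _ Q.2).1).1.2.2.2 R p).2 fun o => c ⟨Q, o⟩]
          exact zero_le_one
    exact ⟨by simpa using k1, fun Q h => k2 ⟨Q, h⟩⟩
  have fC : C.Finite := by_contra fun k => by
    obtain ⟨S, h1, h2⟩ := Set.Infinite.exists_subset_card_eq k (b + 1)
    have := (bn S h1).1
    omega
  let S := (va.up.union fC).toFinset
  have mS : ∀ Q, Q ∈ S ↔ Q ∈ Bd i A T ∨ Q ∈ C := fun Q => Set.Finite.mem_toFinset _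
  let e := S.equivFin.symm
  have mT : ∀ j, (e j).1 ∈ T := fun j => ((mS _).1 (e j).2).elim (·.1) (·.1)
  have sur : ∀ Q, Q ∈ Bd i A T ∨ Q ∈ C → ∃ j, (e j).1 = Q := fun Q h =>
    ⟨e.symm ⟨Q, (mS Q).2 h⟩, by simp⟩
  refine ⟨S.card, fun j => e j, fun j => f (e j), fun _ _ h => e.injective (Subtype.ext h), mT,
    fun j => (hf _ (mT j)).1, fun j => ((mS _).1 (e j).2).elim (fun c a _ => ⟨0, by
      simp [(hf _ (mT j)).2 c]⟩) (·.2.2), fun Q h => sur Q (.inl h),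
    fun Q t R p o φ φ0 hφ oφ => sur Q (.inr ⟨t, fun c => c.2 ⟨R, p, o⟩, fun a ha => ?_⟩), ?_⟩
  · obtain ⟨e1, e2, e3, e4⟩ := (hf _ t).1
    obtain ⟨c, hc⟩ := hφ a ha
    have k := lg p (D a) (ab.stD a) e2 ((e4 R p).1 o) φ0 oφ hc
    obtain ⟨g, hg⟩ := (ge.inv (D a (f Q) / f Q)).2 fun h hh => by
      obtain ⟨c, hc⟩ := e3 h hh
      have c0 : c ≠ 0 := by
        rintro rfl
        simp [e2] at hc
      rw [map_div₀, ← ab.cD a h hh, hc, (D a).map_smul, Algebra.smul_def, Algebra.smul_def,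
        mul_div_mul_left _ _ ((map_ne_zero _).2 c0)]
    refine ab.eig a ha _ e1 _ (Hr.mem_of ab.aff ab.nor fun R' p' => ?_)
      (div_mul_cancel₀ _ e2).symm
    by_cases o' : Ov i R' Q
    · rw [← hg] at k ⊢
      exact (o' g).1 ((o g).2 k)
    · rw [div_eq_mul_inv]
      exact mul_mem (reg p' (ab.stD a _ e1))
        ((Pl.ord_eq_zero_iff R'.toPlace e2).1 ((e4 R' p').2 o')).2
  · obtain ⟨k1, k2⟩ := bn fC.toFinset fun Q h => fC.mem_toFinset.1 h
    rw [Equiv.sum_comp e fun Q => Module.finrank ℂ (Orb Γ (f Q.1)),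
      Finset.sum_coe_sort S fun Q => Module.finrank ℂ (Orb Γ (f Q))]
    calc _ ≤ ∑ Q ∈ S, (1 + if Q ∈ fC.toFinset then b else 0) := Finset.sum_le_sum fun Q h => by
          split_ifs with c
          · exact (k2 Q c).trans (by omega)
          · have c' := ((mS Q).1 h).resolve_right fun k => c (fC.mem_toFinset.2 k)
            rw [(hf Q c'.1).2 c', add_zero, Orb]
            refine (Submodule.finrank_mono (t := ℂ ∙ (1 : L)) (Submodule.span_mono ?_)).trans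
              (finrank_span_singleton one_ne_zero).le
            rintro _ ⟨σ, -, rfl⟩
            simp
      _ ≤ _ := by
          rw [Finset.sum_add_distrib, Finset.sum_ite_mem, Finset.sum_const, Finset.sum_const,
            smul_eq_mul, smul_eq_mul, mul_one]
          exact Nat.add_le_add_left (Nat.mul_le_mul_right _
            ((Finset.card_le_card Finset.inter_subset_right).trans k1)) _

end Vale.Agent.P283R.Sq
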