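import Vale.Agent.P283R.Sq.St
import Vale.Agent.P283R.Sg.Out11
import Vale.Agent.P283R.Br.Bs
import Vale.Agent.P283R.Tp.Top0
import Vale.Agent.P287D.Pb.Bas

/-!
# P283R, block SQ: the prime divisors of an open subset of a variety with a group action
-/

set_option linter.all false

open Set CategoryTheory AlgebraicGeometry
open Vale.Agent.P289 Vale.Agent.P289.H219 Vale.Agent.P270L Vale.Agent.P283M.Am Vale.Agent.P299.G

noncomputable section

namespace Vale.Agent.P283R.Sq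

namespace G11

open Vale.Agent.P287D Vale.Agent.P283M Vale.Agent.P283M.Br Vale.Agent.P283M.Stm.Var
open Vale.Agent.P297Z Vale.Agent.P283R.Br Vale.Agent.P283R.Gl

variable {X : Stm.Var} {V : X.X.Opens} {x : Pt X.X}

/-- the coordinate ring of an affine open subset -/
theorem chart (hV : IsAffineOpen V) (hx : x ∈ V) : ∃ A : Subalgebra ℂ X.K,
    (∀ a, a ∈ A ↔ ∀ y ∈ V, RegAt a y) ∧ A.FG ∧
      ∀ P : Pl X.K, (∀ a ∈ A, a ∈ P.ring) → ∃ y ∈ V, Dom P.ring y := by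
  let f := 𝟙 X.X
  have : Nonempty ↑(f ⁻¹ᵁ V) := ⟨⟨x, hx⟩⟩
  have : Nonempty V := ⟨⟨x, hx⟩⟩
  let _ : Algebra ℂ Γ(X.X, V) := (cst X.str V).toAlgebra
  have : Algebra.FiniteType ℂ Γ(X.X, V) := cst_finiteType X.str hV
  let φ : Γ(X.X, V) →ₐ[ℂ] X.K := { pl f V with
    commutes' := fun c => by
      change X.X.germToFunctionField _ ((f.app V).hom (cst X.str V c)) = constants X.str c
      rw [app_cst, germ_cst, Category.id_comp] }
  refine ⟨φ.range, fun a => ⟨?_, fun ha => exists_pl f V (mem_reg.2 ha)⟩, ?_, fun P hP => ?_⟩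
  · rintro ⟨t, rfl⟩ y hy
    exact mem_reg.1 (pl_reg f V t) y hy
  · rw [← Algebra.map_top]
    exact (Algebra.FiniteType.out (R := ℂ) (A := Γ(X.X, V))).map φ
  · obtain ⟨y, h5, h6⟩ := exists_dom hV P.ring fun t => hP _ ⟨t, rfl⟩
    exact ⟨y, h5, dom_B h6⟩

variable {A : Subalgebra ℂ X.K}

theorem frc (hV : IsAffineOpen V) (hx : x ∈ V) (h : ∀ a, a ∈ A ↔ ∀ y ∈ V, RegAt a y) {g : X.K}
    (hg : RegAt g x) : ∃ s t : A, UnAt (t : X.K) x ∧ g = s / t := by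
  obtain ⟨b, h1, h2, h3⟩ := Am.frac (f := g) hV hx hg
  exact ⟨⟨_, (h _).2 (mem_reg.1 h3)⟩, ⟨b, (h _).2 (mem_reg.1 h1)⟩, h2,
    (mul_div_cancel_left₀ g h2.1).symm⟩

theorem fr (hV : IsAffineOpen V) (hx : x ∈ V) (h : ∀ a, a ∈ A ↔ ∀ y ∈ V, RegAt a y) (g : X.K) :
    ∃ s t : A, g = s / t :=
  let ⟨s, t, _, e⟩ := frc hV ((genericPoint_specializes x).mem_open V.isOpen hx) h
    (P270L.S.mem_loc_gen g)
  ⟨s, t, e⟩

theorem nor (hV : IsAffineOpen V) (hx : x ∈ V) (h : ∀ a, a ∈ A ↔ ∀ y ∈ V, RegAt a y) :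
    IsIntegrallyClosed A := by
  have := IsFractionRing.of_field A X.K (fr hV hx h)
  refine (isIntegrallyClosed_iff X.K).2 fun {g} hg => ⟨⟨g, (h g).2 fun x hx => ?_⟩, rfl⟩
  let q : X.X.presheaf.stalk x ≃+* lr x := RingEquiv.ofBijective (toK x).rangeRestrict
    ⟨fun a b c => toK_injective x (congrArg Subtype.val c), (toK x).rangeRestrict_surjective⟩
  let φ : A →+* lr x := A.val.toRingHom.codRestrict _ fun a => (h _).1 a.2 x hx
  have := hg.map_of_comp_eq (q.symm.toRingHom.comp φ) (RingHom.id X.K)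
    (RingHom.ext fun a => congrArg Subtype.val (q.apply_symm_apply (φ a)))
  exact IsIntegrallyClosed.isIntegral_iff.1 this

/-- a point with a pole lies on a prime divisor -/
theorem ex_pd {g : X.K} (hg : ¬ RegAt g x) : ∃ E : X.PrimeDiv, E.1 ⤳ x := by
  by_contra k
  exact hg (har X g x fun y hy => (k ⟨y, hy⟩).elim)

theorem ex_not {K : Type} [Field K] [Algebra ℂ K] (Q : Pl K) : ∃ g, g ∉ Q.ring := by
  by_contra k
  exact Pl.ring_ne_top Q.toPlace (eq_top_iff.2 fun g _ => by_contra fun e => k ⟨g, e⟩)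

/-- the transport of a place to a prime divisor -/
theorem tr {K : Type} [Field K] [Algebra ℂ K] (Q : Pl K) (τ : K →+* X.K)
    (hτ : Function.Surjective τ) (h : ∀ a, a ∈ Q.ring ↔ RegAt (τ a) x) :
    ∃ E : X.PrimeDiv, E.1 ⤳ x ∧ ∀ a, a ∈ Q.ring ↔ τ a ∈ (pq E).ring := by
  obtain ⟨g, hg⟩ := ex_not Q
  obtain ⟨E, hE⟩ := ex_pd (mt (h g).2 hg)
  have e : Q.ring = (pq E).ring.comap τ :=
    Pl.ring_eq_of_le (v := Q.toPlace) (fun a ha => (pq_is E _).2 (reg_gen hE ((h a).1 ha)))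
      fun k => by
        obtain ⟨b, hb⟩ := ex_not (pq E)
        obtain ⟨a, rfl⟩ := hτ b
        exact hb (show a ∈ (pq E).ring.comap τ from k ▸ ValuationSubring.mem_top a)
  exact ⟨E, hE, fun a => by rw [e]; rfl⟩

theorem pd_pq (hV : IsAffineOpen V) (h : ∀ a, a ∈ A ↔ ∀ y ∈ V, RegAt a y) {E : X.PrimeDiv}
    (hE : E.1 ∈ V) : PD A (pq E) := by
  obtain ⟨q, c⟩ := Tq.exists_cen (S := A) (R := pq E) fun a ha => (pq_is E _).2 ((h a).1 ha _ hE)
  refine ⟨q, c, fun a ha => ?_⟩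
  obtain ⟨s, t, u, e⟩ := frc hV hE h ((pq_is E a).1 ha)
  exact ⟨s, t, fun k => (pq_is E).dom.rd u ((c t).2.1 k), e⟩

theorem pq_pd (h : ∀ a, a ∈ A ↔ ∀ y ∈ V, RegAt a y)
    (hc : ∀ P : Pl X.K, (∀ a ∈ A, a ∈ P.ring) → ∃ y ∈ V, Dom P.ring y) {Q : Pl X.K}
    (hQ : PD A Q) : ∃ E : X.PrimeDiv, E.1 ∈ V ∧ pq E = Q := by
  obtain ⟨q, c, l⟩ := hQ
  obtain ⟨y, hy, d⟩ := hc Q fun a ha => (c ⟨a, ha⟩).1
  obtain ⟨E, hE, e⟩ := tr (x := y) Q (RingHom.id _) Function.surjective_id fun a =>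
    ⟨fun ha => by
      obtain ⟨s, t, u, rfl⟩ := l a ha
      rw [RingHom.id_apply, div_eq_mul_inv]
      exact reg_mul ((h _).1 s.2 y hy)
        (un_of_rd d ((h _).1 t.2 y hy) fun k => u ((c t).2.2 k)).2.2, fun ha => (d a ha).1⟩
  exact ⟨E, hE.mem_open V.isOpen hy, Pb.pl_ext (SetLike.ext fun a => (e a).symm)⟩

end G11

open Vale.Agent.P287D Vale.Agent.P283M Vale.Agent.P283M.Br Vale.Agent.P283R.Gl G11 in
/-- **GER** -/
theorem ger : GER := by
  intro X d U L _ _ i Γ H hd ⟨y, hy⟩ hH hΓ hU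
  have hK := ffd X.o _ hd
  have : IsNoetherian X.X := P283M.Am.noeth X.o
  refine ⟨hK, hH, fun φ => ((fin X.o φ).image pq).subset ?_, ?_, ?_⟩
  · rintro _ ⟨⟨E, -, rfl⟩, a⟩
    exact ⟨E, fun k => a ((pq_ord (X := X.o) E φ).symm.trans k), rfl⟩
  · rintro σ hσ _ ⟨E, hE, rfl⟩
    obtain ⟨y', h1, h2⟩ := hU σ hσ E.1 hE
    choose t ht using hΓ σ hσ
    have inj : Function.Injective i := i.toRingHom.injective
    let τ : X.K →+* X.K :=
      { toFun := t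
        map_one' := inj (by rw [← ht, map_one, map_one])
        map_mul' := fun a b => inj (by rw [← ht, map_mul, map_mul, map_mul, ht, ht])
        map_zero' := inj (by rw [← ht, map_zero, map_zero])
        map_add' := fun a b => inj (by rw [← ht, map_add, map_add, map_add, ht, ht]) }
    obtain ⟨E', h3, h4⟩ := tr (X := X.o) (x := y') (pq (X := X.o) E) τ
      (fun b => by
        obtain ⟨a, ha⟩ := hΓ σ⁻¹ (Γ.inv_mem hσ) b
        exact ⟨a, inj ((ht a).symm.trans (by rw [← ha]; exact σ.apply_symm_apply _))⟩)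
      fun a => (pq_is (X := X.o) E a).trans (h2 a (t a) (ht a))
    exact ⟨_, ⟨E', h3.mem_open U.isOpen h1, rfl⟩, fun a a' e =>
      (inj ((ht a).symm.trans e) : t a = a') ▸ h4 a⟩
  · obtain ⟨_, ⟨V, hV, rfl⟩, yV, le⟩ :=
      X.X.isBasis_affineOpens.exists_subset_of_mem_open hy U.isOpen
    have hV : IsAffineOpen V := hV
    have yV : y ∈ V := yV
    obtain ⟨A, h1, h2, h3⟩ := chart (X := X.o) hV yV
    refine ⟨A, ⟨hK, h2, fr (X := X.o) hV yV h1⟩, nor (X := X.o) hV yV h1, fun Q hQ => ?_,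
      ((Sg.out X V y yV).image (pq (X := X.o))).subset ?_⟩
    · obtain ⟨E, a, b⟩ := pq_pd (X := X.o) h1 h3 hQ
      exact ⟨E, le a, b⟩
    · rintro _ ⟨⟨E, -, rfl⟩, a⟩
      exact ⟨E, fun b => a (pd_pq (X := X.o) hV h1 b), rfl⟩

end Vale.Agent.P283R.Sq
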