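import Vale.Agent.P283R.Sq.St
import Vale.Agent.P283R.Sg.Top20
import Vale.Agent.P283R.Sg.Out11

/-!
# P283R, block SQ: from the abstract theorem to the schemes
-/

open Set CategoryTheory AlgebraicGeometry

noncomputable section

namespace Vale.Agent.P283R.Sq

open Sl Sl.Var

/-- the place of a prime divisor -/
def pz29 {X : Var} (E : X.PrimeDiv) : P287D.Pl X.K := Gl.pq (X := X.o) E

theorem pi29 {X : Var} : Function.Injective (pz29 (X := X)) := Sg.T20.pq_inj (X := X.o)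

theorem cf29 {X : Var} {k : ℕ} (E : Fin k → X.PrimeDiv) (m : Fin k → ℤ) (E' : X.PrimeDiv) :
    comb (fun j => Finsupp.single (E j) 1) m E' = cf (fun j => pz29 (E j)) m (pz29 E') := by
  refine Finset.sum_congr rfl fun j _ => ?_
  by_cases h : E j = E'
  · subst h
    rw [if_pos rfl, Finsupp.single_eq_same, mul_one]
  · rw [if_neg fun z => h (pi29 z), Finsupp.single_eq_of_ne (Ne.symm h), mul_zero]

theorem po29 {X : Var} (φ : X.K) (E : X.PrimeDiv) : ord φ E = (pz29 E).ord φ :=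
  Gl.pq_ord (X := X.o) E φ

theorem tu29 {X : Var} {U : X.X.Opens} {Q : P287D.Pl X.K} :
    Q ∈ Tu U ↔ ∃ E : X.PrimeDiv, E.1.In U ∧ pz29 E = Q := Iff.rfl

theorem sec29 {X : Var} {k : ℕ} (E : Fin k → X.PrimeDiv) (U : X.X.Opens) :
    (fun m => sections U (comb (fun j => Finsupp.single (E j) 1) m)) =
      Sec (Tu U) fun j => pz29 (E j) := by
  refine funext fun m => Set.ext fun φ => imp_congr_right fun _ =>
    ⟨fun h Q w => ?_, fun h E' w => ?_⟩
  · obtain ⟨E', u, rfl⟩ := tu29.1 w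
    rw [← cf29, ← po29]
    exact h E' u
  · rw [cf29, po29]
    exact h _ ⟨E', w, rfl⟩

/-- **TOP** -/
theorem top29 : TOP := by
  intro bas abg ger mem N d X Z f ω B z V hd a b ct zV
    ⟨L, _, _, x, G, H, l, r, i, red, HG, inv, sph, act⟩
  obtain ⟨n, rfl⟩ : ∃ n, d = n + 1 := ⟨d - 1, by omega⟩
  obtain ⟨_, ⟨U, hU, rfl⟩, zU, le⟩ :=
    Z.X.isBasis_affineOpens.exists_subset_of_mem_open (show z ∈ (V : Set Z.X) from zV) V.isOpen
  have le' : ∀ x : Pt X.X, x.In (pre f U) → x.In (pre f V) := fun x h => le h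
  obtain ⟨x₀, hx₀⟩ := ct.2.2.1.surj z
  replace hx₀ : Pt.In x₀ (pre f U) := show f x₀ ∈ U from hx₀ ▸ zU
  have hK := P283M.Br.ffd X.o _ a
  obtain ⟨j, -, fr⟩ := P283M.Br.frm X.o _ hK ω b
  have f0 := P283R.Br.form_fin hK fr
  obtain ⟨bs, ga⟩ := bas N L x G l r red
  obtain ⟨n', D, ab⟩ := abg N L x G l r red H HG sph
  have ge := ger X n (pre f V) L i (Ga G l) (r '' H) a ⟨x₀, le' _ hx₀⟩
    (fun c => (inv c).trans ⟨fun h _ ⟨g, hg, e⟩ => e ▸ h g hg, fun h g hg => h _ ⟨g, hg, rfl⟩⟩)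
    (fun σ hσ c => by
      obtain ⟨g, hg, rfl⟩ := (ga σ).1 hσ
      obtain ⟨c', e⟩ := (inv (l g (i c))).2 fun h hh => by
        rw [← bs.com g hg h (HG hh), (inv _).1 ⟨c, rfl⟩ h hh]
      exact ⟨c', e.symm⟩)
    fun σ hσ => by
      obtain ⟨g, hg, rfl⟩ := (ga σ).1 hσ
      exact act g hg
  obtain ⟨k, ρ, -, hρ, g, spn⟩ := mem n' _ _ n X.K L _ i _ _ _ D _ _ ab ge (Tu (pre f U))
    (fun _ ⟨E, w, e⟩ => ⟨E, le' _ w, e⟩)
    (((Sg.out X _ x₀ hx₀).image pz29).subset (by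
      rintro _ ⟨⟨E, -, rfl⟩, c⟩
      exact ⟨E, fun w => c ⟨E, w, rfl⟩, rfl⟩))
  choose E _ hE using fun j => tu29.1 (hρ j)
  obtain rfl : (fun j => pz29 (E j)) = ρ := funext hE
  have sp : ∀ (B : X.QDiv) (q : ℕ), (∀ E, ∃ m : ℤ, q * B.coeff E = m) →
      InSpan (pre f U) (fun j => Finsupp.single (E j) 1) fun E => q * logCan ω B E :=
    fun B q hq => by
    choose c hc using hq
    have fn : {E | q * formOrd ω (RingEquiv.refl X.K) E + c E ≠ 0}.Finite :=
      (f0.union B.support.finite_toSet).subset fun E e => by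
        by_contra w
        have w1 : formOrd ω (RingEquiv.refl X.K) E = 0 := not_not.1 fun a => w (.inl a)
        have w2 := hc E
        rw [show B.coeff E = 0 from Finsupp.notMem_support_iff.1 fun a => w (.inr a),
          mul_zero] at w2
        exact e (by simp only [w1, mul_zero, zero_add]; exact_mod_cast w2.symm)
    obtain ⟨m, φ, φ0, e⟩ := spn (Function.extend pz29
      (fun E => q * formOrd ω (RingEquiv.refl X.K) E + c E) 0)
      ((fn.image pz29).subset fun Q ⟨u, w⟩ => by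
        obtain ⟨E, -, rfl⟩ := tu29.1 u
        rw [pi29.extend_apply] at w
        exact ⟨E, w, rfl⟩)
    refine ⟨m, φ, φ0, fun E' w => ?_⟩
    have := e (pz29 E') ⟨E', le' _ w, rfl⟩
    rw [pi29.extend_apply, ← cf29, ← po29] at this
    simp only [logCan, mul_add, hc]
    exact_mod_cast this
  refine ⟨k, _, U, fun j => Finsupp.single (E j) 1, le_rfl, hU, zU, sec29 E _ ▸ g, sp B, .inr ?_⟩
  simpa using sp 0 1 fun E => ⟨0, by simp [QDiv.coeff]⟩

end Vale.Agent.P283R.Sq
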