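import Mathlib

/-!
# P283R, block SQ: the span of the left translates is not larger than a space that holds the right
translates
-/

noncomputable section

namespace Vale.Agent.P283R.Sq.B37

theorem rank {G A : Type*} [AddCommGroup A] [Module ℂ A] (ev : G → A →ₗ[ℂ] ℂ)
    (inj : ∀ a, (∀ g, ev g a = 0) → a = 0) (lf rf : G → A) (S : Set G)
    (h : ∀ g ∈ S, ∀ k, ev k (lf g) = ev g (rf k)) (V : Submodule ℂ A) [FiniteDimensional ℂ V]
    (hr : ∀ k, rf k ∈ V) : FiniteDimensional ℂ (Submodule.span ℂ (lf '' S)) ∧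
      Module.finrank ℂ (Submodule.span ℂ (lf '' S)) ≤ Module.finrank ℂ V := by
  let E : A →ₗ[ℂ] G → ℂ := LinearMap.pi ev
  have hE : Function.Injective E := by
    rw [injective_iff_map_eq_zero]
    exact fun a ha => inj a fun g => congrFun ha g
  let F : Module.Dual ℂ V →ₗ[ℂ] G → ℂ := LinearMap.pi fun k => LinearMap.applyₗ (⟨rf k, hr k⟩ : V)
  have le : ∀ a ∈ Submodule.span ℂ (lf '' S), E a ∈ LinearMap.range F := by
    intro a ha
    refine (Submodule.span_le (p := (LinearMap.range F).comap E)).2 ?_ ha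
    rintro _ ⟨g, hg, rfl⟩
    exact ⟨ev g ∘ₗ V.subtype, funext fun k => (h g hg k).symm⟩
  let T : Submodule.span ℂ (lf '' S) →ₗ[ℂ] LinearMap.range F :=
    (E.domRestrict _).codRestrict _ fun a => le a a.2
  have hT : Function.Injective T := fun a a' e => Subtype.ext (hE (congrArg Subtype.val e))
  refine ⟨Module.Finite.of_injective T hT, (LinearMap.finrank_le_finrank_of_injective hT).trans ?_⟩
  exact (LinearMap.finrank_range_le F).trans (Subspace.dual_finrank_eq).le

/-- the same for subspaces of an algebra `L` that lie in a subalgebra `A` -/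
theorem rank' {G L : Type*} [CommRing L] [Algebra ℂ L] (A : Subalgebra ℂ L) (ev : G → A →ₐ[ℂ] ℂ)
    (inj : ∀ a, (∀ g, ev g a = 0) → a = 0) (lf rf : G → A) (S : Set G)
    (h : ∀ g ∈ S, ∀ k, ev k (lf g) = ev g (rf k)) (V : Submodule ℂ L) [FiniteDimensional ℂ V]
    (hr : ∀ k, (rf k : L) ∈ V) :
    FiniteDimensional ℂ (Submodule.span ℂ ((fun g => (lf g : L)) '' S)) ∧
      Module.finrank ℂ (Submodule.span ℂ ((fun g => (lf g : L)) '' S)) ≤ Module.finrank ℂ V := by
  let i : A →ₗ[ℂ] L := A.val.toLinearMap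
  have hi : Function.Injective i := Subtype.val_injective
  let T : V.comap i →ₗ[ℂ] V := (i.domRestrict _).codRestrict _ fun a => a.2
  have hT : Function.Injective T := fun a a' e =>
    Subtype.ext (hi (congrArg (fun v : V => (v : L)) e))
  have : FiniteDimensional ℂ (V.comap i) := Module.Finite.of_injective T hT
  obtain ⟨h1, h2⟩ := rank (fun g => (ev g).toLinearMap) inj lf rf S h (V.comap i) hr
  have e : Submodule.span ℂ ((fun g => (lf g : L)) '' S) = (Submodule.span ℂ (lf '' S)).map i := by
    rw [Submodule.map_span, Set.image_image]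
    rfl
  rw [e]
  exact ⟨inferInstance, (Submodule.finrank_map_le _ _).trans
    (h2.trans (LinearMap.finrank_le_finrank_of_injective hT))⟩

end Vale.Agent.P283R.Sq.B37
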