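import Vale.Agent.P283R.Sq.Fac27
import Vale.Agent.P283R.Sq.Rk37

/-!
# P283R, block SQ: orbits of regular functions under translations
-/

open Set

noncomputable section

namespace Vale.Agent.P283R.Sq

open Vale.Agent.P287D Vale.Agent.P297Z Sl

namespace T35

variable {L : Type} [Field L] [Algebra ℂ L]

/-- linear substitutions of one polynomial stay in a space of finite dimension -/
theorem fd {s : Type} [Fintype s] (z : s → L) (p : MvPolynomial s ℂ) :
    ∃ V : Submodule ℂ L, V.FG ∧ ∀ (σ : L ≃ₐ[ℂ] L) (M : Matrix s s ℂ), Lin z M σ →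
      σ (MvPolynomial.aeval z p) ∈ V := by
  induction p using MvPolynomial.induction_on with
  | C c =>
    refine ⟨Submodule.span ℂ {algebraMap ℂ L c}, Submodule.fg_span_singleton _, fun σ _ _ => ?_⟩
    rw [MvPolynomial.aeval_C, AlgEquiv.commutes]
    exact Submodule.mem_span_singleton_self _
  | add p q hp hq =>
    obtain ⟨V, f, h⟩ := hp
    obtain ⟨V', f', h'⟩ := hq
    refine ⟨V ⊔ V', f.sup f', fun σ M hM => ?_⟩
    rw [map_add, map_add]
    exact Submodule.add_mem_sup (h σ M hM) (h' σ M hM)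
  | mul_X p u hp =>
    obtain ⟨V, f, h⟩ := hp
    refine ⟨V * Submodule.span ℂ (range z), f.mul (Submodule.fg_span (finite_range z)),
      fun σ M hM => ?_⟩
    rw [map_mul, map_mul, MvPolynomial.aeval_X, hM u]
    exact Submodule.mul_mem_mul (h σ M hM) (Submodule.sum_mem _ fun v _ =>
      Submodule.smul_mem _ _ (Submodule.subset_span (mem_range_self v)))

variable {N : ℕ} {x : Matrix (Fin N) (Fin N) L} {G : Set (Mat N)} {l r : Mat N → L ≃ₐ[ℂ] L}

theorem ga (h : Reductive x G l r) (b : Bas x G l r) {σ : L ≃ₐ[ℂ] L} (hσ : σ ∈ Ga G l) :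
    ∃ g ∈ G, l g = σ := by
  have one : l 1 = 1 := by
    have := b.lmul 1 h.one 1 h.one
    rw [mul_one] at this
    exact (mul_eq_left.1 this.symm)
  induction hσ using Subgroup.closure_induction with
  | mem σ hσ => exact hσ
  | one => exact ⟨1, h.one, one⟩
  | mul σ τ _ _ h1 h2 =>
    obtain ⟨g, hg, rfl⟩ := h1
    obtain ⟨k, hk, rfl⟩ := h2
    exact ⟨k * g, b.mul k hk g hg, b.lmul k hk g hg⟩
  | inv σ _ h1 =>
    obtain ⟨g, hg, rfl⟩ := h1
    refine ⟨g.adjugate, (b.inv g hg).2, eq_inv_of_mul_eq_one_left ?_⟩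
    rw [← b.lmul g hg _ (b.inv g hg).2, Matrix.mul_adjugate, (b.inv g hg).1, one_smul, one]

/-- evaluation at the points -/
theorem ev (h : Reductive x G l r) : ∃ ev : G → Rg (zx x) →ₐ[ℂ] ℂ,
    ∀ (g : G) p (a : Rg (zx x)), (a : L) = atMat x p → ev g a = atMat g.1 p := by
  have sur := AlgHom.rangeRestrict_surjective
    (MvPolynomial.aeval (zx x) : MvPolynomial (Fin N × Fin N) ℂ →ₐ[ℂ] L)
  refine ⟨fun g => AlgHom.liftOfSurjective _ sur (MvPolynomial.aeval fun e => g.1 e.1 e.2)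
    fun p hp => (h.points g.1).1 g.2 p (congrArg Subtype.val hp), fun g p a e => ?_⟩
  rw [show a = (MvPolynomial.aeval (zx x)).rangeRestrict p from Subtype.ext e]
  exact AlgHom.liftOfSurjective_apply _ _ _ _ _

theorem rk (h : Reductive x G l r) (b : Bas x G l r) {a : L} (ha : a ∈ Rg (zx x))
    (W : Submodule ℂ L) [FiniteDimensional ℂ W] (hW : ∀ g ∈ G, r g a ∈ W) :
    FiniteDimensional ℂ (Orb (Ga G l) a) ∧
      Module.finrank ℂ (Orb (Ga G l) a) ≤ Module.finrank ℂ W := by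
  obtain ⟨ev, hev⟩ := ev h
  have e : Orb (Ga G l) a = Submodule.span ℂ ((fun g : G => l g.1 a) '' univ) := by
    refine congrArg (Submodule.span ℂ) (subset_antisymm ?_ ?_)
    · rintro _ ⟨σ, hσ, rfl⟩
      obtain ⟨g, hg, rfl⟩ := ga h b hσ
      exact ⟨⟨g, hg⟩, trivial, rfl⟩
    · rintro _ ⟨g, -, rfl⟩
      exact ⟨l g.1, Subgroup.subset_closure ⟨g.1, g.2, rfl⟩, rfl⟩
  rw [e]
  refine B37.rank' (Rg (zx x)) ev (fun c hc => ?_) (fun g => ⟨l g.1 a, b.lA _ g.2 a ha⟩)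
    (fun g => ⟨r g.1 a, b.rA _ g.2 a ha⟩) univ (fun g _ k => ?_) W fun k => hW _ k.2
  · obtain ⟨p, hp⟩ := c.2
    refine Subtype.ext (hp.symm.trans (b.nul p fun g hg => ?_))
    rw [← hev ⟨g, hg⟩ p c hp.symm, hc]
  · obtain ⟨q, hq⟩ := b.lA _ g.2 a ha
    obtain ⟨q', hq'⟩ := b.rA _ k.2 a ha
    obtain ⟨p, rfl⟩ := ha
    rw [hev k q _ hq.symm, hev g q' _ hq'.symm, b.lv _ g.2 _ k.2 p q hq.symm,
      b.rv _ k.2 _ g.2 p q' hq'.symm]

end T35

theorem tra : TRA := fun N L _ _ x G l r h b => by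
  refine ⟨fun a ha => ?_, fun c hc c0 R ⟨q, hq, _⟩ => ?_, fun a ha W _ hW => (T35.rk h b ha W hW).2⟩
  · obtain ⟨p, hp⟩ := id ha
    obtain ⟨V, f, hV⟩ := T35.fd (zx x) p
    have : FiniteDimensional ℂ V := Module.Finite.iff_fg.2 f
    have hW : ∀ g ∈ G, r g a ∈ V := fun g hg => hp ▸ hV _ _ (b.rl g hg)
    refine ⟨(T35.rk h b ha V hW).1, Submodule.finiteDimensional_of_le (S₂ := V) ?_⟩
    rw [Submodule.span_le]
    rintro _ ⟨g, hg, rfl⟩
    exact hW g hg
  · have top : q ≠ ⊤ := fun e => by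
      have := (F27.cen_iff hq 1).1 (e ▸ Submodule.mem_top)
      rw [OneMemClass.coe_one, Pl.ord_one] at this
      exact this.elim one_ne_zero (lt_irrefl _)
    obtain ⟨g₀, h₀, pt⟩ := b.pt q top
    by_contra no
    obtain ⟨p, hp⟩ := id hc
    refine c0 (hp.symm.trans (b.nul p fun k hk => ?_))
    have hg := b.mul k hk _ (b.inv g₀ h₀).2
    obtain ⟨p', hp'⟩ := b.lA _ hg c hc
    have m : (⟨_, b.lA _ hg c hc⟩ : Rg (zx x)) ∈ q := (F27.cen_iff hq _).2 (Or.inr
      (lt_of_le_of_ne (F27.nn hq ⟨_, b.lA _ hg c hc⟩) fun e => no ⟨_, hg, e.symm⟩))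
    have := b.lv _ hg _ h₀ p p' (by rw [show atMat x p = c from hp]; exact hp'.symm)
    rw [mul_assoc, Matrix.adjugate_mul, (b.inv g₀ h₀).1, one_smul, mul_one] at this
    rw [← this]
    exact pt p' _ m hp'.symm

end Vale.Agent.P283R.Sq
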