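import Vale.Agent.P283R.Sq.St
import Vale.Agent.P283R.Sp.Vg61

/-!
# P283R, block SQ: the row `VAL`
-/

set_option linter.all false

open Set
open Vale.Agent.P297Z Vale.Agent.P287D

noncomputable section

namespace Vale.Agent.P283R.Sq

open Sp.V61

theorem exm61 {K L : Type} [Field K] [Field L] [Algebra ℂ K] [Algebra ℂ L] {i : K →ₐ[ℂ] L}
    {σ : L ≃ₐ[ℂ] L} (h : ∀ a, ∃ b, i b = σ (i a)) (h' : ∀ a, ∃ b, i b = σ.symm (i a)) :
    ∃ m : K ≃ₐ[ℂ] K, ∀ a, σ (i a) = i (m a) := by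
  let τ : K →ₐ[ℂ] K := (AlgEquiv.ofInjectiveField i).symm.toAlgHom.comp
    ((σ.toAlgHom.comp i).codRestrict i.range h)
  have e : ∀ φ, i (τ φ) = σ (i φ) := fun φ =>
    congrArg Subtype.val ((AlgEquiv.ofInjectiveField i).apply_symm_apply _)
  refine ⟨.ofBijective τ ⟨τ.injective, fun φ => ?_⟩, fun a => (e a).symm⟩
  obtain ⟨ψ, k⟩ := h' φ
  refine ⟨ψ, i.injective ?_⟩
  show i (τ ψ) = i φ
  rw [e, k, AlgEquiv.apply_symm_apply]

/-- **VAL** -/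
theorem val61 : VAL := by
  intro n b w d K L J _ _ _ _ i A Γ H D B T ab ge
  let _ := i.toRingHom.toAlgebra
  have : IsScalarTower ℂ K L := .of_algebraMap_eq fun c => (i.commutes c).symm
  have h := ab.aff
  obtain ⟨n, rfl⟩ : ∃ m, n = m + 1 := ⟨n - 1, by
    have k := trdeg_le_of_injective i i.injective
    rw [Bm.trdeg_eq ge.ff, Bm.trdeg_eq h.ff, Nat.cast_le] at k
    omega⟩
  have ch : Chart d T := by
    obtain ⟨A₀, a, nor, c1, c2⟩ := ge.cha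
    refine ⟨ge.fin, A₀, a.fg, fr_of a le_rfl, fun Q k => c1 Q ((pd_iff a nor).1 k), ?_⟩
    simpa only [pd_iff a nor] using c2
  have st : ∀ σ ∈ Γ, ∀ a, ∃ b, i b = σ (i a) := fun σ s a => (ge.inv _).2 fun g k => by
    rw [← ab.cΓ σ s g k, (ge.inv _).1 ⟨a, rfl⟩ g k]
  refine ⟨fun R r => (vdn ge.ff h ch (pd_of_PD h.ff r) fun c c1 c0 => ?_).imp id
    fun ⟨Q, q, l⟩ => ⟨Q, q, l, ?_⟩, vupp ge.ff h ab.nor ch⟩
  · obtain ⟨σ, s, e⟩ := ab.tra c c1 c0 R r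
    obtain ⟨m, hm⟩ := exm61 (st σ s) (st _ (inv_mem s))
    refine ⟨σ, m, hm, fun x => ⟨ab.stΓ σ s x, fun k => ?_⟩, e, fun Q q => ?_⟩
    · exact σ.symm_apply_apply x ▸ ab.stΓ _ (inv_mem s) _ k
    · obtain ⟨Q', q1, q2⟩ := ge.act σ s Q q
      exact ⟨Q', q1, fun a => q2 a _ (hm a)⟩
  obtain ⟨p, p1, p0, p2, p3⟩ := ab.fac R r
  have mA : ∀ {R : Pl L}, PD A R → ∀ a ∈ A, a ∈ R.ring := fun ⟨_, c, _⟩ a k => (c ⟨a, k⟩).1
  obtain ⟨j, hj⟩ := ab.mov p p1 fun k => by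
    have := Pl.ord_unit R.toPlace (mA r p p1) (mA r _ k)
    omega
  have d0 : D j p ≠ 0 := fun z => hj (by rw [z, zero_div]; exact zero_mem _)
  have o : R.ord (D j p) = 0 := by_contra fun z => hj (Hr.mem_of h ab.nor fun R' r' => by
    rw [← Pl.ord_nonneg_iff _ (div_ne_zero d0 p0), Pl.ord_div _ d0 p0]
    have := Pl.ord_nonneg_of_mem _ (mA r' _ (ab.stD j p p1))
    by_cases e : R' = R
    · subst e
      omega
    · have := p3 R' r' e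
      omega)
  refine e_one l (D j) (fun a => ?_) (fun a k => ?_) p2 d0 o
  · obtain ⟨b, hb⟩ := (ge.inv (D j (i a))).2 fun g k => by
      rw [← ab.cD j g k, (ge.inv _).1 ⟨a, rfl⟩ g k]
    exact ⟨b, hb.symm⟩
  · obtain ⟨q, c, lo⟩ := id r
    obtain ⟨s, t, ht, rfl⟩ := lo a k
    have u := ((Pl.ord_eq_zero_iff _ (Hr.ne_of_notMem ht)).1 (Hr.cen_ord c ht)).2
    rw [Derivation.leibniz_div, smul_eq_mul, smul_eq_mul, smul_eq_mul]
    exact mul_mem (pow_mem u 2) (sub_mem (mul_mem (c t).1 (mA r _ (ab.stD j _ s.2)))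
      (mul_mem (c s).1 (mA r _ (ab.stD j _ t.2))))

end Vale.Agent.P283R.Sq
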