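import Vale.Agent.P283R.Sq.Pre32
import Vale.Agent.P283R.Sq.Bas19
import Vale.Agent.P283R.Sq.Bnd15
import Vale.Agent.P283R.Sq.Dvd37
import Vale.Agent.P283R.Sq.Eqn69
import Vale.Agent.P283R.Sq.Fam78
import Vale.Agent.P283R.Sq.Ger11
import Vale.Agent.P283R.Sq.Top29
import Vale.Agent.P283R.Sq.Tra35
import Vale.Agent.P283R.Sq.Val61

/-!
# P283R, block SQ: spherical varieties
-/

namespace Vale.Agent.P283R

theorem Sq.abg0 : Sq.ABG := Sq.abg_of Sq.bas19 Sq.tra (Sq.bnd15 Sq.com77 Sq.fac27 Sq.uni Sq.mov0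
  Sq.tra Sq.irr0 (Sq.dvd37 Sq.ghw Sq.lfr Sq.dis0 Sq.fac27 Sq.uni Sq.mov0 Sq.com77))

theorem Sq.mem0 : Sq.MEM := Sq.mem_of' Sq.val61 Sq.eqn Sq.fam78

theorem Sq.sph : Sq.SPH := Sq.top29 Sq.bas19 Sq.abg0 Sq.ger Sq.mem0

open Sl.Var in
theorem Sl.on_sq (M : ℕ → ℕ) : Sl.On fun d _ _ f ω B z => FanoType f ω ∧
    NefOver f (-logCan ω B) ∧ ∃ W, z.In W ∧ ∃ N ≤ M d, Sl.IsSpherical N (Sl.pre f W) :=
  Sl.on_sq_of Sq.sph M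

open Sl.Var in
theorem Sl.on_sq3 : Sl.On fun d _ _ f ω B z => FanoType f ω ∧
    NefOver f (-logCan ω B) ∧ ∃ W, z.In W ∧ Sl.IsSpherical (2 ^ (d + 3)) (Sl.pre f W) :=
  (Sl.on_sq fun d => 2 ^ (d + 3)).mono fun _ _ _ _ _ _ _ ⟨a, b, W, p, q⟩ =>
    ⟨a, b, W, p, _, le_rfl, q⟩

end Vale.Agent.P283R
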