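import Vale.Agent.P283R.Sq.All2
import Vale.Agent.P283R.Sl.Sq2
import Vale.Agent.P283R.Tq.Torf20

/-!
# P283R, block SQ: the bridge over a fixed point
-/

open Set CategoryTheory AlgebraicGeometry
open scoped Matrix

noncomputable section

namespace Vale.Agent.P283R.Sq

open Vale.Agent.P287D Sl

attribute [local instance 100] LieRing.ofAssociativeRing

/-- **ACT2**: the spherical action and the vector fields -/
def ACT2 : Prop := ForH fun _ L _ _ x G H _ r D _ => ∀ (K : Type) [Field K] [Algebra ℂ K]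
  (i : K →ₐ[ℂ] L) (d k : ℕ) (f : Fin k → L) (A : (Fin k → ℤ) → Set K), FF K d →
    (∀ a, (∃ b, i b = a) ↔ ∀ h ∈ r '' H, h a = a) → (∀ j, f j ≠ 0 ∧ Sm (r '' H) (f j)) →
    (∀ m, ∀ φ ∈ A m, i φ * ∏ j, f j ^ m j ∈ Rg (zx x)) →
    (∀ m, ∀ φ ∈ A m, ∀ a, ∃ ψ ∈ A m, D a (i φ * ∏ j, f j ^ m j) = i ψ * ∏ j, f j ^ m j) →
    ∃ (S : Type) (_ : LieRing S) (_ : LieAlgebra ℂ S) (s : LieIdeal ℂ S) (b : LieSubalgebra ℂ S)
      (ρ : S →ₗ⁅ℂ⁆ Derivation ℂ (Laurent K k) (Laurent K k)), SphericalAction d A s b ρ ∧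
      ∀ δ, ∃ ξ : Lie G, ∀ φ ψ, ρ δ (.single 0 φ) = .single 0 ψ → D ξ (i φ) = i ψ

open B32 in
theorem act2 : ACT2 := by
  intro N L _ _ x G l r D D' hd hb H hH hsp K _ _ i d k f A hK inv hf hA hS
  classical
  obtain ⟨g, Φ, hg, hΦ⟩ := lie6 N L x G l r D D' hd hb
  obtain ⟨-, -, t3, -⟩ := tan10 N L x G l r hd.red
  obtain ⟨-, -, c3, -⟩ := com77 N L x G l r D D' hd hb
  have f0 : ∀ j, f j ≠ 0 := fun j => (hf j).1
  let ng : g → Lie G := fun a => ⟨-a.1, (hg _).1 (neg_mem a.2)⟩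
  have hΦ' : ∀ a : g, Φ a = D (ng a) := fun a => by
    have := hΦ (-a) (ng a) rfl
    rw [map_neg] at this
    exact neg_injective this
  have iv : ∀ a, ∀ h ∈ H, r h (i a) = i a := fun a h hh => (inv _).1 ⟨a, rfl⟩ _ ⟨h, hh, rfl⟩
  have st : ∀ (a : g) φ, ∃ ψ, Φ a (i φ) = i ψ := fun a φ => by
    obtain ⟨ψ, e⟩ := (inv (Φ a (i φ))).2 (by
      rintro _ ⟨h, hh, rfl⟩
      rw [hΦ', ← (c3 _ h (hH hh) _).1, iv _ h hh])
    exact ⟨ψ, e.symm⟩
  have sf : ∀ (a : g) j, ∃ ψ, Φ a (f j) = i ψ * f j := fun a j => by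
    obtain ⟨ψ, e⟩ := (inv (Φ a (f j) / f j)).2 (by
      rintro _ ⟨h, hh, rfl⟩
      obtain ⟨c, hc⟩ := (hf j).2 _ ⟨h, hh, rfl⟩
      have c0 : c ≠ 0 := by
        rintro rfl
        rw [zero_smul, map_eq_zero] at hc
        exact f0 j hc
      rw [map_div₀, hΦ', ← (c3 _ h (hH hh) _).1, hc, Derivation.map_smul, Algebra.smul_def,
        Algebra.smul_def, mul_div_mul_left _ _ ((map_ne_zero _).2 c0)])
    exact ⟨ψ, by rw [e, div_mul_cancel₀ _ (f0 j)]⟩
  let n : Submodule ℂ (Mat N) :=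
    { carrier := {ν | ∃ h : ν ∈ g, ∀ φ, Φ ⟨ν, h⟩ (i φ) = 0}
      add_mem' := fun {a b} ⟨ha, ha'⟩ ⟨hb, hb'⟩ => ⟨add_mem ha hb, fun φ => by
        rw [show (⟨a + b, add_mem ha hb⟩ : g) = ⟨a, ha⟩ + ⟨b, hb⟩ from rfl, map_add,
          Derivation.add_apply, ha', hb', add_zero]⟩
      zero_mem' := ⟨zero_mem _, fun φ => by
        rw [show (⟨0, zero_mem _⟩ : g) = 0 from rfl, map_zero, Derivation.zero_apply]⟩
      smul_mem' := fun c a ⟨ha, ha'⟩ => ⟨g.smul_mem c ha, fun φ => by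
        rw [show (⟨c • a, g.smul_mem c ha⟩ : g) = c • ⟨a, ha⟩ from rfl, map_smul,
          Derivation.smul_apply, ha', smul_zero]⟩ }
  obtain ⟨g', s, b, le, adj, ss, sol, sum, fai, up⟩ := red33 klg63 cmp56 N g n
    (fun ξ h => by
      obtain ⟨η, e⟩ := t3 ⟨ξ, (hg _).1 h⟩
      exact (hg _).2 (e ▸ η.2))
    (fun ν h => h.1)
    (fun ξ hξ ν ⟨hν, h⟩ => ⟨g.lie_mem hξ hν, fun φ => by
      obtain ⟨ψ, e⟩ := st ⟨ξ, hξ⟩ φ
      rw [show (⟨ξ * ν - ν * ξ, g.lie_mem hξ hν⟩ : g) = ⁅(⟨ξ, hξ⟩ : g), (⟨ν, hν⟩ : g)⁆ from rfl,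
        LieHom.map_lie, Derivation.commutator_apply, h, e, h, map_zero, sub_zero]⟩)
  let ι : g' → g := fun a => ⟨a.1, le a.2⟩
  obtain ⟨ρ, hρ⟩ := rho60 K L g' k i f (Φ.comp (LieSubalgebra.inclusion le)) f0
    (fun a => st (ι a)) fun a => sf (ι a)
  replace hρ : ∀ a F m, co i f m (ρ a F) = D (ng (ι a)) (co i f m F) := fun a F m =>
    (hρ a F m).trans (by rw [← hΦ']; rfl)
  have gr : ∀ a m φ ψ, D (ng (ι a)) (i φ * ∏ j, f j ^ m j) = i ψ * ∏ j, f j ^ m j →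
      ρ a (.single m φ) = .single m ψ := fun a m φ ψ h => by
    ext m'
    by_cases e : m' = m
    · subst e
      rw [co_eq f0 ((hρ a _ m').trans ((congrArg _ (co_single i f m' φ)).trans h))]
      simp
    · rw [co_zero f0 ((hρ a _ m').trans ((congrArg _ (co_ne i f e φ)).trans (map_zero _)))]
      simp [Finsupp.single_eq_of_ne e]
  refine ⟨g', inferInstance, inferInstance, s, b, ρ, ⟨inferInstance, ss, sol, sum,
    fun a m φ => ?_, fun a ha h => fai a ha ⟨le a.2, fun φ => ?_⟩, fun m φ hφ => ?_,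
    fun W W' h1 h2 h3 h4 => ?_, ?_⟩, fun a => ⟨ng (ι a), fun φ ψ h => ?_⟩⟩
  rotate_right
  · have := hρ a (.single 0 φ) 0
    rw [h, co_single, co_single] at this
    simpa only [Pi.zero_apply, zpow_zero, Finset.prod_const_one, mul_one] using this.symm
  · by_cases hφ : φ ∈ A m
    · obtain ⟨ψ, h1, h2⟩ := hS m φ hφ (ng (ι a))
      exact ⟨ψ, gr a m φ ψ h2, fun _ => h1⟩
    · refine ⟨_, gr a m φ ((ρ a (.single m φ)).coeff m) ?_, fun h => (hφ h).elim⟩
      rw [← co_single, ← hρ]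
      rfl
  · have := hρ a (.single 0 φ) 0
    rw [h, map_zero, co_single] at this
    simp only [Pi.zero_apply, zpow_zero, Finset.prod_const_one, mul_one] at this
    exact (DFunLike.congr_fun (hΦ' (ι a)) _).trans this.symm
  · obtain ⟨n', hn'⟩ := H57.rg_le (hA m φ hφ)
    have ls := (ghw _ L (zx x) _ (fun ξ : Lie G => Lm ξ.1) D (Bu G) _ hd.hL A32.bu_l).1 n'
    let W : Submodule ℂ (Laurent K k) :=
      (Le (zx x) n').comap (co i f m) ⊓ ⨅ m' : {m' // m' ≠ m}, LinearMap.ker (co i f m'.1)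
    have mW : ∀ F, F ∈ W ↔ co i f m F ∈ Le (zx x) n' ∧ ∀ m', m' ≠ m → co i f m' F = 0 :=
      fun F => by simp [W, Submodule.mem_iInf]
    refine ⟨W, fun a F hF => ?_, ?_, (mW _).2 ⟨by rwa [co_single], fun m' e => co_ne i f e φ⟩⟩
    · rw [mW] at hF ⊢
      exact ⟨hρ a F m ▸ ls _ trivial _ hF.1, fun m' e => by rw [hρ, hF.2 m' e, map_zero]⟩
    · have : Module.Finite ℂ (Le (zx x) n') := by
        unfold Le
        infer_instance
      refine Module.Finite.of_injective ((co i f m).restrict (p := W) (q := Le (zx x) n')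
        fun F hF => ((mW F).1 hF).1) ((injective_iff_map_eq_zero _).2 fun F hF => ?_)
      ext m'
      by_cases e : m' = m
      · subst e
        exact co_zero f0 (congrArg Subtype.val hF)
      · exact co_zero f0 (((mW _).1 F.2).2 m' e)
  · refine crs59 _ L (zx x) g' (fun a => Lm (-a.1)) (fun a => D (ng (ι a)))
      (fun a => hd.hL (ng (ι a))) (fun a => ⟨⟨a.1ᴴ, adj _ a.2⟩, ?_⟩) (Laurent K k) (Fin k → ℤ)
      (fun a => (ρ a : Laurent K k →ₗ[ℂ] Laurent K k)) (co i f) (fun F h => ?_) (fun F => ?_) hρ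
      W W' h1 h2 h3 fun F hF m => hA m _ (h4 F hF m)
    · rw [← A32.lm_adj, Matrix.conjTranspose_neg]
    · ext m
      exact co_zero f0 (h m)
    · refine F.coeff.support.finite_toSet.subset fun m hm => ?_
      by_contra w
      exact hm (by rw [co_apply, Finsupp.notMem_support_iff.1 w, map_zero, zero_mul])
  · obtain ⟨δ, y, h1, h2⟩ := orb38 udi27 N L x G l r D D' hd hb H hH hsp K i d hK iv
    have ex : ∀ j, ∃ β ∈ b, ∀ φ, D (ng (ι β)) (i φ) = D (δ j) (i φ) := fun j => by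
      have m1 : -(δ j).1 ∈ g := neg_mem ((hg _).2 (δ j).2)
      obtain ⟨β, hβ, m2, h⟩ := up _ m1 fun p q w => by
        rw [Matrix.neg_apply, neg_eq_zero]
        by_contra c
        exact (h1 j).elim (fun u => w.ne' (u p q c)) fun u => lt_asymm w (u p q c)
      refine ⟨β, hβ, fun φ => ?_⟩
      have := h φ
      rw [show (⟨-(δ j).1 - β.1, m2⟩ : g) = ⟨-(δ j).1, m1⟩ - ι β from rfl, map_sub,
        Derivation.sub_apply, sub_eq_zero, hΦ', hΦ'] at this
      rw [← this]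
      exact congrArg (fun ξ => D ξ (i φ)) (Subtype.ext (neg_neg _))
    choose β hβ e using ex
    choose ψ hψ using fun j j' => st (ι (β j)) (y j')
    refine ⟨β, y, hβ, ?_⟩
    have e1 : (Matrix.of fun j j' => D (δ j) (i (y j'))) = i.toRingHom.mapMatrix (Matrix.of ψ) := by
      ext j j'
      rw [Matrix.of_apply, ← e, ← hΦ', hψ]
      rfl
    have e2 : (Matrix.of fun j j' => ρ (β j) (.single 0 (y j'))) =
        (algebraMap K (Laurent K k)).mapMatrix (Matrix.of ψ) := by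
      ext1 j j'
      rw [Matrix.of_apply, gr (β j) 0 (y j') (ψ j j') (by simp [← hΦ', hψ])]
      rfl
    rw [e1, ← RingHom.map_det] at h2
    rw [e2, ← RingHom.map_det]
    exact fun c => h2 (by
      rw [(injective_iff_map_eq_zero _).1 (algebraMap K (Laurent K k)).injective _ c, map_zero])


/-- the derivative of a function along a group which fixes its value vanishes -/
theorem van {K L I : Type} [Field K] [Algebra ℂ K] [Field L] [Algebra ℂ L] {A : Subalgebra ℂ L}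
    {G : Set I} {l r : I → L ≃ₐ[ℂ] L} {D D' : Derivation ℂ L L}
    (h : ∀ (W : Submodule ℂ L) (a : L), a ∈ A →
      ((∀ g ∈ G, l g a ∈ W) → D a ∈ W) ∧ ((∀ g ∈ G, r g a ∈ W) → D' a ∈ W))
    (i : K →ₐ[ℂ] L) (M : Submodule ℂ K) (one : (1 : K) ∉ M) (R : Set K)
    (cs : ∀ t : ℂ, ∀ c ∈ R, c + algebraMap ℂ K t ∈ R) (sub : ∀ c ∈ R, i c ∈ A)
    (mv : ∀ g ∈ G, ∀ c ∈ R, ∃ c', l g (i c) = i c' ∧ c' - c ∈ M) (c : K) (hc : c ∈ R) (c' : K)
    (e : D (i c) = i c') : c' ∈ M := by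
  have key : ∀ t : ℂ, ∃ u : ℂ, c' - u • (c + algebraMap ℂ K t) ∈ M := fun t => by
    have := (h ((M ⊔ ℂ ∙ (c + algebraMap ℂ K t)).map i.toLinearMap) _ (sub _ (cs t c hc))).1
      fun g hg => by
        obtain ⟨c₁, e₁, w⟩ := mv g hg _ (cs t c hc)
        refine ⟨c₁, ?_, e₁.symm⟩
        rw [← sub_add_cancel c₁ (c + algebraMap ℂ K t)]
        exact Submodule.add_mem_sup w (Submodule.mem_span_singleton_self _)
    rw [map_add, map_add, AlgHom.commutes, Derivation.map_algebraMap, add_zero, e] at this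
    obtain ⟨c₁, w, e₁⟩ := this
    obtain rfl : c₁ = c' := i.injective e₁
    obtain ⟨p, hp, q, hq, rfl⟩ := Submodule.mem_sup.1 w
    obtain ⟨u, rfl⟩ := Submodule.mem_span_singleton.1 hq
    exact ⟨u, by rwa [add_sub_cancel_right]⟩
  have fin : ∀ t : ℂ, c + algebraMap ℂ K t ∈ M → c' ∈ M := fun t w => by
    obtain ⟨u, hu⟩ := key t
    simpa using add_mem hu (M.smul_mem u w)
  obtain ⟨u, hu⟩ := key 0
  obtain ⟨v, hv⟩ := key 1
  have w := sub_mem hv hu
  by_cases q : u = v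
  · subst q
    by_cases u0 : u = 0
    · simpa [u0] using hu
    · refine (one ?_).elim
      have := M.smul_mem (-u⁻¹) w
      have e1 : (-u⁻¹) • (c' - u • (c + algebraMap ℂ K 1) - (c' - u • (c + algebraMap ℂ K 0))) =
          1 := by
        rw [map_one, map_zero, add_zero, smul_add, sub_sub_sub_cancel_left, sub_add_cancel_left,
          smul_neg, neg_smul, neg_neg, smul_smul, inv_mul_cancel₀ u0, one_smul]
      rwa [e1] at this
  · refine fin (-(v / (u - v))) ?_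
    have := M.smul_mem (u - v)⁻¹ w
    have e1 : (u - v)⁻¹ • (c' - v • (c + algebraMap ℂ K 1) - (c' - u • (c + algebraMap ℂ K 0))) =
        c + algebraMap ℂ K (-(v / (u - v))) := by
      have z : algebraMap ℂ K u - algebraMap ℂ K v ≠ 0 := by
        rw [← map_sub]
        exact (map_ne_zero _).2 (sub_ne_zero.2 q)
      simp only [Algebra.smul_def, map_one, map_zero, map_neg, map_div₀, map_inv₀, map_sub]
      field_simp
      ring
    rwa [e1] at this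

open Sl.Var in
/-- **the bridge over a fixed point** -/
theorem brg2 (N d : ℕ) (X : Var) (U : X.X.Opens) (S₀ : Set (Pt X.X)) (hd : 1 ≤ d)
    (a : dimension X.str = d) (hU : ∃ y : Pt X.X, y.In U) (hS : ∀ y ∈ S₀, y.In U)
    (h : SphericalFix N U S₀) :
    ∃ (k N' : ℕ) (D : Fin k → X.Div) (S : Type) (_ : LieRing S) (_ : LieAlgebra ℂ S)
      (s : LieIdeal ℂ S) (b : LieSubalgebra ℂ S)
      (ρ : S →ₗ⁅ℂ⁆ Derivation ℂ (Laurent X.K k) (Laurent X.K k)),
      (∀ E, InSpan U D (QDiv.coeff (.single E 1))) ∧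
      GradedGen N' (fun m => sections U (comb D m)) ∧
      SphericalAction d (fun m => sections U (comb D m)) s b ρ ∧
      ∀ δ, ∀ c ∈ regOn U, ∀ c', ρ δ (.single 0 c) = .single 0 c' → c' ≠ 0 →
        ∀ y ∈ S₀, ¬ RegAt c'⁻¹ y := by
  obtain ⟨L, _, _, x, G, H, l, r, i, red, HG, inv, sph, act, fix⟩ := h
  obtain ⟨n, rfl⟩ : ∃ n, d = n + 1 := ⟨d - 1, by omega⟩
  obtain ⟨bs, ga⟩ := bas19 N L x G l r red
  obtain ⟨D, D', gd⟩ := der N L x G l r red bs
  have hsp := A32.span tan10 red HG sph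
  obtain ⟨n', ab⟩ := abd N L x G l r D D' gd bs H HG hsp
  have inv' : ∀ c, (∃ b, i b = c) ↔ ∀ h ∈ r '' H, h c = c := fun c => (inv c).trans
    ⟨fun h _ ⟨g, hg, e⟩ => e ▸ h g hg, fun h g hg => h _ ⟨g, hg, rfl⟩⟩
  have ge := ger X n U L i (Ga G l) (r '' H) a hU inv'
    (fun σ hσ c => by
      obtain ⟨g, hg, rfl⟩ := (ga σ).1 hσ
      obtain ⟨c', e⟩ := (inv (l g (i c))).2 fun h hh => by
        rw [← bs.com g hg h (HG hh), (inv _).1 ⟨c, rfl⟩ h hh]
      exact ⟨c', e.symm⟩)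
    fun σ hσ => by
      obtain ⟨g, hg, rfl⟩ := (ga σ).1 hσ
      exact act g hg
  have va := val61 n' _ _ n X.K L _ i _ _ _ D _ _ ab ge
  have eq := eqn n' _ _ n X.K L _ i _ _ _ D _ _ ab ge va
  obtain ⟨Γ', fx⟩ := fix59 n' _ _ n X.K L _ i _ _ _ D _ _ ab ge va
  obtain ⟨k, ρ, f, fm⟩ := fam78 n' _ _ n X.K L _ i _ _ _ D _ _ ab ge va eq
  have st := sta33 n' _ _ n X.K L _ i _ _ _ D _ _ ab ge va Γ' fx k ρ f fm
  have g := gen38 sta33 n' _ _ n X.K L _ i _ _ _ D _ _ ab ge va Γ' fx k ρ f fm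
  have spn := cls33 n' _ _ n X.K L _ i _ _ _ D _ _ ab ge va Γ' fx eq k ρ f fm
  obtain ⟨S, _, _, s, b, θ, sa, lk⟩ := act2 N L x G l r D D' gd bs H HG hsp X.K i (n + 1) k f
    (Sec (Tu U) ρ) ge.ff inv' (fun j => ⟨(fm.eq j).2.1, (fm.eq j).2.2.1⟩) (fun m => (st m).1)
    fun m => (st m).2.2
  choose E _ hE using fun j => tu29.1 (fm.mem j)
  obtain rfl : (fun j => pz29 (E j)) = ρ := funext hE
  refine ⟨k, _, fun j => Finsupp.single (E j) 1, S, _, _, s, b, θ, fun E₀ => ?_, sec29 E _ ▸ g,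
    sec29 E _ ▸ sa, fun δ c hc c' e c0 y hy => ?_⟩
  rotate_right
  · obtain ⟨ξ, hξ⟩ := lk δ
    have sub : ∀ c ∈ regOn U, i c ∈ Rg (zx x) := fun c hc => by
      have := (st 0).1 c (by
        rintro - _ ⟨E', w, rfl⟩
        have : 0 ≤ (Gl.pq (X := X.o) E').ord c :=
          P297Z.Pl.ord_nonneg_of_mem _ ((Gl.pq_is (X := X.o) E' c).2 (hc _ w))
        simpa [cf] using this)
      simpa only [Pi.zero_apply, zpow_zero, Finset.prod_const_one, mul_one] using this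
    have mv : ∀ g ∈ G, ∀ c ∈ regOn U, ∃ c', l g (i c) = i c' ∧ c' - c ∈ Tq.T20.nu (X := X.o) y :=
      fun g hg c hc => by
      obtain ⟨c', e⟩ := (inv (l g (i c))).2 fun h hh => by
        rw [← bs.com g hg h (HG hh), (inv _).1 ⟨c, rfl⟩ h hh]
      refine ⟨c', e.symm, ?_⟩
      by_cases w : c' = c
      · rw [w, sub_self]
        exact zero_mem _
      obtain ⟨h1, h2⟩ := bs.inv g hg
      obtain ⟨y', hy', t⟩ := act _ h2 y (hS y hy)
      have e' : l g.adjugate (i c') = i c := by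
        have := DFunLike.congr_fun (bs.lmul g hg _ h2) (i c)
        rw [Matrix.mul_adjugate, h1, one_smul, N19.l_one red bs] at this
        rw [e]
        exact this.symm
      exact Tq.T20.nu_iff.2 ⟨(P283M.Br.lr (X := X.o) y).sub_mem ((t c' c e').2 (hc y' hy'))
        (hc y (hS y hy)), fun q => fix g hg c hc c' e.symm w y hy q.2.2⟩
    have cs : ∀ (t : ℂ), ∀ c ∈ regOn U, c + algebraMap ℂ X.K t ∈ regOn U := fun t c hc y w =>
      (P283M.Br.lr (X := X.o) y).add_mem (hc y w) (P283M.Br.reg_const (X := X.o) t y)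
    have one : (1 : X.K) ∉ Tq.T20.nu (X := X.o) y := fun w =>
      (Tq.T20.nu_iff.1 w).2 ⟨one_ne_zero, ⟨1, map_one _⟩, ⟨1, by rw [inv_one]; exact map_one _⟩⟩
    have := van (lfr N L x G l r D D' gd bs G · subset_rfl · · ξ ξ.2) i _ one (regOn U) cs sub mv
      c hc c' (hξ c c' e)
    exact fun q => (Tq.T20.nu_iff.1 this).2 ⟨c0, (Tq.T20.nu_iff.1 this).1, q⟩
  obtain ⟨m, φ, φ0, e⟩ := spn (Function.extend pz29 (Finsupp.single E₀ (1 : ℤ)) 0)
    (((Finsupp.single E₀ (1 : ℤ)).support.finite_toSet.image pz29).subset fun Q ⟨u, w⟩ => by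
      obtain ⟨E, -, rfl⟩ := tu29.1 u
      rw [pi29.extend_apply] at w
      exact ⟨E, Finsupp.mem_support_iff.2 w, rfl⟩)
  refine ⟨m, φ, φ0, fun E' w => ?_⟩
  have := e (pz29 E') ⟨E', w, rfl⟩
  rw [pi29.extend_apply, ← cf29, ← po29] at this
  rw [← this]
  by_cases h : E' = E₀
  · subst h
    simp [QDiv.coeff]
  · simp [QDiv.coeff, Finsupp.single_eq_of_ne h]

end Vale.Agent.P283R.Sq
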