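import Vale.Agent.P283R.Sq.St

/-!
# P283R, block SQ: the row COM
-/

open Set
open scoped Kronecker Matrix

noncomputable section

namespace Vale.Agent.P283R.Sq.C88

open Vale.Agent.P287D Sl

variable {s L : Type} [Fintype s] [Field L] [Algebra ℂ L]

theorem rg_ind {z : s → L} {p : L → Prop} (h0 : ∀ c, p (algebraMap ℂ L c))
    (h1 : ∀ a b, p a → p b → p (a + b)) (h2 : ∀ a u, a ∈ Rg z → p a → p (a * z u)) :
    ∀ a ∈ Rg z, p a := by
  rintro _ ⟨q, rfl⟩
  induction q using MvPolynomial.induction_on with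
  | C c => simpa using h0 c
  | add a b ha hb => simpa using h1 _ _ ha hb
  | mul_X a u ha => simpa using h2 _ u ⟨a, rfl⟩ ha

theorem z_mem (z : s → L) (u : s) : z u ∈ Rg z := ⟨MvPolynomial.X u, by simp⟩

theorem der_mem {z : s → L} {M : Matrix s s ℂ} {D : Derivation ℂ L L} (h : Lin z M D) :
    ∀ a ∈ Rg z, D a ∈ Rg z := by
  refine rg_ind (fun c => ?_) (fun a b ha hb => ?_) fun a u a0 ha => ?_
  · rw [Derivation.map_algebraMap]; exact zero_mem _
  · rw [map_add]; exact add_mem ha hb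
  · rw [Derivation.leibniz, smul_eq_mul, smul_eq_mul, h u]
    exact add_mem (mul_mem a0 (sum_mem fun v _ => Subalgebra.smul_mem _ (z_mem z v) _))
      (mul_mem (z_mem z u) ha)

/-- the conjugate of a derivation -/
def cj (σ : L ≃ₐ[ℂ] L) (D : Derivation ℂ L L) : Derivation ℂ L L :=
  Derivation.mk' (σ.symm.toLinearMap ∘ₗ (D : L →ₗ[ℂ] L) ∘ₗ σ.toLinearMap) fun a b => by
    simp [Derivation.leibniz]

theorem cj_apply (σ : L ≃ₐ[ℂ] L) (D : Derivation ℂ L L) (a : L) :
    cj σ D a = σ.symm (D (σ a)) := rfl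

theorem lin2 {z : s → L} {M M' : Matrix s s ℂ} (F : L →ₗ[ℂ] L) {F' : L → L} (h : Lin z M F)
    (h' : Lin z M' F') (u : s) : F (F' (z u)) = ∑ w, (M' * M) u w • z w := by
  rw [h' u, map_sum]
  simp only [map_smul, h _, Finset.smul_sum, smul_smul, Matrix.mul_apply, Finset.sum_smul]
  exact Finset.sum_comm

theorem lr {N : ℕ} (g h : Mat N) : Lm g * Rm h = Rm h * Lm g := by
  simp only [Lm, Rm, ← Matrix.mul_kronecker_mul, Matrix.mul_one, Matrix.one_mul]

theorem cm {z : s → L} {M M' : Matrix s s ℂ} {D : Derivation ℂ L L} {σ : L ≃ₐ[ℂ] L}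
    (exd : ∀ δ δ' : Derivation ℂ L L, (∀ e, δ (z e) = δ' (z e)) → δ = δ') (h : Lin z M D)
    (h' : Lin z M' σ) (e : M * M' = M' * M) (a : L) : D (σ a) = σ (D a) := by
  have h1 : cj σ D = D := exd _ _ fun u => by
    rw [cj_apply, AlgEquiv.symm_apply_eq]
    have a1 := lin2 (D : L →ₗ[ℂ] L) h h' u
    have a2 := lin2 σ.toLinearMap h' h u
    rw [e] at a2
    exact a1.trans a2.symm
  have h2 := congrArg (fun δ : Derivation ℂ L L => σ (δ a)) h1
  simpa [cj_apply] using h2

end Vale.Agent.P283R.Sq.C88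

namespace Vale.Agent.P283R.Sq

open C88

theorem com88 : COM := by
  intro N L _ _ x G l r D D' g b
  refine ⟨fun c ξ η ζ h => ⟨b.exd _ _ fun e => ?_, b.exd _ _ fun e => ?_⟩,
    fun ξ a ha => ⟨der_mem (g.hL ξ) a ha, der_mem (g.hR ξ) a ha⟩,
    fun ξ k hk a => ⟨cm b.exd (g.hL ξ) (b.rl k hk) (lr _ _) a,
      cm b.exd (g.hR ξ) (b.ll k hk) (lr _ _).symm a⟩, fun ξ η a => ?_⟩
  · rw [Derivation.add_apply, Derivation.smul_apply, g.hL ζ e, g.hL ξ e, g.hL η e, h,
      Finset.smul_sum, ← Finset.sum_add_distrib]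
    refine Finset.sum_congr rfl fun v _ => ?_
    rw [smul_smul, ← add_smul]
    simp only [Lm, Matrix.kroneckerMap_apply, Matrix.add_apply, Matrix.smul_apply, smul_eq_mul]
    congr 1
    ring
  · rw [Derivation.add_apply, Derivation.smul_apply, g.hR ζ e, g.hR ξ e, g.hR η e, h,
      Finset.smul_sum, ← Finset.sum_add_distrib]
    refine Finset.sum_congr rfl fun v _ => ?_
    rw [smul_smul, ← add_smul]
    simp only [Rm, Matrix.kroneckerMap_apply, Matrix.transpose_apply, Matrix.add_apply,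
      Matrix.smul_apply, smul_eq_mul]
    congr 1
    ring
  · have h1 : ⁅D ξ, D' η⁆ = 0 := b.exd _ _ fun u => by
      rw [Derivation.commutator_apply]
      have a1 := lin2 (D ξ : L →ₗ[ℂ] L) (g.hL ξ) (g.hR η) u
      have a2 := lin2 (D' η : L →ₗ[ℂ] L) (g.hR η) (g.hL ξ) u
      rw [lr] at a2
      exact sub_eq_zero.2 (a1.trans a2.symm)
    have h2 := congrArg (fun δ : Derivation ℂ L L => δ a) h1
    simp only [Derivation.commutator_apply, Derivation.zero_apply] at h2
    exact sub_eq_zero.1 h2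

end Vale.Agent.P283R.Sq
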