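import Vale.Agent.P283R.Sq.Fac27
import Vale.Agent.P283R.Tp.Hrt

/-!
# P283R, block SQ: the colours and the boundary
-/

open Set

noncomputable section

namespace Vale.Agent.P283R.Sq

open Vale.Agent.P287D Vale.Agent.P297Z Sl

namespace F27

variable {K L J : Type} [Field K] [Algebra ℂ K] [Field L] [Algebra ℂ L] {A : Subalgebra ℂ L}
  {R : Pl L} {n b w d : ℕ} {i : K →ₐ[ℂ] L} {Γ : Subgroup (L ≃ₐ[ℂ] L)} {H : Set (L ≃ₐ[ℂ] L)}
  {D : J → Derivation ℂ L L} {B : Set J} {T : Set (Pl K)}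

theorem pd_mem (hR : PD A R) {a : L} (ha : a ∈ A) : a ∈ R.ring :=
  let ⟨_, h, _⟩ := hR
  (h ⟨a, ha⟩).1

/-- a derivation of `A` preserves the local rings of the prime divisors -/
theorem der_mem (δ : Derivation ℂ L L) (hδ : ∀ a ∈ A, δ a ∈ A) (hR : PD A R) {u : L}
    (hu : u ∈ R.ring) : δ u ∈ R.ring := by
  obtain ⟨q, h, hl⟩ := id hR
  obtain ⟨s, t, ht, rfl⟩ := hl u hu
  have := ((Pl.ord_eq_zero_iff _ (Uf.ne_of ht)).1 (Uf.cen_ord h ht)).2
  rw [δ.leibniz_div, smul_eq_mul, smul_eq_mul, smul_eq_mul]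
  exact mul_mem (pow_mem this 2) (sub_mem (mul_mem (h t).1 (pd_mem hR (hδ _ s.2)))
    (mul_mem (h s).1 (pd_mem hR (hδ _ t.2))))

theorem log_unit (δ : Derivation ℂ L L) (hδ : ∀ a ∈ A, δ a ∈ A) (hR : PD A R) {u : L}
    (u0 : u ≠ 0) (hu : R.ord u = 0) : δ u / u ∈ R.ring := by
  obtain ⟨a, b⟩ := (Pl.ord_eq_zero_iff _ u0).1 hu
  rw [div_eq_mul_inv]
  exact mul_mem (der_mem δ hδ hR a) b

/-- the divisor of an eigenfunction is stable -/
theorem log_mem (δ : Derivation ℂ L L) (hδ : ∀ a ∈ A, δ a ∈ A) (hR : PD A R) {f φ : L}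
    (f0 : f ≠ 0) (hf : R.ord f = 1) (φ0 : φ ≠ 0) {c : ℂ} (hc : δ φ = c • φ) (hφ : R.ord φ ≠ 0) :
    δ f / f ∈ R.ring := by
  obtain ⟨m, hm⟩ : ∃ m, R.ord φ = m := ⟨_, rfl⟩
  have z := zpow_ne_zero m f0
  have m0 : (m : L) ≠ 0 := by
    have := charZero_of_injective_algebraMap (algebraMap ℂ L).injective
    exact Int.cast_ne_zero.2 (hm ▸ hφ)
  have h1 := log_unit δ hδ hR (div_ne_zero φ0 z)
    (by rw [Pl.ord_div _ φ0 z, Pl.ord_zpow, hf, hm, mul_one, sub_self])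
  have e : δ f / f = algebraMap ℂ L (m : ℂ)⁻¹ *
      (algebraMap ℂ L c - δ (φ / f ^ m) / (φ / f ^ m)) := by
    rw [δ.leibniz_div, δ.leibniz_zpow, hc, Algebra.smul_def c, map_inv₀, map_intCast,
      zsmul_eq_mul, zpow_sub_one₀ f0]
    simp only [smul_eq_mul]
    field_simp
    ring
  rw [e]
  exact mul_mem (R.con _) (sub_mem (R.con _) h1)

theorem ov_eq {Q Q' : Pl K} (h : Ov i R Q) (h' : Ov i R Q') : Q = Q' :=
  Pb.pl_ext (ValuationSubring.ext _ _ fun a => (h a).trans (h' a).symm)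

/-- the colours -/
def Col (i : K →ₐ[ℂ] L) (A : Subalgebra ℂ L) (D : J → Derivation ℂ L L) (B : Set J)
    (T : Set (Pl K)) : Set (Pl K) :=
  {Q | Q ∈ T ∧ ∃ R, PD A R ∧ Ov i R Q ∧ ∃ φ, φ ≠ 0 ∧ Hw D B φ ∧ R.ord φ ≠ 0}

theorem hw_col (ha : Ab n b w A Γ H D B) (hg : Ge d i Γ H T) {Q : Pl K} (hQ : Q ∈ Col i A D B T)
    {f : L} (hf : Eq' i A H Q f) : (f ∈ A ∧ f⁻¹ ∉ A ∧ Hw D B f ∧ Sm H f) := by
  obtain ⟨-, R, hR, ov, φ, φ0, hφ, ne⟩ := hQ
  obtain ⟨fA, f0, sm, eq⟩ := hf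
  refine ⟨fA, fun k => ?_, fun j hj => ?_, sm⟩
  · have := Pl.ord_unit _ (pd_mem hR fA) (pd_mem hR k)
    rw [(eq R hR).1 ov] at this
    exact one_ne_zero this
  obtain ⟨c, hc⟩ := hφ j hj
  have h1 := log_mem (D j) (ha.stD j) hR f0 ((eq R hR).1 ov) φ0 hc ne
  obtain ⟨a, e⟩ := (hg.inv (D j f / f)).2 fun h hh => by
    obtain ⟨c, hc⟩ := sm h hh
    have c0 : c ≠ 0 := by
      rintro rfl
      exact f0 (h.injective (by simpa using hc))
    rw [map_div₀, ← ha.cD j h hh, hc, Derivation.map_smul, Algebra.smul_def, Algebra.smul_def,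
      mul_div_mul_left _ _ ((map_ne_zero _).2 c0)]
  refine ha.eig j hj f fA (D j f / f) (Hr.mem_of ha.aff ha.nor fun R' hR' => ?_)
    (div_mul_cancel₀ _ f0).symm
  by_cases k : Ov i R' Q
  · rw [← e] at h1 ⊢
    exact (k a).1 ((ov a).2 h1)
  · exact log_unit _ (ha.stD j) hR' f0 ((eq R' hR').2 k)

theorem prod_le {ι : Type} [Fintype ι] {r : ι → Pl K} (inj : Function.Injective r) {f : ι → L}
    (hf : ∀ j, Eq' i A H (r j) (f j)) (hR : PD A R) : R.ord (∏ j, f j) ≤ 1 := by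
  classical
  rw [Pl.ord_prod _ _ fun j _ => (hf j).2.1]
  by_cases k : ∃ j, Ov i R (r j)
  · obtain ⟨j, hj⟩ := k
    rw [Finset.sum_eq_single j (fun j' _ n => ((hf j').2.2.2 R hR).2 fun o =>
      n (inj (ov_eq o hj))) (by simp), ((hf j).2.2.2 R hR).1 hj]
  · rw [Finset.sum_eq_zero fun j _ => ((hf j).2.2.2 R hR).2 fun o => k ⟨j, o⟩]
    exact zero_le_one

theorem orb_one : Module.finrank ℂ (Orb Γ (1 : L)) ≤ 1 := by
  refine (Submodule.finrank_mono (t := Submodule.span ℂ {(1 : L)}) (Submodule.span_mono ?_)).trans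
    (finrank_span_singleton one_ne_zero).le
  rintro _ ⟨σ, -, rfl⟩
  exact map_one σ

end F27

open F27 in
theorem fam27 : FAM := fun n b w d K L J _ _ _ _ i A Γ H D B T ha hg va eqn => by
  classical
  choose! g hg' using eqn
  have bnd : ∀ s : Finset (Pl K), (∀ Q ∈ s, Q ∈ Col i A D B T) →
      s.card ≤ b ∧ ∀ Q ∈ s, Module.finrank ℂ (Orb Γ (g Q)) ≤ b := fun s hs => by
    obtain ⟨h1, h2⟩ := ha.bnd s (fun Q => g Q)
      (fun Q => hw_col ha hg (hs _ Q.2) (hg' _ (hs _ Q.2).1))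
      fun R hR => prod_le Subtype.val_injective (fun Q : s => hg' _ (hs _ Q.2).1) hR
    exact ⟨by simpa using h1, fun Q hQ => h2 ⟨Q, hQ⟩⟩
  have fin : (Col i A D B T).Finite := by
    by_contra k
    obtain ⟨s, h1, h2⟩ := Set.Infinite.exists_subset_card_eq k (b + 1)
    have := (bnd s fun Q hQ => h1 hQ).1
    omega
  obtain ⟨c1, c2⟩ := bnd fin.toFinset fun Q hQ => fin.mem_toFinset.1 hQ
  let S := va.up.toFinset ∪ fin.toFinset
  have mS : ∀ Q, Q ∈ S ↔ Q ∈ Bd i A T ∨ Q ∈ Col i A D B T := fun Q => by simp [S]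
  let e := S.equivFin.symm
  let F : Pl K → L := fun Q => if Q ∈ Col i A D B T then g Q else 1
  have sur : ∀ Q ∈ S, ∃ j, (e j : Pl K) = Q := fun Q hQ => ⟨e.symm ⟨Q, hQ⟩, by simp⟩
  refine ⟨S.card, fun j => e j, fun j => F (e j), Subtype.val_injective.comp e.injective,
    fun j => ((mS _).1 (e j).2).elim (·.1) (·.1), fun j => ?_, fun j => ?_,
    fun Q hQ => sur Q ((mS Q).2 (Or.inl hQ)),
    fun Q hQ R hR o φ φ0 hφ ne => sur Q ((mS Q).2 (Or.inr ⟨hQ, R, hR, o, φ, φ0, hφ, ne⟩)), ?_⟩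
  · simp only [F]
    split_ifs with k
    · exact hg' _ k.1
    · exact ⟨one_mem _, one_ne_zero, fun h _ => ⟨1, by simp⟩, fun R hR =>
        ⟨fun o => absurd ⟨R, hR, o⟩ (((mS _).1 (e j).2).resolve_right k).2, fun _ => by simp⟩⟩
  · simp only [F]
    split_ifs with k
    · exact (hw_col ha hg k (hg' _ k.1)).2.2.1
    · exact fun a _ => ⟨0, by simp⟩
  · rw [Equiv.sum_comp e fun Q : S => Module.finrank ℂ (Orb Γ (F Q)),
      Finset.sum_coe_sort S fun Q => Module.finrank ℂ (Orb Γ (F Q))]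
    calc _ ≤ ∑ Q ∈ S, (1 + if Q ∈ fin.toFinset then b else 0) := Finset.sum_le_sum fun Q _ => by
          by_cases k : Q ∈ Col i A D B T
          · rw [show F Q = g Q from if_pos k, if_pos (fin.mem_toFinset.2 k)]
            exact (c2 Q (fin.mem_toFinset.2 k)).trans (Nat.le_add_left _ _)
          · rw [show F Q = 1 from if_neg k, if_neg (mt fin.mem_toFinset.1 k)]
            exact orb_one
      _ ≤ _ := by
          rw [Finset.sum_add_distrib, Finset.sum_ite_mem, Finset.sum_const, Finset.sum_const,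
            smul_eq_mul, smul_eq_mul, mul_one]
          exact Nat.add_le_add_left (Nat.mul_le_mul_right _
            ((Finset.card_le_card Finset.inter_subset_right).trans c1)) _

end Vale.Agent.P283R.Sq
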