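import Vale.Agent.P283R.Sq.St
import Vale.Agent.P283R.Tp.Hrt

/-!
# P283R, block SQ: the colours and the boundary (row FAM)
-/

open Set

noncomputable section

namespace Vale.Agent.P283R.Sq

open Vale.Agent.P287D Vale.Agent.P297Z Sl

namespace F40

variable {L : Type} [Field L] [Algebra ℂ L] {A : Subalgebra ℂ L} {R : Pl L}
  {δ : Derivation ℂ L L}

theorem der_mem (h : PD A R) (st : ∀ a ∈ A, δ a ∈ A) {a : L} (ha : a ∈ R.ring) :
    δ a ∈ R.ring := by
  obtain ⟨q, c, l⟩ := h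
  obtain ⟨s, t, ht, rfl⟩ := l a ha
  have i := ((Pl.ord_eq_zero_iff R.toPlace (Hr.ne_of_notMem ht)).1 (Hr.cen_ord c ht)).2
  rw [Derivation.leibniz_div, smul_eq_mul, smul_eq_mul, smul_eq_mul]
  exact mul_mem (pow_mem i _) (sub_mem (mul_mem (c t).1 (c ⟨_, st s s.2⟩).1)
    (mul_mem (c s).1 (c ⟨_, st t t.2⟩).1))

theorem log_mem (h : PD A R) (st : ∀ a ∈ A, δ a ∈ A) {u : L} (u0 : u ≠ 0) (e : R.ord u = 0) :
    δ u / u ∈ R.ring := by
  obtain ⟨a, b⟩ := (Pl.ord_eq_zero_iff R.toPlace u0).1 e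
  rw [div_eq_mul_inv]
  exact mul_mem (der_mem h st a) b

theorem log_of (h : PD A R) (st : ∀ a ∈ A, δ a ∈ A) {φ F : L} (φ0 : φ ≠ 0) (F0 : F ≠ 0)
    (n : R.ord φ ≠ 0) (e : R.ord F = 1) {c : ℂ} (hc : δ φ = c • φ) : δ F / F ∈ R.ring := by
  have z := zpow_ne_zero (R.ord φ) F0
  have a := log_mem h st (div_ne_zero φ0 z) (by
    rw [Pl.ord_div _ φ0 z, Pl.ord_zpow, e, mul_one, sub_self])
  have n' : algebraMap ℂ L (R.ord φ : ℂ) ≠ 0 :=
    (map_ne_zero _).2 (Int.cast_ne_zero.2 n)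
  have b : δ F / F = algebraMap ℂ L (R.ord φ : ℂ)⁻¹ *
      (algebraMap ℂ L c - δ (φ / F ^ R.ord φ) / (φ / F ^ R.ord φ)) := by
    rw [Derivation.leibniz_div, Derivation.leibniz_zpow, hc, zpow_sub_one₀ F0, map_inv₀,
      Algebra.smul_def c, zsmul_eq_mul, ← map_intCast (algebraMap ℂ L)]
    simp only [smul_eq_mul]
    field_simp
    ring
  rw [b]
  exact mul_mem (R.con _) (sub_mem (R.con c) a)

end F40

open F40 in
/-- **FAM** -/
theorem fam40 : FAM := by
  intro n b w d K L J _ _ _ _ i A Γ H D B T ab ge va hF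
  classical
  choose! F hF using hF
  have hw : ∀ Q ∈ T, ∀ R, PD A R → Ov i R Q → ∀ φ, φ ≠ 0 → Hw D B φ → R.ord φ ≠ 0 →
      Hw D B (F Q) := fun Q t R p o φ φ0 e ne j hj => by
    obtain ⟨m, F0, sm, or⟩ := hF Q t
    obtain ⟨a, ha⟩ := (ge.inv (D j (F Q) / F Q)).2 fun h hh => by
      obtain ⟨c, hc⟩ := sm h hh
      have c0 : c ≠ 0 := fun z => (map_ne_zero h).2 F0 (by rw [hc, z, zero_smul])
      rw [map_div₀, ← ab.cD j h hh, hc, Derivation.map_smul, Algebra.smul_def, Algebra.smul_def,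
        mul_div_mul_left _ _ (by simpa using c0)]
    obtain ⟨c, hc⟩ := e j hj
    have u : a ∈ Q.ring :=
      (o a).2 (ha.symm ▸ log_of p (ab.stD j) φ0 F0 ne ((or R p).1 o) hc : i a ∈ R.ring)
    refine ab.eig j hj _ m _ (Hr.mem_of ab.aff ab.nor fun R' p' => ?_) (div_mul_cancel₀ _ F0).symm
    by_cases o' : Ov i R' Q
    · exact ha ▸ (o' a).1 u
    · exact log_mem p' (ab.stD j) F0 ((or R' p').2 o')
  let C : Set (Pl K) := {Q | Q ∈ T ∧ (∃ R, PD A R ∧ Ov i R Q) ∧ Hw D B (F Q)}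
  have bd : ∀ s : Finset (Pl K), ↑s ⊆ C →
      s.card ≤ b ∧ ∀ Q ∈ s, Module.finrank ℂ (Orb Γ (F Q)) ≤ b := fun s hs => by
    have := ab.bnd s (fun Q => F Q) (fun Q => by
        obtain ⟨t, ⟨R, p, o⟩, e⟩ := hs Q.2
        obtain ⟨m, -, sm, or⟩ := hF Q t
        refine ⟨m, fun z => ?_, e, sm⟩
        obtain ⟨q, c, -⟩ := id p
        have := Pl.ord_nonneg_of_mem R.toPlace (c ⟨_, z⟩).1
        rw [Pl.ord_inv, (or R p).1 o] at this
        omega)
      fun R p => by
        rw [R.ord_prod _ fun Q _ => (hF Q.1 (hs Q.2).1).2.1]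
        by_cases x : ∃ Q : s, Ov i R Q
        · obtain ⟨Q, o⟩ := x
          rw [Finset.sum_eq_single Q (fun Q' _ ne => ((hF Q' (hs Q'.2).1).2.2.2 R p).2
            fun o' => ne (Subtype.ext (o'.uniq o))) (by simp)]
          exact (((hF Q (hs Q.2).1).2.2.2 R p).1 o).le
        · rw [Finset.sum_eq_zero fun Q _ => ((hF Q.1 (hs Q.2).1).2.2.2 R p).2 fun o => x ⟨Q, o⟩]
          exact zero_le_one
    rw [Fintype.card_coe] at this
    exact ⟨this.1, fun Q m => this.2 ⟨Q, m⟩⟩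
  have fC : C.Finite := by_contra fun z => by
    obtain ⟨s, hs, e⟩ := Set.Infinite.exists_subset_card_eq z (b + 1)
    have := (bd s hs).1
    omega
  let S := (fC.union va.up).toFinset
  let r : Fin S.card → Pl K := fun j => S.equivFin.symm j
  have inj : Function.Injective r := Subtype.val_injective.comp S.equivFin.symm.injective
  have mem : ∀ j, r j ∈ C ∪ Bd i A T := fun j => (Finite.mem_toFinset _).1 (S.equivFin.symm j).2
  have sur : ∀ Q ∈ C ∪ Bd i A T, ∃ j, r j = Q := fun Q m =>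
    ⟨S.equivFin ⟨Q, (Finite.mem_toFinset _).2 m⟩, congrArg Subtype.val (Equiv.symm_apply_apply _ _)⟩
  refine ⟨_, r, fun j => if r j ∈ C then F (r j) else 1, inj, fun j => (mem j).elim (·.1) (·.1),
    fun j => ?_, fun j => ?_, fun Q m => sur Q (.inr m),
    fun Q t R p o φ φ0 e ne => sur Q (.inl ⟨t, ⟨R, p, o⟩, hw Q t R p o φ φ0 e ne⟩), ?_⟩
  · split_ifs with m
    · exact hF _ m.1
    · exact ⟨A.one_mem, one_ne_zero, fun h _ => ⟨1, by simp⟩, fun R p =>
        ⟨fun o => (((mem j).resolve_left m).2 ⟨R, p, o⟩).elim, fun _ => Pl.ord_one _⟩⟩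
  · split_ifs with m
    · exact m.2.2
    · exact fun a _ => ⟨0, by simp⟩
  · have le : ∀ j, Module.finrank ℂ (Orb Γ (if r j ∈ C then F (r j) else 1)) ≤
        1 + if r j ∈ C then b else 0 := fun j => by
      by_cases m : r j ∈ C
      · rw [if_pos m, if_pos m]
        exact ((bd {r j} (by simpa using m)).2 _ (Finset.mem_singleton_self _)).trans
          (Nat.le_add_left _ _)
      · rw [if_neg m, if_neg m]
        refine (Submodule.finrank_mono (t := Submodule.span ℂ {1}) (Submodule.span_mono ?_)).trans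
          (finrank_span_singleton one_ne_zero).le
        rintro _ ⟨σ, -, rfl⟩
        exact map_one σ
    refine (Finset.sum_le_sum fun j _ => le j).trans ?_
    have := (bd ((Finset.univ.filter fun j => r j ∈ C).image r) fun Q m => by
      obtain ⟨j, hj, rfl⟩ := Finset.mem_image.1 m
      exact (Finset.mem_filter.1 hj).2).1
    rw [Finset.card_image_of_injective _ inj] at this
    rw [Finset.sum_add_distrib, ← Finset.sum_filter, Finset.sum_const, Finset.sum_const,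
      Finset.card_univ, Fintype.card_fin, smul_eq_mul, smul_eq_mul, mul_one]
    exact Nat.add_le_add_left (Nat.mul_le_mul_right _ this) _

end Vale.Agent.P283R.Sq
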