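import Vale.Agent.P283R.Sq.St
import Vale.Agent.P283R.Sq.Lat93

/-!
# P283R, block SQ: the lattice of the weights
-/

open Set
open scoped Kronecker Matrix

noncomputable section

namespace Vale.Agent.P283R.Sq

open Vale.Agent.P287D Sl

namespace L95

variable {L J : Type} [Field L] [Algebra ℂ L] {D : J → Derivation ℂ L L} {B : Set J}
  {H : Set (L ≃ₐ[ℂ] L)} {φ ψ : L} {v w : B → ℂ}

variable (D B H) in
/-- invariant eigenfunctions of the weight `w` -/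
def Wt (φ : L) (w : B → ℂ) : Prop :=
  φ ≠ 0 ∧ (∀ ξ : B, D ξ φ = w ξ • φ) ∧ ∀ h ∈ H, h φ = φ

theorem Wt.one : Wt D B H 1 0 := ⟨one_ne_zero, fun _ => by simp, fun _ _ => map_one _⟩

theorem Wt.mul (a : Wt D B H φ v) (b : Wt D B H ψ w) : Wt D B H (φ * ψ) (v + w) :=
  ⟨mul_ne_zero a.1 b.1, fun ξ => by
    rw [Derivation.leibniz, a.2.1, b.2.1]
    simp only [smul_eq_mul, Pi.add_apply, Algebra.smul_def, map_add]
    ring, fun h k => by rw [map_mul, a.2.2 h k, b.2.2 h k]⟩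

theorem Wt.zpow (a : Wt D B H φ v) (n : ℤ) : Wt D B H (φ ^ n) (n • v) :=
  ⟨zpow_ne_zero _ a.1, fun ξ => by
    rw [Derivation.leibniz_zpow, a.2.1, zpow_sub_one₀ a.1]
    have := a.1
    simp only [smul_eq_mul, Pi.smul_apply, Algebra.smul_def, map_mul, map_intCast, eq_intCast]
    field_simp, fun h k => by rw [map_zpow₀, a.2.2 h k]⟩

theorem Wt.prod {ι : Type} (s : Finset ι) {u : ι → L} {w : ι → B → ℂ}
    (a : ∀ i, Wt D B H (u i) (w i)) : Wt D B H (∏ i ∈ s, u i) (∑ i ∈ s, w i) := by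
  classical
  induction s using Finset.induction_on with
  | empty => simpa using Wt.one
  | insert i s hi ih =>
    rw [Finset.prod_insert hi, Finset.sum_insert hi]
    exact (a i).mul ih

variable (D B H) in
/-- the weights -/
def M : Submodule ℤ (B → ℂ) where
  carrier := {w | ∃ φ, Wt D B H φ w}
  zero_mem' := ⟨1, Wt.one⟩
  add_mem' := fun ⟨_, a⟩ ⟨_, b⟩ => ⟨_, a.mul b⟩
  smul_mem' := fun n _ ⟨_, a⟩ => ⟨_, a.zpow n⟩

end L95

open L95

/-- **LAT** -/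
theorem lat95 (gwt : GWT) (kil : KIL) (dis : DIS) (con : CON) : LAT := by
  intro N L _ _ x G l r D D' gd bas H hH sp
  obtain ⟨Δ, -, Δ0, hΔ⟩ := dis N L x G l r D D' gd bas _ sp
  obtain ⟨v, v1, v2⟩ := L93.sub_gen (fun (i : Fin (N * N)) (ξ : Bu G) =>
      Lm ξ.1.1 (finProdFinEquiv.symm i) (finProdFinEquiv.symm i)) (M D (Bu G) (r '' H)) (by
    rintro w ⟨φ, φ0, e, -⟩
    obtain ⟨p, q, rfl⟩ := gd.red.frac φ
    obtain ⟨m, hm⟩ := gwt _ L (zx x) _ (fun ξ : Lie G => Lm ξ.1) D (Bu G) (fun e => e.1) gd.hL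
      (fun ξ hξ => hξ.imp (fun k u v n => by
        rw [Lm, Matrix.kroneckerMap_apply] at n
        exact Prod.ext (k _ _ (left_ne_zero_of_mul n)) (by
          by_contra c
          exact right_ne_zero_of_mul n (Matrix.one_apply_ne c))) fun k u v n => by
        rw [Lm, Matrix.kroneckerMap_apply] at n
        exact k _ _ (left_ne_zero_of_mul n)) _ ⟨p, rfl⟩ _ ⟨q, rfl⟩ (div_ne_zero_iff.1 φ0).1
      (div_ne_zero_iff.1 φ0).2 fun a ha => ⟨_, e ⟨a, ha⟩⟩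
    refine (Submodule.mem_span_range_iff_exists_fun ℤ).2 ⟨fun i => m (finProdFinEquiv.symm i),
      funext fun ξ => smul_left_injective ℂ φ0 ?_⟩
    refine Eq.trans ?_ ((hm ξ ξ.2).symm.trans (e ξ))
    refine congrArg (· • _) ?_
    rw [Finset.sum_apply, ← finProdFinEquiv.symm.sum_comp]
    simp only [Pi.smul_apply, zsmul_eq_mul])
  choose u hu using v1
  refine ⟨u, fun i => ⟨(hu i).1, fun a ha => ⟨_, (hu i).2.1 ⟨a, ha⟩⟩, (hu i).2.2⟩,
    fun φ φ0 hw iv => ?_⟩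
  choose c hc using hw
  have a : Wt D (Bu G) (r '' H) φ fun ξ => c ξ.1 ξ.2 := ⟨φ0, fun ξ => hc _ _, iv⟩
  obtain ⟨n, hn⟩ := v2 _ ⟨φ, a⟩
  have b := Wt.prod Finset.univ fun i => (hu i).zpow (n i)
  have k := a.mul (b.zpow (-1))
  rw [← hn, neg_one_zsmul, add_neg_cancel, zpow_neg_one] at k
  obtain ⟨e, he⟩ := con N L x G l r D D' gd bas _ (.inl fun ζ => (mul_eq_zero.1 (hΔ ζ ⊥ _
    (fun ξ hξ => (k.2.1 ⟨ξ, hξ⟩).trans (zero_smul _ _)) fun η hη =>
      kil N L x G l r D D' gd bas H hH _ η (fun h hh => k.2.2 _ ⟨h, hh, rfl⟩) hη)).resolve_left Δ0)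
  exact ⟨e, n, by rw [Algebra.smul_def, ← he, inv_mul_cancel_right₀ b.1]⟩

end Vale.Agent.P283R.Sq
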