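import Vale.Agent.P283R.Sq.St

/-!
# P283R, block SQ: the row MEM
-/

open Set

noncomputable section

namespace Vale.Agent.P283R.Sq

open Vale.Agent.P287D Sl

theorem mem57 (val : VAL) (eqn : EQN) (fix : FIX) (fam : FAM) (gen : GEN) (cls : CLS)
    (loc : LOC) : MEM := by
  intro n b w d K L J _ _ _ _ i A Γ H D B T ab ge T' sub fin
  classical
  have va := val n b w d K L J i A Γ H D B T ab ge
  have eq := eqn n b w d K L J i A Γ H D B T ab ge va
  obtain ⟨Γ', fx⟩ := fix n b w d K L J i A Γ H D B T ab ge va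
  obtain ⟨k, r, f, fm⟩ := fam n b w d K L J i A Γ H D B T ab ge va eq
  have cl := cls n b w d K L J i A Γ H D B T ab ge va Γ' fx eq k r f fm
  obtain ⟨m, φ, φ0, e⟩ := cl (fun Q => if Q ∈ T' then 0 else 1)
    (fin.subset fun Q hQ => ⟨hQ.1, fun h => hQ.2 (if_pos h)⟩)
  refine ⟨k, r, fm.inj, fm.mem, ?_, cl⟩
  exact loc K k _ r T T' m φ sub fin φ0
    (fun Q hQ => by rw [← e Q (sub hQ), if_pos hQ])
    (fun Q hQ => by rw [← e Q hQ.1, if_neg hQ.2]; exact one_pos)
    (gen n b w d K L J i A Γ H D B T ab ge va Γ' fx k r f fm)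

end Vale.Agent.P283R.Sq
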