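import Vale.Agent.P283R.Sq.St

/-!
# P283R, block SQ: the end of the second part
-/

open Set

noncomputable section

namespace Vale.Agent.P283R.Sq

open Vale.Agent.P287D Sl

open Classical in
/-- **MEM** -/
theorem mem59 (val : VAL) (eqn : EQN) (fix : FIX) (fam : FAM) (gen : GEN) (cls : CLS) (loc : LOC) :
    MEM := by
  intro n b w d K L J _ _ _ _ i A Γ H D B T ab ge T' sub fin
  have va := val n b w d K L J i A Γ H D B T ab ge
  have eq := eqn n b w d K L J i A Γ H D B T ab ge va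
  obtain ⟨Γ', fx⟩ := fix n b w d K L J i A Γ H D B T ab ge va
  obtain ⟨k, r, f, fm⟩ := fam n b w d K L J i A Γ H D B T ab ge va eq
  have g := gen n b w d K L J i A Γ H D B T ab ge va Γ' fx k r f fm
  have c := cls n b w d K L J i A Γ H D B T ab ge va Γ' fx eq k r f fm
  refine ⟨k, r, fm.inj, fm.mem, ?_, c⟩
  obtain ⟨m, φ, φ0, e⟩ := c (fun Q => if Q ∈ T' then 0 else 1)
    (fin.subset fun Q q => ⟨q.1, fun x => q.2 (if_pos x)⟩)
  refine loc K k _ r T T' m φ sub fin φ0 (fun Q q => ?_) (fun Q q => ?_) g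
  · rw [← e Q (sub q), if_pos q]
  · rw [← e Q q.1, if_neg q.2]
    exact Int.one_pos

end Vale.Agent.P283R.Sq
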