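import Vale.Agent.P283R.Sq.Brg32
import Vale.Agent.P283R.Sl.Sq3
import Vale.Agent.P283R.Sf.St

/-!
# P283R, block SQ: quotients of spherical varieties
-/

open Set CategoryTheory AlgebraicGeometry

namespace Vale.Agent.P283R.Sq

open Vale.Agent.P287D Sl Sl.Var

theorem fixing {Y : Var} {N d : ℕ} {U : Y.X.Opens} {S : Pt Y.X → Prop} (hd : 1 ≤ d)
    (a : dimension Y.str = d) (hU : ∃ y : Pt Y.X, y.In U) (hS : ∀ y, S y → y.In U)
    (h : SphericalFix N U {x | S x}) : SphericalFixing U d S := by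
  obtain ⟨k, N', D, L, _, _, s, b, ρ, e, g, t, w⟩ := brg2 N d Y U _ hd a hU hS h
  exact ⟨k, N', D, L, _, _, s, b, ρ, e, g, ⟨t.1, t.2, t.3, t.4, t.5, t.6, t.7, t.8, t.9⟩,
    fun δ c hc c' x hx q r => by_contra fun c0 => w δ c hc c' q c0 x hx r⟩

theorem on_sphq_of (fc : Tq.FC) (st : Tq.STG) (qu : Tq.QUO) (h : Sf.SPF) :
    On fun _ _ _ f ω B z => FanoType f ω ∧ NefOver f (-logCan ω B) ∧ SphQuot f z := by
  intro d hd ε hε R hR
  obtain ⟨n, hn, H⟩ := Tq.top_of fc st qu Sg.ell d hd ε hε R hR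
  exact ⟨n, hn, fun X Z f ω B z a b c e s t ⟨u, v, Y, π, V, N, p, q, r, w⟩ =>
    H X Z f ω B z a b c e s t ⟨u, v, Y, π, V, p, q, r, fun ff ne i =>
      h Y d _ _ hd (fixing hd ff.trdeg ⟨_, i _ ne.choose_spec⟩ i w) ff ne i⟩⟩

end Vale.Agent.P283R.Sq
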