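import Vale.Agent.P283R.Sq.St
import Vale.Agent.P283R.Sq.Eig93

/-!
# P283R, block SQ: units and semi-invariants
-/

open Set
open scoped Kronecker Matrix

noncomputable section

namespace Vale.Agent.P283R.Sq

open Vale.Agent.P287D Sl

namespace S78

theorem one {s L J : Type} [Fintype s] [Field L] [Algebra ℂ L] (geg : GEG) {z : s → L}
    {M : J → Matrix s s ℂ} {D : J → Derivation ℂ L L} (h : ∀ a, Lin z (M a) (D a)) (ν : s → ℕ)
    {a : J} (ha : Dia (M a) ∨ Rai ν (M a)) {p : L} (hp : p ∈ Rg z) (hq : D a p / p ∈ Rg z) :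
    ∃ c : ℂ, D a p = c • p := by
  by_cases p0 : p = 0
  · exact ⟨0, by simp [p0]⟩
  exact (geg s L z J M D {a | Dia (M a) ∨ Rai ν (M a)} ν h (fun _ k => k) a ha p hp _ hq
    (div_mul_cancel₀ _ p0).symm).1

end S78

open S78 in
theorem uni78 (geg : GEG) (tan : TAN) (com : COM) : UNI := fun N L _ _ x G l r D D' g b p hp => by
  obtain ⟨-, t2, -, t4⟩ := tan N L x G l r g.red
  obtain ⟨c1, -⟩ := com N L x G l r D D' g b
  have k : ∀ E : Lie G → Derivation ℂ L L, (∀ (ξ η ζ : Lie G), ζ.1 = ξ.1 + η.1 → E ζ = E ξ + E η) →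
      (∀ τ : Lie G, (∀ i j, τ.1 i j ≠ 0 → i = j) ∨ (∀ i j, τ.1 i j ≠ 0 → i < j) ∨
        (∀ i j, τ.1 i j ≠ 0 → j < i) → ∃ c : ℂ, E τ p = c • p) → Hw E univ p := fun E ad e ξ _ => by
    obtain ⟨τ, ν, μ, s, h1, h2, h3⟩ := t4 ξ
    obtain ⟨a1, e1⟩ := e τ (.inl h1)
    obtain ⟨a2, e2⟩ := e ν (.inr (.inl h2))
    obtain ⟨a3, e3⟩ := e μ (.inr (.inr h3))
    have w : Tangent G (τ.1 + ν.1) := by simpa using t2 G 1 τ.1 ν.1 τ.2 ν.2
    refine ⟨a1 + a2 + a3, ?_⟩
    rw [ad ⟨_, w⟩ μ ξ s, ad τ ν ⟨_, w⟩ rfl, Derivation.add_apply, Derivation.add_apply, e1, e2, e3,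
      add_smul, add_smul]
  refine ⟨fun h => k D (fun ξ η ζ e => ?_) ?_, fun h => k D' (fun ξ η ζ e => ?_) ?_⟩
  · simpa using (c1 1 ξ η ζ (by simpa using e)).1
  · rintro τ (t | t | t)
    · refine one geg g.hL (fun _ => 0) (.inl fun u v n => ?_) hp (h τ)
      rw [Lm, Matrix.kroneckerMap_apply] at n
      exact Prod.ext (t _ _ (left_ne_zero_of_mul n))
        (by_contra fun c => right_ne_zero_of_mul n (Matrix.one_apply_ne c))
    · exact one geg g.hL (fun e => e.1) (.inr fun u v n => t _ _ (left_ne_zero_of_mul n)) hp (h τ)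
    · exact one geg g.hL (fun e => e.1.rev)
        (.inr fun u v n => Fin.rev_lt_rev.2 (t _ _ (left_ne_zero_of_mul n))) hp (h τ)
  · simpa using (c1 1 ξ η ζ (by simpa using e)).2
  · rintro τ (t | t | t)
    · refine one geg g.hR (fun _ => 0) (.inl fun u v n => ?_) hp (h τ)
      rw [Rm, Matrix.kroneckerMap_apply] at n
      exact Prod.ext (by_contra fun c => left_ne_zero_of_mul n (Matrix.one_apply_ne c))
        (t _ _ (right_ne_zero_of_mul n)).symm
    · exact one geg g.hR (fun e => e.2.rev)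
        (.inr fun u v n => Fin.rev_lt_rev.2 (t _ _ (right_ne_zero_of_mul n))) hp (h τ)
    · exact one geg g.hR (fun e => e.2) (.inr fun u v n => t _ _ (right_ne_zero_of_mul n)) hp (h τ)

theorem sem78 (com : COM) (con : CON) (uni : UNI) (tra : TRA) : SEM :=
  fun N L _ _ x G l r D D' g b f hf f0 h hh a1 a2 => by
  obtain ⟨-, c2, c3, -⟩ := com N L x G l r D D' g b
  have h0 : r h f ≠ 0 := by simpa using f0
  obtain ⟨u, hu⟩ : ∃ u, u = r h f / f := ⟨_, rfl⟩
  have u0 : u ≠ 0 := hu ▸ div_ne_zero h0 f0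
  have ui : f / r h f = u⁻¹ := by rw [hu, inv_div]
  rw [← hu] at a1
  rw [ui] at a2
  have e := (uni N L x G l r D D' g b u a1).1 fun ξ =>
    div_eq_mul_inv (D ξ u) u ▸ mul_mem (c2 ξ u a1).1 a2
  obtain ⟨c, hc⟩ := con N L x G l r D D' g b (r h u / u) (.inr fun ξ => by
    obtain ⟨c, k⟩ := e ξ trivial
    rw [Derivation.leibniz_div, (c3 ξ h hh u).1, k, map_smul]
    simp only [smul_eq_mul, Algebra.smul_def]
    ring)
  have k : r h u = c • u := by rw [Algebra.smul_def, ← hc, div_mul_cancel₀ _ u0]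
  have c0 : c ≠ 0 := by
    rintro rfl
    simp [u0] at k
  have r1 : r 1 = 1 := by
    have := b.rmul 1 g.red.one 1 g.red.one
    rw [one_mul] at this
    exact left_eq_mul.1 this
  have := ((tra N L x G l r g.red b).1 f hf).2
  refine E93.semi (r h : L →ₐ[ℂ] L) f0 (Submodule.span ℂ ((fun g => r g f) '' G))
    (Submodule.subset_span ⟨1, g.red.one, by simp [r1]⟩) (fun v hv => ?_)
    (u := u) (by rw [hu, div_mul_cancel₀ _ f0]; rfl) c0 k
  induction hv using Submodule.span_induction with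
  | mem v hv =>
    obtain ⟨a, ha, rfl⟩ := hv
    exact Submodule.subset_span ⟨h * a, b.mul _ hh _ ha, by simp [b.rmul _ hh _ ha]⟩
  | zero => simp
  | add v w _ _ i j => rw [map_add]; exact add_mem i j
  | smul a v _ i => rw [map_smul]; exact Submodule.smul_mem _ _ i

end Vale.Agent.P283R.Sq
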