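import Vale.Agent.P283R.Sq.St
import Vale.Agent.P283R.Tp.Hrt

/-!
# P283R, block SQ: the sections form a stable space of regular functions
-/

set_option linter.all false

open Set

noncomputable section

namespace Vale.Agent.P283R.Sq

open Vale.Agent.P287D Vale.Agent.P297Z

namespace S9

variable {K L : Type} [Field K] [Algebra ℂ K] [Field L] [Algebra ℂ L] {k : ℕ} {i : K →ₐ[ℂ] L}
  {A : Subalgebra ℂ L} {H : Set (L ≃ₐ[ℂ] L)} {T : Set (Pl K)} {r : Fin k → Pl K} {f : Fin k → L}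
  {m : Fin k → ℤ} {φ : K} {R : Pl L} {Q : Pl K}

/-- the sections as a subspace -/
def secS (T : Set (Pl K)) (r : Fin k → Pl K) (m : Fin k → ℤ) : Submodule ℂ K :=
  ⨅ Q ∈ T, Q.sub (cf r m Q : ℝ)

theorem mem_secS : φ ∈ secS T r m ↔ φ ∈ Sec T r m := by
  simp only [secS, Submodule.mem_iInf, Pl.mem_sub]
  exact ⟨fun h n P hP => by exact_mod_cast (h P hP).resolve_left n,
    fun h P hP => or_iff_not_imp_left.2 fun n => by exact_mod_cast h n P hP⟩

theorem pd_mem (h : PD A R) {a : L} (ha : a ∈ A) : a ∈ R.ring :=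
  let ⟨_, c, _⟩ := h; (c ⟨a, ha⟩).1

variable (e : ∀ j, Eq' i A H (r j) (f j))

include e

theorem ne (m : Fin k → ℤ) : ∏ j, f j ^ m j ≠ 0 :=
  Finset.prod_ne_zero_iff.2 fun j _ => zpow_ne_zero _ (e j).2.1

theorem ord_ov (h : PD A R) (o : Ov i R Q) (m : Fin k → ℤ) :
    R.ord (∏ j, f j ^ m j) = cf r m Q := by
  classical
  rw [R.ord_prod _ fun j _ => zpow_ne_zero _ (e j).2.1, cf]
  refine Finset.sum_congr rfl fun j _ => ?_
  rw [Pl.ord_zpow]
  split_ifs with z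
  · rw [((e j).2.2.2 R h).1 (z ▸ o), mul_one]
  · rw [((e j).2.2.2 R h).2 fun w => z (w.uniq o), mul_zero]

theorem ord_trv (h : PD A R) (o : ∀ a, i a ∈ R.ring) (m : Fin k → ℤ) :
    R.ord (∏ j, f j ^ m j) = 0 := by
  rw [R.ord_prod _ fun j _ => zpow_ne_zero _ (e j).2.1]
  exact Finset.sum_eq_zero fun j _ => by
    rw [Pl.ord_zpow, ((e j).2.2.2 R h).2 fun w => w.not_trv o, mul_zero]

theorem back (v : Va i A T) (h : i φ * ∏ j, f j ^ m j ∈ A)
    (b : φ ≠ 0 → ∀ Q ∈ Bd i A T, 0 ≤ Q.ord φ + cf r m Q) : φ ∈ Sec T r m := fun z Q q => by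
  by_cases w : ∃ R, PD A R ∧ Ov i R Q
  · obtain ⟨R, r1, r2⟩ := w
    obtain ⟨Q', -, q1, q2⟩ := (v.dn R r1).resolve_left r2.not_trv
    have := Pl.ord_nonneg_of_mem _ (pd_mem r1 h)
    rwa [Pl.ord_mul _ ((map_ne_zero i).2 z) (ne e m), ord_ov e r1 r2, q2, q1.uniq r2] at this
  · exact b z Q ⟨q, w⟩

end S9

open S9

/-- **STA** -/
theorem sta : STA := by
  intro n b w d K L J _ _ _ _ i A Γ H D B T ab ge v Γ' fx k r f fm m
  have e := fm.eq
  have one : ∀ φ ∈ Sec T r m, i φ * ∏ j, f j ^ m j ∈ A := fun φ hφ => by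
    by_cases z : φ = 0
    · rw [z, map_zero, zero_mul]; exact zero_mem _
    have z' := (map_ne_zero i).2 z
    refine (hrt n L A ab.aff ab.nor).2.1 _ fun R p => Cb.mem_ord ?_
    rw [Pl.ord_mul _ z' (ne e m)]
    rcases v.dn R p with o | ⟨Q, q, o, q2⟩
    · rw [ord_trv e p o, add_zero]
      exact Pl.ord_nonneg_of_mem _ (o φ)
    · rw [ord_ov e p o, q2]
      exact hφ z Q q
  refine ⟨one, fun φ => back e v, fun φ hφ a => ?_⟩
  obtain ⟨ψ, h1, h2⟩ := ab.lf Γ' fx.idx ((secS T r m).map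
    (LinearMap.mulRight ℂ (∏ j, f j ^ m j) ∘ₗ i.toLinearMap)) _ (one φ hφ) (fun σ s s' => by
      obtain ⟨a', a1, a2⟩ := fx.fun' σ s' φ
      choose c c1 c2 using fun j => fx.sec σ s' (f j) (e j).1 (e j).2.1 (e j).2.2.1
      have c0 : ∀ j, c j ≠ 0 := fun j z => (e j).2.1 ((map_eq_zero σ).1 (by
        rw [c1, z, map_zero, zero_mul]))
      have k : σ (i φ * ∏ j, f j ^ m j) = i (a' * ∏ j, c j ^ m j) * ∏ j, f j ^ m j := by
        simp only [map_mul, map_prod, map_zpow₀, a1, c1, mul_zpow, Finset.prod_mul_distrib,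
          mul_assoc]
      refine ⟨_, mem_secS.2 (back e v (k ▸ ab.stΓ σ s _ (one φ hφ)) fun z Q q => ?_), k.symm⟩
      have a0 := left_ne_zero_of_mul z
      rw [Pl.ord_mul _ a0 (right_ne_zero_of_mul z),
        Q.ord_prod _ fun j _ => zpow_ne_zero _ (c0 j), Finset.sum_eq_zero fun j _ => by
          rw [Pl.ord_zpow, c2 j Q q, mul_zero], add_zero, a2 Q q]
      exact hφ (fun z => a0 ((map_eq_zero i).1 (by rw [← a1, z, map_zero, map_zero]))) Q q.1) a
  exact ⟨ψ, mem_secS.1 h1, h2.symm⟩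

end Vale.Agent.P283R.Sq
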