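import Vale.Agent.P283R.Sq.St
import Vale.Agent.P283R.Sg.Top20
import Vale.Agent.P283R.Sg.Out11

/-!
# P283R, block SQ: from the tier to the schemes
-/

open Set CategoryTheory AlgebraicGeometry

noncomputable section

namespace Vale.Agent.P283R.Sq

open Vale.Agent.P287D Sl Sl.Var Sg.T20

theorem cf_pq20 {X : Var} {k : ℕ} (r : Fin k → X.PrimeDiv) (m : Fin k → ℤ) (E : X.PrimeDiv) :
    cf (fun i => Gl.pq (X := X.o) (r i)) m (Gl.pq (X := X.o) E) =
      comb (fun i => Finsupp.single (r i) 1) m E := by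
  classical
  refine Finset.sum_congr rfl fun i _ => ?_
  rw [Finsupp.single_apply, mul_ite, mul_one, mul_zero]
  exact if_congr (pq_inj (X := X.o)).eq_iff rfl rfl

/-- **TOP** -/
theorem top20 : TOP := by
  intro bas abg ger mem N d X Z f ω B z V hd a b ct zV
    ⟨L, _, _, x, G, H, l, r₀, i, rd, hH, h1, h2, h3⟩
  obtain ⟨_, ⟨U, hU, rfl⟩, zU, le⟩ :=
    Z.X.isBasis_affineOpens.exists_subset_of_mem_open (show z ∈ (V : Set Z.X) from zV) V.isOpen
  have le' : ∀ x : Pt X.X, x.In (pre f U) → x.In (pre f V) := fun x h => le h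
  obtain ⟨x₀, hx₀⟩ := ct.2.2.1.surj z
  replace hx₀ : Pt.In x₀ (pre f U) := show f x₀ ∈ U from hx₀ ▸ zU
  obtain ⟨n, rfl⟩ : ∃ n, d = n + 1 := ⟨d - 1, by omega⟩
  have hK := P283M.Br.ffd X.o _ a
  obtain ⟨j, -, fr⟩ := P283M.Br.frm X.o _ hK ω b
  have f0 := P283R.Br.form_fin hK fr
  obtain ⟨bs, ga⟩ := bas N L x G l r₀ rd
  obtain ⟨n', D, ab⟩ := abg N L x G l r₀ rd H hH h2
  have ge := ger X n (pre f V) L i (Ga G l) (r₀ '' H) a ⟨x₀, le' _ hx₀⟩
    (fun a => (h1 a).trans ⟨fun w _ ⟨h, u, v⟩ => v ▸ w h u, fun w h u => w _ ⟨h, u, rfl⟩⟩)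
    (fun σ hσ a => by
      obtain ⟨g, hg, rfl⟩ := (ga σ).1 hσ
      obtain ⟨a', e⟩ := (h1 (l g (i a))).2 fun h hh => by
        rw [← bs.com g hg h (hH hh), (h1 _).1 ⟨a, rfl⟩ h hh]
      exact ⟨a', e.symm⟩) fun σ hσ y hy => by
      obtain ⟨g, hg, rfl⟩ := (ga σ).1 hσ
      exact h3 g hg y hy
  obtain ⟨k, r', -, rT, g, spn⟩ := mem _ _ _ _ _ _ _ i _ _ _ D _ _ ab ge (Tu (pre f U))
    (fun _ ⟨E, h, e⟩ => ⟨E, le' E.1 h, e⟩)
    (((Sg.out X _ x₀ hx₀).image (Gl.pq (X := X.o))).subset (by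
      rintro _ ⟨⟨E, -, rfl⟩, c⟩
      exact ⟨E, fun w => c ⟨E, w, rfl⟩, rfl⟩))
  choose r _ er using rT
  obtain rfl : r' = fun i => Gl.pq (X := X.o) (r i) := funext fun i => (er i).symm
  have es : Sec (Tu (pre f U)) (fun i => Gl.pq (X := X.o) (r i)) =
      fun m => sections (pre f U) (comb (fun i => Finsupp.single (r i) 1) m) :=
    funext fun m => Set.ext fun φ => imp_congr_right fun _ =>
      (forall_mem_image (f := Gl.pq (X := X.o)) (s := {E | E.1 ∈ pre f U})).trans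
        (forall_congr' fun E => imp_congr_right fun _ => iff_of_eq (congrArg (0 ≤ ·)
          (congrArg₂ (· + ·) (Gl.pq_ord E φ).symm (cf_pq20 (X := X) r m E))))
  have sq : ∀ (B : X.QDiv) (q : ℕ), (∀ E, ∃ m : ℤ, q * B.coeff E = m) →
      InSpan (pre f U) (fun i => Finsupp.single (r i) 1) fun E => q * logCan ω B E :=
    fun B q hq => by
      choose c hc using hq
      obtain ⟨m, φ, φ0, e⟩ := spn (Function.extend (Gl.pq (X := X.o))
        (fun E => q * formOrd ω (RingEquiv.refl X.K) E + c E) 0)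
        (fn (X := X.o) (W := pre f V) (f0.union B.support.finite_toSet) fun E e => by
          replace e := ((pq_inj (X := X.o)).extend_apply _ _ E).symm.trans_ne e
          by_contra w
          have w1 : formOrd ω (RingEquiv.refl X.K) E = 0 := not_not.1 fun a => w (.inl a)
          have w2 := hc E
          rw [show B.coeff E = 0 from Finsupp.notMem_support_iff.1 fun a => w (.inr a),
            mul_zero] at w2
          exact e (by simp only [w1, mul_zero, zero_add]; exact_mod_cast w2.symm))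
      refine ⟨m, φ, φ0, fun E w => ?_⟩
      have k := (((pq_inj (X := X.o)).extend_apply _ _ E).symm.trans
        (e _ ⟨E, le' _ w, rfl⟩)).trans
        (congrArg₂ (· + ·) (Gl.pq_ord (X := X.o) E φ).symm (cf_pq20 (X := X) r m E))
      simp only [logCan, mul_add, hc]
      exact_mod_cast k
  refine ⟨k, _, U, _, le_rfl, hU, zU, es ▸ g, sq B, .inr ?_⟩
  simpa using sq 0 1 fun E => ⟨0, by simp [QDiv.coeff]⟩

end Vale.Agent.P283R.Sq
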