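import Vale.Agent.P283R.Mt.Tor
import Vale.Agent.P283R.To.GlAf
import Vale.Agent.P283R.Sl.Cl
import Vale.Agent.P283R.Sl.Sq
import Mathlib.GroupTheory.MonoidLocalization.UniqueFactorization

/-!
# P283R, block SQ: toric varieties are spherical
-/

open Set CategoryTheory AlgebraicGeometry

noncomputable section

namespace Vale.Agent.P283R.Sq

namespace T56

section

open Vale.Agent.P289 Vale.Agent.P289.H219 Vale.Agent.P270L.S Vale.Agent.P283M.Am

variable {X : Scheme.{0}} [IsIntegral X] [IsNoetherian X] {U : X.Opens}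

theorem loc_of (hU : IsAffineOpen U) (σ : X.functionField ≃+* X.functionField)
    (h : ∀ a ∈ reg U, σ a ∈ reg U) {p q : X} (hp : p ∈ U) (hq : q ∈ U)
    (k : ∀ b ∈ reg U, Un p b → Un q (σ b)) {a : X.functionField} (ha : a ∈ loc p) :
    σ a ∈ loc q := by
  obtain ⟨b, h1, h2, h3⟩ := frac hU hp ha
  have u := k b h1 h2
  have := mul_mem u.2.2 (mem_reg.1 (h _ h3) q hq)
  rwa [map_mul, inv_mul_cancel_left₀ u.1] at this

/-- an automorphism of the coordinate ring permutes the local rings -/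
theorem mov (hU : IsAffineOpen U) (σ : X.functionField ≃+* X.functionField)
    (h : ∀ a ∈ reg U, σ a ∈ reg U) (h' : ∀ a ∈ reg U, σ.symm a ∈ reg U) {p : X} (hp : p ∈ U) :
    ∃ q ∈ U, ∀ a, a ∈ loc p ↔ σ a ∈ loc q := by
  have : Nonempty U := ⟨⟨p, hp⟩⟩
  have inj := X.germToFunctionField_injective U
  choose φ hφ using fun a : Γ(X, U) => reg_iff.1 (h' _ (secK_reg U a))
  let ι := (X.germToFunctionField U).hom
  have hφ' : ∀ a, ι (φ a) = σ.symm (ι a) := hφ
  let ψ : Γ(X, U) →+* Γ(X, U) :=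
    { toFun := φ
      map_one' := inj (show ι _ = ι _ by rw [hφ', map_one, map_one])
      map_mul' := fun a b => inj (show ι _ = ι _ by simp only [hφ', map_mul])
      map_zero' := inj (show ι _ = ι _ by rw [hφ', map_zero, map_zero])
      map_add' := fun a b => inj (show ι _ = ι _ by simp only [hφ', map_add]) }
  obtain ⟨⟨q, hq⟩, e⟩ : ∃ q : U, hU.primeIdealOf q = (hU.primeIdealOf ⟨p, hp⟩).comap ψ :=
    hU.isoSpec.hom.homeomorph.surjective _
  have k : ∀ b ∈ reg U, Un q b ↔ Un p (σ.symm b) := fun b hb => by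
    obtain ⟨a, rfl⟩ := reg_iff.1 hb
    rw [← hφ, un_secK a hq, un_secK _ hp, Scheme.mem_basicOpen _ _ _ hq,
      Scheme.mem_basicOpen _ _ _ hp, ← not_iff_not, ← mem_primeIdealOf hU, ← mem_primeIdealOf hU, e]
    rfl
  refine ⟨q, hq, fun a => ⟨loc_of hU σ h hp hq fun b hb u => (k _ (h b hb)).2 (by simpa using u),
    fun ha => ?_⟩⟩
  simpa using loc_of hU σ.symm h' hq hp (fun b hb => (k b hb).1) ha

end

open Sl MvPolynomial

variable {K : Type} [Field K] [Algebra ℂ K] {d : ℕ} {y : Fin d → K}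

/-- the diagonal matrix of determinant one -/
def dg {R : Type} [CommRing R] (a : R) (t : Fin d → R) : Matrix (Fin (d + 1)) (Fin (d + 1)) R :=
  Matrix.diagonal (Fin.cons a t)

theorem at_map {R S : Type} [CommRing R] [Algebra ℂ R] [CommRing S] [Algebra ℂ S] (φ : R →ₐ[ℂ] S)
    (a : R) (t : Fin d → R) (p : MvPolynomial (Fin (d + 1) × Fin (d + 1)) ℂ) :
    φ (atMat (dg a t) p) = atMat (dg (φ a) fun i => φ (t i)) p := by
  unfold atMat
  rw [← AlgHom.comp_apply, comp_aeval]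
  refine congrArg (fun z => aeval z p) (funext fun e => ?_)
  obtain ⟨i, j⟩ := e
  by_cases h : i = j
  · subst h
    simp only [dg, Matrix.diagonal_apply_eq]
    cases i using Fin.cases <;> rfl
  · simp only [dg, Matrix.diagonal_apply_ne _ h, map_zero]

/-- the ring of the Laurent polynomials -/
abbrev Lc (d : ℕ) : Type := Localization.Away (∏ i, X i : MvPolynomial (Fin d) ℂ)

theorem ev {S : Type} [Field S] [Algebra ℂ S] {t : Fin d → S} (h : ∀ i, t i ≠ 0) :
    ∃ φ : Lc d →ₐ[ℂ] S, (∀ p, φ (algebraMap (MvPolynomial (Fin d) ℂ) _ p) = aeval t p) ∧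
      φ (IsLocalization.Away.invSelf (∏ i, X i : MvPolynomial (Fin d) ℂ)) = (∏ i, t i)⁻¹ := by
  have u : IsUnit (aeval t (∏ i, X i : MvPolynomial (Fin d) ℂ)) := by
    simpa [Finset.prod_eq_zero_iff] using h
  have k : ∀ p, IsLocalization.Away.liftAlgHom (S := Lc d) _ u (algebraMap _ _ p) = aeval t p :=
    fun p => IsLocalization.Away.lift_eq _ u p
  refine ⟨_, k, eq_inv_of_mul_eq_one_right ?_⟩
  have := congrArg (IsLocalization.Away.liftAlgHom (S := Lc d) _ u)
    (IsLocalization.Away.mul_invSelf (S := Lc d) (∏ i, X i : MvPolynomial (Fin d) ℂ))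
  rw [map_mul, k, map_one] at this
  simpa using this

theorem main (hy : AlgebraicIndependent ℂ y) :
    UniqueFactorizationMonoid (Algebra.adjoin ℂ
      (range fun e : Fin (d + 1) × Fin (d + 1) => dg (∏ i, y i)⁻¹ y e.1 e.2)) ∧
    ∀ t : Fin d → ℂ, (∀ i, t i ≠ 0) → ∀ p, atMat (dg (∏ i, y i)⁻¹ y) p = 0 →
      atMat (dg (∏ i, t i)⁻¹ t) p = 0 := by
  obtain ⟨θ, h1, h2⟩ := ev hy.ne_zero
  have inj : Function.Injective θ := (injective_iff_map_eq_zero θ).2 fun z hz => by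
    obtain ⟨n, a, e⟩ := IsLocalization.Away.surj (∏ i, X i : MvPolynomial (Fin d) ℂ) z
    have := congrArg θ e
    rw [map_mul, hz, zero_mul, h1] at this
    rw [algebraicIndependent_iff.1 hy a this.symm, map_zero] at e
    exact (IsLocalization.Away.algebraMap_pow_isUnit _ n).mul_left_eq_zero.1 e
  refine ⟨?_, fun t ht p hp => ?_⟩
  · have e : Algebra.adjoin ℂ (range fun e : Fin (d + 1) × Fin (d + 1) =>
        dg (∏ i, y i)⁻¹ y e.1 e.2) = θ.range := by
      refine le_antisymm (Algebra.adjoin_le ?_) ?_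
      · rintro _ ⟨⟨i, j⟩, rfl⟩
        by_cases h : i = j
        · subst h
          simp only [dg, Matrix.diagonal_apply_eq]
          cases i using Fin.cases with
          | zero => exact ⟨_, h2⟩
          | succ i => exact ⟨_, (h1 (X i)).trans (aeval_X _ _)⟩
        · simp only [dg, Matrix.diagonal_apply_ne _ h]
          exact zero_mem _
      · rintro _ ⟨z, rfl⟩
        obtain ⟨n, a, e⟩ := IsLocalization.Away.surj (∏ i, X i : MvPolynomial (Fin d) ℂ) z
        have k := congrArg θ e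
        have p0 : ∏ i, y i ≠ 0 := Finset.prod_ne_zero_iff.2 fun i _ => hy.ne_zero i
        rw [map_mul, map_pow, h1, h1, map_prod] at k
        simp only [aeval_X] at k
        have k' : θ z = aeval y a * (∏ i, y i)⁻¹ ^ n := by
          rw [← k, inv_pow, mul_inv_cancel_right₀ (pow_ne_zero n p0)]
        change θ z ∈ _
        rw [k']
        refine mul_mem (Algebra.adjoin_mono ?_ (show aeval y a ∈ Algebra.adjoin ℂ (range y) by
          rw [Algebra.adjoin_range_eq_range_aeval]; exact ⟨a, rfl⟩))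
          (pow_mem (Algebra.subset_adjoin (mem_range.2 ⟨(0, 0), by simp [dg]⟩)) n)
        rintro _ ⟨i, rfl⟩
        exact ⟨(i.succ, i.succ), by simp [dg]⟩
    rw [e]
    exact (AlgEquiv.ofInjective θ inj).toMulEquiv.uniqueFactorizationMonoid inferInstance
  · obtain ⟨φ, k1, k2⟩ := ev ht
    have a := at_map θ (IsLocalization.Away.invSelf (∏ i, X i : MvPolynomial (Fin d) ℂ))
      (fun i => algebraMap (MvPolynomial (Fin d) ℂ) _ (X i)) p
    have b := at_map φ (IsLocalization.Away.invSelf (∏ i, X i : MvPolynomial (Fin d) ℂ))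
      (fun i => algebraMap (MvPolynomial (Fin d) ℂ) _ (X i)) p
    simp only [h1, h2, k1, k2, aeval_X] at a b
    rw [← b, (map_eq_zero_iff θ inj).1 (a.trans hp), map_zero]

/-- the points of the torus -/
theorem pts (hy : AlgebraicIndependent ℂ y) (g : Sl.Mat (d + 1)) :
    (∀ p, atMat (dg (∏ i, y i)⁻¹ y) p = 0 → atMat g p = 0) ↔
      ∃ t : Fin d → ℂ, (∀ i, t i ≠ 0) ∧ g = dg (∏ i, t i)⁻¹ t := by
  refine ⟨fun h => ?_, fun ⟨t, ht, e⟩ => e ▸ (main hy).2 t ht⟩
  have p0 : ∏ i, y i ≠ 0 := Finset.prod_ne_zero_iff.2 fun i _ => hy.ne_zero i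
  have a : g 0 0 * ∏ i : Fin d, g i.succ i.succ = 1 := by
    have := h (X (0, 0) * ∏ i : Fin d, X (i.succ, i.succ) - 1) (by simp [atMat, dg, p0])
    simpa [atMat, sub_eq_zero] using this
  refine ⟨fun i => g i.succ i.succ, fun i =>
    Finset.prod_ne_zero_iff.1 (right_ne_zero_of_mul_eq_one a) i (Finset.mem_univ i), ?_⟩
  ext i j
  by_cases e : i = j
  · subst e
    simp only [dg, Matrix.diagonal_apply_eq]
    cases i using Fin.cases with
    | zero => exact eq_inv_of_mul_eq_one_left a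
    | succ i => rfl
  · have := h (X (i, j)) (by simp [atMat, dg, e])
    simpa [atMat, dg, e] using this

open To Gl in
/-- the torus as a reductive group -/
theorem red (hy : D.Rat y) : ∃ (G : Set (Sl.Mat (d + 1))) (l : Sl.Mat (d + 1) → K ≃ₐ[ℂ] K),
    Reductive (dg (∏ i, y i)⁻¹ y) G l l ∧ (∀ a, l 1 a = a) ∧ (∀ ξ, Tangent G ξ → Borel G ξ) ∧
      ∀ g ∈ G, ∀ m, ∃ c : ℂ, c ≠ 0 ∧ l g (mon y m) = c • mon y m := by
  let G : Set (Sl.Mat (d + 1)) := {g | ∀ p, atMat (dg (∏ i, y i)⁻¹ y) p = 0 → atMat g p = 0}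
  have mG : ∀ g, g ∈ G ↔ ∃ t : Fin d → ℂ, (∀ i, t i ≠ 0) ∧ g = dg (∏ i, t i)⁻¹ t := pts hy.ind
  have ex : ∀ g : Sl.Mat (d + 1), ∃ e : K ≃ₐ[ℂ] K, g ∈ G → (∀ i, e (y i) = g i.succ i.succ • y i) ∧
      e (∏ i, y i)⁻¹ = g 0 0 • (∏ i, y i)⁻¹ ∧ ∀ m, ∃ c : ℂ, c ≠ 0 ∧ e (mon y m) = c • mon y m := by
    intro g
    by_cases hg : g ∈ G
    · obtain ⟨t, ht, rfl⟩ := (mG g).1 hg
      obtain ⟨e, he⟩ := exists_tr hy fun i => Units.mk0 (t i) (ht i)
      have k : ∀ i, e (y i) = t i • y i := fun i => by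
        have := he (Pi.single i 1)
        simpa [mon, chi, Pi.single_apply, apply_ite] using this
      refine ⟨e, fun _ => ⟨fun i => by simpa [dg] using k i, ?_, fun m => ⟨_, chi_ne _ _, he m⟩⟩⟩
      simp [dg, k, Algebra.smul_def, Finset.prod_mul_distrib, mul_comm]
    · exact ⟨AlgEquiv.refl, fun a => (hg a).elim⟩
  choose l hl using ex
  have dia : ∀ g ∈ G, ∀ i j, i ≠ j → g i j = 0 := fun g hg i j e => by
    obtain ⟨t, -, rfl⟩ := (mG g).1 hg
    exact Matrix.diagonal_apply_ne _ e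
  have lx : ∀ g ∈ G, ∀ i j, l g (dg (∏ i, y i)⁻¹ y i j) = g i i • dg (∏ i, y i)⁻¹ y i j :=
    fun g hg i j => by
    by_cases e : i = j
    · subst e
      simp only [dg, Matrix.diagonal_apply_eq]
      cases i using Fin.cases with
      | zero => exact (hl g hg).2.1
      | succ i => exact (hl g hg).1 i
    · simp [dg, e]
  have one : (1 : Sl.Mat (d + 1)) ∈ G := (mG 1).2 ⟨1, fun _ => one_ne_zero, by
    ext i j
    by_cases e : i = j
    · subst e
      cases i using Fin.cases <;> simp [dg]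
    · simp [dg, e]⟩
  have bo : ∀ ξ, Tangent G ξ → Borel G ξ := fun ξ hξ => ⟨hξ, fun i j e => by
    have := hξ (MvPolynomial.X (i, j)) fun g hg => by simpa [atMat] using dia g hg i j e.ne'
    simpa [atMat, pderiv_X, Pi.single_apply, apply_ite] using this⟩
  refine ⟨G, l, ⟨?_, fun a => ?_, (main hy.ind).1, fun _ => Iff.rfl, one, fun g hg => ?_,
    fun g hg i j => ?_, fun g hg i j => ?_, fun ξ hξ => ⟨ξ, bo ξ hξ, fun _ _ _ => rfl⟩⟩,
    fun a => ?_, bo, fun g hg => (hl g hg).2.2⟩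
  · simp [dg, Fin.prod_univ_succ, Finset.prod_ne_zero_iff, hy.ind.ne_zero]
  · obtain ⟨r, s, e⟩ := (IntermediateField.mem_adjoin_range_iff ℂ y a).1 (hy.gen a)
    refine ⟨rename (fun i => (i.succ, i.succ)) r, rename (fun i => (i.succ, i.succ)) s, ?_⟩
    simpa [atMat, aeval_rename, Function.comp_def, dg] using e
  · obtain ⟨t, ht, rfl⟩ := (mG g).1 hg
    refine (mG _).2 ⟨fun i => star (t i), fun i => star_ne_zero.2 (ht i), ?_⟩
    rw [dg, Matrix.diagonal_conjTranspose]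
    refine congrArg Matrix.diagonal (funext fun i => ?_)
    cases i using Fin.cases <;> simp
  · rw [lx g hg, Finset.sum_eq_single i (fun k _ e => by rw [dia g hg i k e.symm, zero_smul])
      fun a => (a (Finset.mem_univ _)).elim]
  · rw [lx g hg, Finset.sum_eq_single j (fun k _ e => by rw [dia g hg k j e, zero_smul])
      fun a => (a (Finset.mem_univ _)).elim]
    by_cases e : i = j
    · rw [e]
    · simp [dg, e]
  · obtain ⟨r, s, rfl⟩ := (IntermediateField.mem_adjoin_range_iff ℂ y a).1 (hy.gen a)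
    have k : ∀ p, l 1 (aeval y p) = aeval y p := fun p => by
      have := congrArg (fun φ => φ p) (comp_aeval y (l 1).toAlgHom)
      refine this.trans (congrArg (fun z => aeval z p) (funext fun i => ?_))
      simpa using (hl 1 one).1 i
    rw [map_div₀, k, k]

open To in
theorem stab {S : Set (Fin d → ℤ)} (σ : K ≃ₐ[ℂ] K) (c : ∀ m, ∃ c : ℂ, σ (mon y m) = c • mon y m)
    {a : K} (ha : a ∈ Submodule.span ℂ (mon y '' S)) : σ a ∈ Submodule.span ℂ (mon y '' S) := by
  refine (Submodule.span_le (p := (Submodule.span ℂ (mon y '' S)).comap σ.toLinearMap)).2 ?_ ha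
  rintro _ ⟨m, hm, rfl⟩
  obtain ⟨c, hc⟩ := c m
  change σ _ ∈ Submodule.span ℂ (mon y '' S)
  rw [hc]
  exact Submodule.smul_mem _ _ (Submodule.subset_span ⟨m, hm, rfl⟩)

open To in
theorem inv {σ : K ≃ₐ[ℂ] K} (h : ∀ m, ∃ c : ℂ, c ≠ 0 ∧ σ (mon y m) = c • mon y m) (m : Fin d → ℤ) :
    ∃ c : ℂ, σ.symm (mon y m) = c • mon y m := by
  obtain ⟨c, c0, b⟩ := h m
  exact ⟨c⁻¹, by rw [AlgEquiv.symm_apply_eq, map_smul, b, smul_smul, inv_mul_cancel₀ c0, one_smul]⟩

end T56

open Sl Sl.Var in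
/-- toric varieties are spherical -/
theorem tor56 {X : Var} {d : ℕ} {W : X.X.Opens} {x : Pt X.X} (hx : x.In W) (h : Toric W d) :
    IsSpherical (d + 1) W := by
  obtain ⟨y, h⟩ := (Gl.toric_iff (X := X.o) (W := W) (d := d)).1 h
  obtain ⟨G, l, r, l1, bo, hl⟩ := T56.red (K := X.K) (h.rat hx)
  refine ⟨X.K, inferInstance, inferInstance, _, G, {1}, l, l, AlgHom.id ℂ _, r,
    singleton_subset_iff.2 r.one, fun a => ⟨fun _ g hg => hg ▸ l1 a, fun _ => ⟨a, rfl⟩⟩,
    fun ξ hξ => ⟨ξ, bo ξ hξ, fun p _ => by simp⟩, fun g hg z hz => ?_⟩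
  obtain ⟨U, le, hU, zU, S, -, e⟩ := h.2 z hz
  have : IsNoetherian X.X := P283M.Am.noeth X.o
  obtain ⟨q, hq, k⟩ := T56.mov (X := X.X) hU (l g).toRingEquiv
    (fun a ha => P283M.Am.mem_reg.2 ((e _).2 (T56.stab (K := X.K) (l g)
      (fun m => let ⟨c, _, b⟩ := hl g hg m; ⟨c, b⟩) ((e a).1 (P283M.Am.mem_reg.1 ha)))))
    (fun a ha => P283M.Am.mem_reg.2 ((e _).2 (T56.stab (K := X.K) (l g).symm
      (T56.inv (hl g hg)) ((e a).1 (P283M.Am.mem_reg.1 ha))))) zU
  exact ⟨q, le hq, fun a a' b => (show l g a = a' from b) ▸ k a⟩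

end Vale.Agent.P283R.Sq
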